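import Vale.Agent.P247.H574.Sta2

/-!
# The flat model on the line bundle of degree one over `T⁴`: definitions

Sections are functions on `ℝ⁴` with `φ (x + k) = exp (2 π i k₀ x₁) φ x`; the base connection is
`d - i (2 π x₀ dx₁ - 2 π ξ₁ dx₂ - 2 π ξ₂ dx₃)`.  All Hilbert spaces are `L²` of the unit cube.
-/

open scoped ContDiff Topology
open Set MeasureTheory Filter Metric Complex

noncomputable section

namespace Vale.Agent.P247.H957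

open Vale.Agent.P247.H74 Vale.Agent.P247.H574

/-- Lebesgue measure on the unit cube -/
abbrev mQ : Measure R4 := volume.restrict (Icc (0 : R4) 1)

/-- square integrable functions on the unit cube -/
abbrev H : Type := Lp ℂ 2 mQ

/-- two-component fields -/
abbrev HH : Type := PiLp 2 (fun _ : Fin 2 => H)

/-- smooth sections of the line bundle -/
structure Sec (φ : R4 → ℂ) : Prop where
  smooth : ContDiff ℝ ∞ φ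
  per : ∀ (k : Fin 4 → ℤ) x, φ (tr k x) = exp (2 * Real.pi * I * k 0 * x 1) * φ x

/-- the base connection form with flat parameter `ξ` -/
def A0 (ξ : ℝ × ℝ) (x : R4) : R4 →L[ℝ] ℝ :=
  (2 * Real.pi * x 0) • (ContinuousLinearMap.proj 1 : R4 →L[ℝ] ℝ)
    - (2 * Real.pi * ξ.1) • (ContinuousLinearMap.proj 2 : R4 →L[ℝ] ℝ)
    - (2 * Real.pi * ξ.2) • (ContinuousLinearMap.proj 3 : R4 →L[ℝ] ℝ)

/-- the covariant derivatives `∇ⱼ` of the base connection -/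
def nb (ξ : ℝ × ℝ) (j : Fin 4) (φ : R4 → ℂ) (x : R4) : ℂ := nab (A0 ξ) φ x (e j)

/-- the function `exp (2 π i (ξ₁ x₂ + ξ₂ x₃))` -/
def vx (ξ : ℝ × ℝ) (x : R4) : ℂ := exp (2 * Real.pi * I * (ξ.1 * x 2 + ξ.2 * x 3))

/-- `w : H` is represented by the function `φ` -/
def Rep (w : H) (φ : R4 → ℂ) : Prop := w =ᵐ[mQ] φ

open Classical in
/-- multiplication by a continuous function (`0` if `f` is not continuous) -/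
def mulOp (f : R4 → ℂ) : H →L[ℂ] H :=
  if h : ∃ M : H →L[ℂ] H, ∀ w : H, M w =ᵐ[mQ] fun x => f x * w x then h.choose else 0

/-- `J ξ = (1 + ∇*∇)^(-1/2)`, `G ξ j = ∇ⱼ J ξ` on `L²` of the cube. -/
structure Fl (J : ℝ × ℝ → H →L[ℂ] H) (G : ℝ × ℝ → Fin 4 → H →L[ℂ] H) : Prop where
  contJ : Continuous J
  contG : ∀ j, Continuous fun ξ => G ξ j
  compact : ∀ ξ, IsCompactOperator (J ξ)
  inj : ∀ ξ, Function.Injective (J ξ)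
  norm : ∀ ξ w, ‖w‖ ^ 2 = ‖J ξ w‖ ^ 2 + ∑ j, ‖G ξ j w‖ ^ 2
  sec : ∀ ξ φ, Sec φ → ∃ w : H, Rep (J ξ w) φ ∧ ∀ j, Rep (G ξ j w) (nb ξ j φ)
  dense : ∀ ξ, Dense {w : H | ∃ φ, Sec φ ∧ Rep (J ξ w) φ ∧ ∀ j, Rep (G ξ j w) (nb ξ j φ)}
  perJ : ∀ ξ (m n : ℤ), mulOp (vx (m, n)) ∘L J (ξ + ((m : ℝ), (n : ℝ))) =
    J ξ ∘L mulOp (vx (m, n))
  perG : ∀ ξ (m n : ℤ) j, mulOp (vx (m, n)) ∘L G (ξ + ((m : ℝ), (n : ℝ))) j =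
    G ξ j ∘L mulOp (vx (m, n))

/-- The flat Dirac operator `∑ σ_a ∇_a` with `σ₀ = 1`, `σ₁ = diag (i, -i)`,
`σ₂ = [[0, -1], [1, 0]]`, `σ₃ = [[0, i], [i, 0]]`, on two-component fields. -/
def D1 (G : ℝ × ℝ → Fin 4 → H →L[ℂ] H) (ξ : ℝ × ℝ) (w : Fin 2 → H) : Fin 2 → H :=
  ![G ξ 0 (w 0) + I • G ξ 1 (w 0) - G ξ 2 (w 1) + I • G ξ 3 (w 1),
    G ξ 2 (w 0) + I • G ξ 3 (w 0) + G ξ 0 (w 1) - I • G ξ 1 (w 1)]

/-- The properties of the flat Dirac operator; `ψ₀` and `φ₀` are `(θ, 0)` and `(0, θ)`. -/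
structure FlD (G : ℝ × ℝ → Fin 4 → H →L[ℂ] H) (θ : H) : Prop where
  unit : ‖θ‖ = 1
  bij : ∀ ξ, (∀ m n : ℤ, ξ ≠ ((m : ℝ), (n : ℝ))) → ∀ y : Fin 2 → H, ∃! w, D1 G ξ w = y
  ker : ∀ w, D1 G 0 w = 0 ↔ ∃ a : ℂ, w = ![a • θ, 0]
  coker : ∀ y : Fin 2 → H, (∀ w, ∑ i, inner ℂ (y i) (D1 G 0 w i) = 0) ↔ ∃ a : ℂ, y = ![0, a • θ]
  lip : ∃ C : ℝ, ∀ ξ ξ' j, ‖G ξ j - G ξ' j‖ ≤ C * ‖ξ - ξ'‖
  der : ∃ κ : ℂ, κ ≠ 0 ∧ ∃ C : ℝ, ∀ ξ, ‖inner ℂ θ (D1 G ξ ![θ, 0] 1) - κ * (ξ.1 + ξ.2 * I)‖ ≤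
    C * ‖ξ‖ ^ 2
  off : ∃ C : ℝ, ∀ ξ, ‖D1 G ξ ![θ, 0] 0‖ ≤ C * ‖ξ‖ ^ 2

/-- The package. -/
def FLAT_statement : Prop := ∃ (J : ℝ × ℝ → H →L[ℂ] H) (G : ℝ × ℝ → Fin 4 → H →L[ℂ] H) (θ : H),
  Fl J G ∧ FlD G θ

end Vale.Agent.P247.H957
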