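import Vale.Agent.P247.H957.Fl0

/-!
# Calculus of sections: covariant derivatives, integration by parts on the unit cube
-/

open scoped ContDiff Topology
open Set MeasureTheory Filter Metric Complex

noncomputable section

namespace Vale.Agent.P247.H957

open Vale.Agent.P247.H74 Vale.Agent.P247.H574

/-- the coefficients of the base connection -/
def A0c (ξ : ℝ × ℝ) (j : Fin 4) (x : R4) : ℝ :=
  ![0, 2 * Real.pi * x 0, -(2 * Real.pi * ξ.1), -(2 * Real.pi * ξ.2)] j

lemma e_apply (i j : Fin 4) : (e i : R4) j = if j = i then 1 else 0 := by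
  simp [e, Pi.single_apply]

lemma A0_e (ξ : ℝ × ℝ) (x : R4) (j : Fin 4) : A0 ξ x (e j) = A0c ξ j x := by
  fin_cases j <;> simp [A0, A0c, e_apply]

lemma nb_eq (ξ : ℝ × ℝ) (j : Fin 4) (φ : R4 → ℂ) (x : R4) :
    nb ξ j φ x = fderiv ℝ φ x (e j) - I * (A0c ξ j x : ℂ) * φ x := by
  rw [nb, nab, A0_e]

lemma contDiff_A0c (ξ : ℝ × ℝ) (j : Fin 4) : ContDiff ℝ ∞ (A0c ξ j) := by
  fin_cases j
  · exact contDiff_const
  · exact contDiff_const.mul (contDiff_apply ℝ ℝ (0 : Fin 4))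
  · exact contDiff_const
  · exact contDiff_const

lemma contDiff_A0C (ξ : ℝ × ℝ) (j : Fin 4) : ContDiff ℝ ∞ (fun x => (A0c ξ j x : ℂ)) :=
  ofRealCLM.contDiff.comp (contDiff_A0c ξ j)

lemma contDiff_fderiv_apply {E F : Type*} [NormedAddCommGroup E] [NormedSpace ℝ E]
    [NormedAddCommGroup F] [NormedSpace ℝ F] {f : E → F} (hf : ContDiff ℝ ∞ f) (v : E) :
    ContDiff ℝ ∞ (fun x => fderiv ℝ f x v) :=
  (hf.fderiv_right (m := ∞) (by simp)).clm_apply contDiff_const

lemma contDiff_nb (ξ : ℝ × ℝ) (j : Fin 4) {φ : R4 → ℂ} (h : ContDiff ℝ ∞ φ) :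
    ContDiff ℝ ∞ (nb ξ j φ) := by
  have : nb ξ j φ = fun x => fderiv ℝ φ x (e j) - I * (A0c ξ j x : ℂ) * φ x :=
    funext fun x => nb_eq ξ j φ x
  rw [this]
  exact (contDiff_fderiv_apply h _).sub ((contDiff_const.mul (contDiff_A0C ξ j)).mul h)

/-- the multiplier of the lattice translation `k` -/
def chi (k : Fin 4 → ℤ) (x : R4) : ℂ := exp (2 * Real.pi * I * k 0 * x 1)

lemma hasFDerivAt_chi (k : Fin 4 → ℤ) (x : R4) :
    HasFDerivAt (chi k) ((chi k x * (2 * Real.pi * I * k 0)) •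
      (ofRealCLM ∘L (ContinuousLinearMap.proj 1 : R4 →L[ℝ] ℝ))) x := by
  have h1 : HasFDerivAt (fun x : R4 => ((x 1 : ℝ) : ℂ))
      (ofRealCLM ∘L (ContinuousLinearMap.proj 1 : R4 →L[ℝ] ℝ)) x :=
    (ofRealCLM ∘L (ContinuousLinearMap.proj 1 : R4 →L[ℝ] ℝ)).hasFDerivAt
  have h2 := (h1.const_mul (2 * Real.pi * I * k 0)).cexp
  refine h2.congr_fderiv ?_
  ext v
  simp [chi, mul_assoc]

lemma tr_hasFDerivAt (k : Fin 4 → ℤ) (x : R4) :
    HasFDerivAt (tr k) (ContinuousLinearMap.id ℝ R4) x := by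
  have : tr k = fun x : R4 => x + (fun i => (k i : ℝ)) := by
    funext y i; simp [tr]
  rw [this]
  exact (hasFDerivAt_id x).add_const _

lemma Sec.fderiv_tr {φ : R4 → ℂ} (h : Sec φ) (k : Fin 4 → ℤ) (x v : R4) :
    fderiv ℝ φ (tr k x) v = chi k x * (fderiv ℝ φ x v + 2 * Real.pi * I * k 0 * v 1 * φ x) := by
  have hd : ∀ y, DifferentiableAt ℝ φ y := fun y =>
    (h.smooth.differentiable (by simp)).differentiableAt
  have h1 : HasFDerivAt (fun x => φ (tr k x)) ((fderiv ℝ φ (tr k x)) ∘L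
      (ContinuousLinearMap.id ℝ R4)) x :=
    (hd (tr k x)).hasFDerivAt.comp x (tr_hasFDerivAt k x)
  have h2 : HasFDerivAt (fun x => chi k x * φ x) (chi k x • fderiv ℝ φ x + φ x •
      ((chi k x * (2 * Real.pi * I * k 0)) •
      (ofRealCLM ∘L (ContinuousLinearMap.proj 1 : R4 →L[ℝ] ℝ)))) x :=
    (hasFDerivAt_chi k x).mul (hd x).hasFDerivAt
  have h3 : (fun x => φ (tr k x)) = fun x => chi k x * φ x := funext fun x => h.per k x
  rw [h3] at h1
  have h4 := h1.unique h2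
  have h5 := congrArg (fun L : R4 →L[ℝ] ℂ => L v) h4
  simp at h5
  rw [h5]
  ring

lemma A0c_tr (ξ : ℝ × ℝ) (j : Fin 4) (k : Fin 4 → ℤ) (x : R4) :
    A0c ξ j (tr k x) = A0c ξ j x + 2 * Real.pi * k 0 * (e j : R4) 1 := by
  fin_cases j <;> simp [A0c, tr, e_apply]
  ring

/-- the covariant derivatives map sections to sections -/
lemma Sec.nb {φ : R4 → ℂ} (h : Sec φ) (ξ : ℝ × ℝ) (j : Fin 4) : Sec (nb ξ j φ) where
  smooth := contDiff_nb ξ j h.smooth
  per k x := by
    rw [nb_eq, nb_eq, h.fderiv_tr, A0c_tr, h.per k x]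
    simp only [chi]
    push_cast
    ring

lemma Sec.add {φ ψ : R4 → ℂ} (h : Sec φ) (h' : Sec ψ) : Sec (fun x => φ x + ψ x) where
  smooth := h.smooth.add h'.smooth
  per k x := by rw [h.per, h'.per]; ring

lemma Sec.sub {φ ψ : R4 → ℂ} (h : Sec φ) (h' : Sec ψ) : Sec (fun x => φ x - ψ x) where
  smooth := h.smooth.sub h'.smooth
  per k x := by rw [h.per, h'.per]; ring

lemma Sec.zero : Sec (fun _ => 0) where
  smooth := contDiff_const
  per k x := by simp

lemma Sec.const_mul {φ : R4 → ℂ} (h : Sec φ) (c : ℂ) : Sec (fun x => c * φ x) where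
  smooth := contDiff_const.mul h.smooth
  per k x := by rw [h.per]; ring

lemma Sec.neg {φ : R4 → ℂ} (h : Sec φ) : Sec (fun x => - φ x) where
  smooth := h.smooth.neg
  per k x := by rw [h.per]; ring

lemma Sec.sum {ι : Type*} (s : Finset ι) {φ : ι → R4 → ℂ} (h : ∀ i ∈ s, Sec (φ i)) :
    Sec (fun x => ∑ i ∈ s, φ i x) where
  smooth := ContDiff.sum fun i hi => (h i hi).smooth
  per k x := by
    rw [Finset.mul_sum]
    exact Finset.sum_congr rfl fun i hi => (h i hi).per k x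

/-- multiplication by a periodic function -/
lemma Sec.mul_per {φ : R4 → ℂ} (h : Sec φ) {f : R4 → ℂ} (hf : ContDiff ℝ ∞ f)
    (hp : ∀ k x, f (tr k x) = f x) : Sec (fun x => f x * φ x) where
  smooth := hf.mul h.smooth
  per k x := by rw [h.per, hp]; ring

lemma nb_add (ξ : ℝ × ℝ) (j : Fin 4) {φ ψ : R4 → ℂ} (h : ContDiff ℝ ∞ φ) (h' : ContDiff ℝ ∞ ψ)
    (x : R4) : nb ξ j (fun x => φ x + ψ x) x = nb ξ j φ x + nb ξ j ψ x := by
  rw [nb_eq, nb_eq, nb_eq]
  have h1 : fderiv ℝ (fun x => φ x + ψ x) x = fderiv ℝ φ x + fderiv ℝ ψ x :=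
    fderiv_fun_add (h.differentiable (by simp)).differentiableAt
      (h'.differentiable (by simp)).differentiableAt
  rw [h1]
  simp
  ring

lemma nb_sub (ξ : ℝ × ℝ) (j : Fin 4) {φ ψ : R4 → ℂ} (h : ContDiff ℝ ∞ φ) (h' : ContDiff ℝ ∞ ψ)
    (x : R4) : nb ξ j (fun x => φ x - ψ x) x = nb ξ j φ x - nb ξ j ψ x := by
  rw [nb_eq, nb_eq, nb_eq]
  have h1 : fderiv ℝ (fun x => φ x - ψ x) x = fderiv ℝ φ x - fderiv ℝ ψ x :=
    fderiv_fun_sub (h.differentiable (by simp)).differentiableAt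
      (h'.differentiable (by simp)).differentiableAt
  rw [h1]
  simp
  ring

/-- Leibniz rule -/
lemma nb_mul (ξ : ℝ × ℝ) (j : Fin 4) {f φ : R4 → ℂ} (hf : ContDiff ℝ ∞ f) (h : ContDiff ℝ ∞ φ)
    (x : R4) : nb ξ j (fun x => f x * φ x) x = f x * nb ξ j φ x + fderiv ℝ f x (e j) * φ x := by
  rw [nb_eq, nb_eq]
  have h1 : fderiv ℝ (fun x => f x * φ x) x = f x • fderiv ℝ φ x + φ x • fderiv ℝ f x :=
    fderiv_fun_mul (hf.differentiable (by simp)).differentiableAt
      (h.differentiable (by simp)).differentiableAt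
  rw [h1]
  simp
  ring

lemma nb_const_mul (ξ : ℝ × ℝ) (j : Fin 4) (c : ℂ) {φ : R4 → ℂ} (h : ContDiff ℝ ∞ φ)
    (x : R4) : nb ξ j (fun x => c * φ x) x = c * nb ξ j φ x := by
  rw [nb_mul ξ j contDiff_const h]
  simp

lemma nb_neg (ξ : ℝ × ℝ) (j : Fin 4) {φ : R4 → ℂ} (h : ContDiff ℝ ∞ φ)
    (x : R4) : nb ξ j (fun x => - φ x) x = - nb ξ j φ x := by
  have := nb_const_mul ξ j (-1) h x
  simpa using this

lemma nb_sum (ξ : ℝ × ℝ) (j : Fin 4) {ι : Type*} (s : Finset ι) {φ : ι → R4 → ℂ}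
    (h : ∀ i ∈ s, ContDiff ℝ ∞ (φ i)) (x : R4) :
    nb ξ j (fun x => ∑ i ∈ s, φ i x) x = ∑ i ∈ s, nb ξ j (φ i) x := by
  classical
  induction s using Finset.induction_on with
  | empty => simp [nb_eq]
  | insert a s ha ih =>
    have h1 : ContDiff ℝ ∞ (fun x => ∑ i ∈ s, φ i x) :=
      ContDiff.sum fun i hi => h i (Finset.mem_insert_of_mem hi)
    simp only [Finset.sum_insert ha]
    rw [nb_add ξ j (h a (Finset.mem_insert_self a s)) h1,
      ih fun i hi => h i (Finset.mem_insert_of_mem hi)]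

/-- commutators of the covariant derivatives of the base connection -/
lemma nb_comm (ξ : ℝ × ℝ) (i j : Fin 4) {φ : R4 → ℂ} (h : ContDiff ℝ ∞ φ) (x : R4) :
    nb ξ i (nb ξ j φ) x - nb ξ j (nb ξ i φ) x =
      -(I * (fderiv ℝ (A0c ξ j) x (e i) - fderiv ℝ (A0c ξ i) x (e j) : ℝ)) * φ x := by
  have hd : DifferentiableAt ℝ φ x := (h.differentiable (by simp)).differentiableAt
  have hA : ∀ j, DifferentiableAt ℝ (A0c ξ j) x := fun j =>
    ((contDiff_A0c ξ j).differentiable (by simp)).differentiableAt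
  have hAC : ∀ j v, fderiv ℝ (fun x => (A0c ξ j x : ℂ)) x v = (fderiv ℝ (A0c ξ j) x v : ℂ) := by
    intro j v
    have := (ofRealCLM.hasFDerivAt (x := A0c ξ j x)).comp x (hA j).hasFDerivAt
    have h2 : HasFDerivAt (fun x => (A0c ξ j x : ℂ)) (ofRealCLM ∘L fderiv ℝ (A0c ξ j) x) x := this
    rw [h2.fderiv]
    simp
  have key : ∀ i j, fderiv ℝ (nb ξ j φ) x (e i) = fderiv ℝ (fun y => fderiv ℝ φ y (e j)) x (e i)
      - I * (fderiv ℝ (A0c ξ j) x (e i) : ℂ) * φ x - I * (A0c ξ j x : ℂ) * fderiv ℝ φ x (e i) := by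
    intro i j
    have h1 : nb ξ j φ = fun x => fderiv ℝ φ x (e j) - I * (A0c ξ j x : ℂ) * φ x :=
      funext fun x => nb_eq ξ j φ x
    have h2 : DifferentiableAt ℝ (fun y => fderiv ℝ φ y (e j)) x :=
      ((contDiff_fderiv_apply h (e j)).differentiable (by simp)).differentiableAt
    have h3 : DifferentiableAt ℝ (fun x => (A0c ξ j x : ℂ)) x :=
      ((contDiff_A0C ξ j).differentiable (by simp)).differentiableAt
    have h4 : DifferentiableAt ℝ (fun x => I * (A0c ξ j x : ℂ)) x := h3.const_mul I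
    rw [h1, fderiv_fun_sub h2 (h4.fun_mul hd), fderiv_fun_mul h4 hd, fderiv_const_mul h3]
    simp [hAC]
    ring
  have hs : fderiv ℝ (fun y => fderiv ℝ φ y (e j)) x (e i) =
      fderiv ℝ (fun y => fderiv ℝ φ y (e i)) x (e j) := by
    have h2 : DifferentiableAt ℝ (fderiv ℝ φ) x :=
      ((h.fderiv_right (m := ∞) (by simp)).differentiable (by simp)).differentiableAt
    have h3 : ∀ v, fderiv ℝ (fun y => fderiv ℝ φ y v) x = (fderiv ℝ (fderiv ℝ φ) x).flip v := by
      intro v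
      have := h2.hasFDerivAt.clm_apply (hasFDerivAt_const v x)
      rw [this.fderiv]
      ext w
      simp
    rw [h3, h3]
    simp only [ContinuousLinearMap.flip_apply]
    have h4 : IsSymmSndFDerivAt ℝ φ x :=
      (h.contDiffAt).isSymmSndFDerivAt (by
        simp only [minSmoothness_of_isRCLikeNormedField]
        exact WithTop.coe_le_coe.2 (le_top : (2 : ℕ∞) ≤ ⊤))
    exact h4 (e i) (e j)
  rw [nb_eq ξ i, nb_eq ξ j (nb ξ i φ), key, key, hs, nb_eq, nb_eq]
  push_cast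
  ring

lemma fderiv_A0c (ξ : ℝ × ℝ) (i j : Fin 4) (x : R4) :
    fderiv ℝ (A0c ξ j) x (e i) = if i = 0 ∧ j = 1 then 2 * Real.pi else 0 := by
  have hc : ∀ c : ℝ, fderiv ℝ (fun _ : R4 => c) x (e i) = 0 := by intro c; simp
  have h1 : fderiv ℝ (fun x : R4 => 2 * Real.pi * x 0) x (e i) = if i = 0 then 2 * Real.pi else 0 := by
    have : HasFDerivAt (fun x : R4 => 2 * Real.pi * x 0)
        ((2 * Real.pi) • (ContinuousLinearMap.proj 0 : R4 →L[ℝ] ℝ)) x :=
      (ContinuousLinearMap.proj 0 : R4 →L[ℝ] ℝ).hasFDerivAt.const_mul _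
    rw [this.fderiv]
    simp [e_apply, eq_comm]
  fin_cases j
  · have : A0c ξ ⟨0, by norm_num⟩ = fun _ => 0 := by funext y; simp [A0c]
    rw [this, hc]; simp
  · have : A0c ξ ⟨1, by norm_num⟩ = fun x => 2 * Real.pi * x 0 := by funext y; simp [A0c]
    rw [this, h1]; simp
  · have : A0c ξ ⟨2, by norm_num⟩ = fun _ => -(2 * Real.pi * ξ.1) := by funext y; simp [A0c]
    rw [this, hc]; simp
  · have : A0c ξ ⟨3, by norm_num⟩ = fun _ => -(2 * Real.pi * ξ.2) := by funext y; simp [A0c]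
    rw [this, hc]; simp

lemma nb_comm01 (ξ : ℝ × ℝ) {φ : R4 → ℂ} (h : ContDiff ℝ ∞ φ) (x : R4) :
    nb ξ 0 (nb ξ 1 φ) x = nb ξ 1 (nb ξ 0 φ) x - 2 * Real.pi * I * φ x := by
  have := nb_comm ξ 0 1 h x
  rw [fderiv_A0c, fderiv_A0c] at this
  simp at this
  linear_combination this

lemma nb_comm_of (ξ : ℝ × ℝ) {i j : Fin 4} (hij : ¬ (i = 0 ∧ j = 1)) (hji : ¬ (j = 0 ∧ i = 1))
    {φ : R4 → ℂ} (h : ContDiff ℝ ∞ φ) (x : R4) : nb ξ i (nb ξ j φ) x = nb ξ j (nb ξ i φ) x := by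
  have := nb_comm ξ i j h x
  rw [fderiv_A0c, fderiv_A0c, if_neg hij, if_neg hji] at this
  simp at this
  linear_combination this

/-! ## Integration over the cube -/

lemma integrableOn_cube {E : Type*} [NormedAddCommGroup E] {f : R4 → E} (hf : Continuous f) :
    IntegrableOn f (Icc (0 : R4) 1) :=
  hf.continuousOn.integrableOn_compact isCompact_Icc

lemma int_fderiv_eq_zero {E : Type*} [NormedAddCommGroup E] [NormedSpace ℝ E] [CompleteSpace E]
    {u : R4 → E} (hu : ContDiff ℝ 1 u) (hp : ∀ k x, u (tr k x) = u x) (j : Fin 4) :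
    ∫ x in Icc (0 : R4) 1, fderiv ℝ u x (e j) = 0 := by
  classical
  have hd : ∀ x, DifferentiableAt ℝ u x := fun x => (hu.differentiable (by simp)).differentiableAt
  have hc : Continuous fun x => fderiv ℝ u x (e j) :=
    (hu.continuous_fderiv (by simp)).clm_apply continuous_const
  have h := MeasureTheory.integral_divergence_of_hasFDerivAt_off_countable' (n := 3) (0 : R4)
    (1 : R4) zero_le_one (fun i x => if i = j then u x else 0)
    (fun i x => if i = j then fderiv ℝ u x else 0) ∅ countable_empty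
    (by
      intro i
      by_cases hi : i = j
      · simp only [hi, if_true]; exact hu.continuous.continuousOn
      · simp only [hi, if_false]; exact continuousOn_const)
    (by
      intro x _ i
      by_cases hi : i = j
      · simp only [hi, if_true]; exact (hd x).hasFDerivAt
      · simp only [hi, if_false]; exact hasFDerivAt_const 0 x)
    (by
      have : (fun x : R4 => ∑ i, (if i = j then fderiv ℝ u x else 0) (Pi.single i 1)) =
          fun x => fderiv ℝ u x (e j) := by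
        funext x
        rw [Finset.sum_eq_single j]
        · simp [e]
        · intro i _ hi; simp [hi]
        · simp
      rw [this]
      exact integrableOn_cube hc)
  have h1 : (fun x : R4 => ∑ i, (if i = j then fderiv ℝ u x else 0) (Pi.single i 1)) =
      fun x => fderiv ℝ u x (e j) := by
    funext x
    rw [Finset.sum_eq_single j]
    · simp [e]
    · intro i _ hi; simp [hi]
    · simp
  rw [h1] at h
  rw [h, Finset.sum_eq_single j]
  · simp only [if_true]
    rw [sub_eq_zero]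
    refine setIntegral_congr_fun measurableSet_Icc fun x _ => ?_
    have h2 : (j.insertNth ((1 : R4) j) x : R4) = tr (Pi.single j 1) (j.insertNth ((0 : R4) j) x) := by
      funext i
      refine Fin.succAboveCases j ?_ (fun l => ?_) i
      · simp [tr]
      · simp [tr, Fin.succAbove_ne]
    simp only [h2, hp]
  · intro i _ hi; simp [hi]
  · simp

end Vale.Agent.P247.H957
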