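import Vale.Agent.P247.H324.MG.Def

/-!
# Package PUI-ASM (helper957): interface

`TopP` : the topological output (branches `(s ^ k, W s)` of a continuous multisection).
`CLU_statement` : `Bas` ⇒ `TopP` (from `PUIS_statement` and `ORB_statement`: base change
`z ↦ z + m0 z̄` at every value `y0` over `0`, clusters, union).
`ANA_statement` : `Bas` + `TopP` ⇒ the analytic clauses.
-/

open MeasureTheory Set Metric Filter Topology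
open scoped ContDiff ENNReal

noncomputable section

namespace Vale.Agent.P247.H957.Asm

open Vale.Agent.P247.H324

/-- continuous branches of a multisection near `z = 0` -/
structure TopP (N : ℕ) (Y : ℂ → Fin N → ℂ) (δ : ℝ) (L : ℕ) (k μ : Fin L → ℕ)
    (W : Fin L → ℂ → ℂ) : Prop where
  pos : ∀ l, 1 ≤ k l ∧ 1 ≤ μ l
  card : N = ∑ l, k l * μ l
  cont : ∀ l, ContinuousOn (W l) {s | s ≠ 0 ∧ ‖s‖ ^ k l < δ}
  inj : ∀ l l' s s', s ≠ 0 → ‖s‖ ^ k l < δ → s ^ k l = s' ^ k l' → W l s = W l' s' →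
    l = l' ∧ s = s'
  mem0 : ∀ l, ∃ i, W l 0 = Y 0 i
  near : ∃ η > 0, ∀ l s, s ≠ 0 → ‖s‖ ^ k l < δ → ∀ i, Y 0 i ≠ W l 0 → η ≤ ‖W l s - Y 0 i‖
  sum : ∀ z, z ≠ 0 → ‖z‖ < δ → ∀ s : Fin L → ℂ, (∀ l, s l ^ k l = z) →
    Finset.univ.val.map (Y z) = ∑ l, μ l • ∑ j ∈ Finset.range (k l),
      {W l (Complex.exp (2 * Real.pi * Complex.I * j / k l) * s l)}

/-- `Bas` ⇒ branches (base change, clusters, `PUIS`, `ORB`, union) -/
def CLU_statement : Prop := ∀ (N : ℕ) (R K ε L : ℝ) (m A : ℂ × ℂ → ℂ) (g : ℂ → ℝ≥0∞)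
  (Y : ℂ → Fin N → ℂ) (D : ℂ → Fin N → ℂ →L[ℝ] ℂ),
  ContDiffOn ℝ ∞ m (H574.PD 2) → ContDiffOn ℝ ∞ A (H574.PD 2) → (∀ p ∈ H574.PD 2, ‖m p‖ < 1) →
  L < 1 → Bas R K ε L m A g Y D →
  ∃ (δ : ℝ) (n : ℕ) (k μ : Fin n → ℕ) (W : Fin n → ℂ → ℂ), 0 < δ ∧ δ ≤ R ∧ TopP N Y δ n k μ W

end Vale.Agent.P247.H957.Asm
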