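import Vale.Agent.P247.H957.Fl6

/-!
# The operators `J ξ`, `G ξ j`: continuity in `ξ`, compactness
-/

open scoped ContDiff Topology ComplexConjugate ENNReal
open Set MeasureTheory Filter Metric Complex

noncomputable section

namespace Vale.Agent.P247.H957

open Vale.Agent.P247.H74 Vale.Agent.P247.H574

/-- `√(1 + λ)` -/
def rr (ξ : ℝ × ℝ) (i : Ix) : ℝ := √(1 + lam ξ i)

lemma rr_sq (ξ : ℝ × ℝ) (i : Ix) : rr ξ i ^ 2 = 1 + lam ξ i := by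
  have := lam_pos ξ i
  rw [rr, Real.sq_sqrt (by positivity)]

lemma one_le_rr (ξ : ℝ × ℝ) (i : Ix) : 1 ≤ rr ξ i := by
  have := lam_pos ξ i
  rw [rr, Real.one_le_sqrt]; linarith

lemma mu_rr (ξ : ℝ × ℝ) (i : Ix) : mu ξ i = (rr ξ i)⁻¹ := rfl

lemma le_rr {ξ : ℝ × ℝ} {i : Ix} {s K : ℝ} (hK : 0 ≤ K) (h : s ^ 2 ≤ K ^ 2 * (1 + lam ξ i)) :
    |s| ≤ K * rr ξ i := by
  have h1 := one_le_rr ξ i
  rw [← sq_le_sq₀ (abs_nonneg _) (by positivity), sq_abs, mul_pow, rr_sq]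
  exact h

lemma le_rr2 (ξ : ℝ × ℝ) (i : Ix) : |2 * Real.pi * (i.2.1 + ξ.1)| ≤ rr ξ i := by
  have h := le_rr (ξ := ξ) (i := i) (s := 2 * Real.pi * (i.2.1 + ξ.1)) zero_le_one (by
    rw [lam]
    have : 0 ≤ 2 * Real.pi * (2 * (i.1 : ℝ) + 1) := by positivity
    have : 0 ≤ 4 * Real.pi ^ 2 * ((i.2.2 : ℝ) + ξ.2) ^ 2 := by positivity
    nlinarith)
  simpa using h

lemma le_rr3 (ξ : ℝ × ℝ) (i : Ix) : |2 * Real.pi * (i.2.2 + ξ.2)| ≤ rr ξ i := by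
  have h := le_rr (ξ := ξ) (i := i) (s := 2 * Real.pi * (i.2.2 + ξ.2)) zero_le_one (by
    rw [lam]
    have : 0 ≤ 2 * Real.pi * (2 * (i.1 : ℝ) + 1) := by positivity
    have : 0 ≤ 4 * Real.pi ^ 2 * ((i.2.1 : ℝ) + ξ.1) ^ 2 := by positivity
    nlinarith)
  simpa using h

lemma fst_le (ξ ξ' : ℝ × ℝ) : |ξ.1 - ξ'.1| ≤ ‖ξ - ξ'‖ := by
  have := norm_fst_le (ξ - ξ')
  simpa using this

lemma snd_le (ξ ξ' : ℝ × ℝ) : |ξ.2 - ξ'.2| ≤ ‖ξ - ξ'‖ := by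
  have := norm_snd_le (ξ - ξ')
  simpa using this

lemma rr_lip (ξ ξ' : ℝ × ℝ) (i : Ix) : |rr ξ i - rr ξ' i| ≤ 4 * Real.pi * ‖ξ - ξ'‖ := by
  have h1 := one_le_rr ξ i
  have h2 := one_le_rr ξ' i
  have hs : 0 < rr ξ i + rr ξ' i := by linarith
  have hd : (rr ξ i - rr ξ' i) * (rr ξ i + rr ξ' i) =
      2 * Real.pi * (ξ.1 - ξ'.1) * (2 * Real.pi * (i.2.1 + ξ.1) + 2 * Real.pi * (i.2.1 + ξ'.1)) +
      2 * Real.pi * (ξ.2 - ξ'.2) * (2 * Real.pi * (i.2.2 + ξ.2) + 2 * Real.pi * (i.2.2 + ξ'.2)) := by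
    have e : (rr ξ i - rr ξ' i) * (rr ξ i + rr ξ' i) = rr ξ i ^ 2 - rr ξ' i ^ 2 := by ring
    rw [e, rr_sq, rr_sq, lam, lam]
    ring
  have b1 : |2 * Real.pi * (i.2.1 + ξ.1) + 2 * Real.pi * (i.2.1 + ξ'.1)| ≤ rr ξ i + rr ξ' i :=
    (abs_add_le _ _).trans (add_le_add (le_rr2 ξ i) (le_rr2 ξ' i))
  have b2 : |2 * Real.pi * (i.2.2 + ξ.2) + 2 * Real.pi * (i.2.2 + ξ'.2)| ≤ rr ξ i + rr ξ' i :=
    (abs_add_le _ _).trans (add_le_add (le_rr3 ξ i) (le_rr3 ξ' i))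
  have hp : 0 < 2 * Real.pi := by positivity
  have h3 : |rr ξ i - rr ξ' i| * (rr ξ i + rr ξ' i) ≤
      4 * Real.pi * ‖ξ - ξ'‖ * (rr ξ i + rr ξ' i) := by
    rw [← abs_of_pos hs, ← abs_mul, abs_of_pos hs, hd]
    refine (abs_add_le _ _).trans ?_
    rw [abs_mul, abs_mul, abs_of_pos hp, abs_mul, abs_mul, abs_of_pos hp]
    have c1 : 2 * Real.pi * |ξ.1 - ξ'.1| * |2 * Real.pi * (i.2.1 + ξ.1) +
        2 * Real.pi * (i.2.1 + ξ'.1)| ≤ 2 * Real.pi * ‖ξ - ξ'‖ * (rr ξ i + rr ξ' i) := by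
      gcongr
      exact fst_le ξ ξ'
    have c2 : 2 * Real.pi * |ξ.2 - ξ'.2| * |2 * Real.pi * (i.2.2 + ξ.2) +
        2 * Real.pi * (i.2.2 + ξ'.2)| ≤ 2 * Real.pi * ‖ξ - ξ'‖ * (rr ξ i + rr ξ' i) := by
      gcongr
      exact snd_le ξ ξ'
    linarith
  exact le_of_mul_le_mul_right h3 hs

/-- Lipschitz continuity of `s μ` -/
lemma smu_lip (ξ ξ' : ℝ × ℝ) (i : Ix) {s K : ℝ} (hK : 0 ≤ K) (h : s ^ 2 ≤ K ^ 2 * (1 + lam ξ i)) :
    |s * mu ξ i - s * mu ξ' i| ≤ K * (4 * Real.pi * ‖ξ - ξ'‖) := by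
  have h1 := one_le_rr ξ i
  have h2 := one_le_rr ξ' i
  have h3 : s * mu ξ i - s * mu ξ' i = s / rr ξ i * ((rr ξ' i - rr ξ i) / rr ξ' i) := by
    rw [mu_rr, mu_rr]
    field_simp
  rw [h3, abs_mul, abs_div, abs_div, abs_of_pos (show 0 < rr ξ i by linarith),
    abs_of_pos (show 0 < rr ξ' i by linarith)]
  have h4 : |s| / rr ξ i ≤ K := by
    rw [div_le_iff₀ (by linarith)]
    exact le_rr hK h
  have h5 : |rr ξ' i - rr ξ i| / rr ξ' i ≤ 4 * Real.pi * ‖ξ - ξ'‖ := by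
    rw [div_le_iff₀ (by linarith), abs_sub_comm]
    refine (rr_lip ξ ξ' i).trans ?_
    have : 0 ≤ 4 * Real.pi * ‖ξ - ξ'‖ := by positivity
    nlinarith
  exact mul_le_mul h4 h5 (by positivity) hK

lemma lip23 (ξ ξ' : ℝ × ℝ) (i : Ix) {a b : ℝ} (hb : |2 * Real.pi * b| ≤ rr ξ' i)
    (hab : |a - b| ≤ ‖ξ - ξ'‖) :
    |2 * Real.pi * a * mu ξ i - 2 * Real.pi * b * mu ξ' i| ≤ 6 * Real.pi * ‖ξ - ξ'‖ := by
  have h1 := one_le_rr ξ i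
  have h2 := one_le_rr ξ' i
  have h3 : 2 * Real.pi * a * mu ξ i - 2 * Real.pi * b * mu ξ' i =
      2 * Real.pi * (a - b) * mu ξ i + (2 * Real.pi * b) / rr ξ' i * ((rr ξ' i - rr ξ i) / rr ξ i) := by
    rw [mu_rr, mu_rr]
    field_simp
    ring
  rw [h3]
  refine (abs_add_le _ _).trans ?_
  have c1 : |2 * Real.pi * (a - b) * mu ξ i| ≤ 2 * Real.pi * ‖ξ - ξ'‖ := by
    rw [abs_mul, abs_mul, abs_of_pos (show 0 < 2 * Real.pi by positivity), abs_of_pos (mu_pos ξ i)]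
    calc 2 * Real.pi * |a - b| * mu ξ i ≤ 2 * Real.pi * ‖ξ - ξ'‖ * 1 :=
          mul_le_mul (by gcongr) (mu_le_one ξ i) (mu_pos ξ i).le (by positivity)
      _ = 2 * Real.pi * ‖ξ - ξ'‖ := mul_one _
  have c2 : |2 * Real.pi * b / rr ξ' i * ((rr ξ' i - rr ξ i) / rr ξ i)| ≤
      4 * Real.pi * ‖ξ - ξ'‖ := by
    rw [abs_mul, abs_div, abs_div, abs_of_pos (show 0 < rr ξ i by linarith),
      abs_of_pos (show 0 < rr ξ' i by linarith)]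
    have h4 : |2 * Real.pi * b| / rr ξ' i ≤ 1 := by
      rw [div_le_one (by linarith)]
      exact hb
    have h5 : |rr ξ' i - rr ξ i| / rr ξ i ≤ 4 * Real.pi * ‖ξ - ξ'‖ := by
      rw [div_le_iff₀ (by linarith), abs_sub_comm]
      refine (rr_lip ξ ξ' i).trans ?_
      have : 0 ≤ 4 * Real.pi * ‖ξ - ξ'‖ := by positivity
      nlinarith
    calc _ ≤ 1 * (4 * Real.pi * ‖ξ - ξ'‖) := mul_le_mul h4 h5 (by positivity) zero_le_one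
      _ = _ := one_mul _
  linarith

/-! ## Lipschitz continuity of the operators -/

lemma wJ_lip (ξ ξ' : ℝ × ℝ) (i : Ix) : ‖wJ ξ i - wJ ξ' i‖ ≤ 4 * Real.pi * ‖ξ - ξ'‖ := by
  rw [wJ, wJ, ← ofReal_sub, norm_real, Real.norm_eq_abs]
  have h := smu_lip ξ ξ' i (s := 1) (K := 1) zero_le_one (by
    have := lam_pos ξ i; nlinarith)
  simpa using h

lemma wA_lip (ξ ξ' : ℝ × ℝ) (i : Ix) : ‖wA ξ i - wA ξ' i‖ ≤ 4 * Real.pi * ‖ξ - ξ'‖ := by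
  rw [wA, wA, ← ofReal_sub, norm_real, Real.norm_eq_abs]
  have h := smu_lip ξ ξ' (up i) (s := √(4 * Real.pi * (i.1 + 1))) (K := 1) zero_le_one (by
    rw [Real.sq_sqrt (by positivity), lam, up]
    push_cast
    have h1 : 0 ≤ 4 * Real.pi ^ 2 * (((i.2.1 : ℝ) + ξ.1) ^ 2 + ((i.2.2 : ℝ) + ξ.2) ^ 2) := by
      positivity
    have h2 := Real.pi_pos
    nlinarith)
  simpa using h

lemma wC'_lip (ξ ξ' : ℝ × ℝ) (i : Ix) : ‖wC' ξ i - wC' ξ' i‖ ≤ 8 * Real.pi * ‖ξ - ξ'‖ := by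
  rw [wC', wC']
  split_ifs with hi
  · rw [wC, wC, ← ofReal_sub, norm_real, Real.norm_eq_abs]
    have h := smu_lip ξ ξ' (dn i) (s := √(4 * Real.pi * i.1)) (K := 2) zero_le_two (by
      rw [Real.sq_sqrt (by positivity), lam, dn]
      have h1 : 0 ≤ 4 * Real.pi ^ 2 * (((i.2.1 : ℝ) + ξ.1) ^ 2 + ((i.2.2 : ℝ) + ξ.2) ^ 2) := by
        positivity
      have h2 := Real.pi_pos
      have h3 : ((i.1 - 1 : ℕ) : ℝ) = (i.1 : ℝ) - 1 := by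
        rw [Nat.cast_sub hi]; simp
      have h4 : (1 : ℝ) ≤ (i.1 : ℝ) := by exact_mod_cast hi
      simp only [h3]
      nlinarith)
    refine h.trans (le_of_eq ?_)
    ring
  · simp
    positivity

lemma w2_lip (ξ ξ' : ℝ × ℝ) (i : Ix) : ‖w2 ξ i - w2 ξ' i‖ ≤ 6 * Real.pi * ‖ξ - ξ'‖ := by
  rw [w2, w2, ← mul_sub, norm_mul, norm_I, one_mul, ← ofReal_sub, norm_real, Real.norm_eq_abs]
  refine lip23 ξ ξ' i (le_rr2 ξ' i) ?_
  have : ((i.2.1 : ℝ) + ξ.1) - ((i.2.1 : ℝ) + ξ'.1) = ξ.1 - ξ'.1 := by ring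
  rw [this]; exact fst_le ξ ξ'

lemma w3_lip (ξ ξ' : ℝ × ℝ) (i : Ix) : ‖w3 ξ i - w3 ξ' i‖ ≤ 6 * Real.pi * ‖ξ - ξ'‖ := by
  rw [w3, w3, ← mul_sub, norm_mul, norm_I, one_mul, ← ofReal_sub, norm_real, Real.norm_eq_abs]
  refine lip23 ξ ξ' i (le_rr3 ξ' i) ?_
  have : ((i.2.2 : ℝ) + ξ.2) - ((i.2.2 : ℝ) + ξ'.2) = ξ.2 - ξ'.2 := by ring
  rw [this]; exact snd_le ξ ξ'

lemma tp_lip {f : Ix → Ix} {S : Set Ix} (hf : InjOn f S) {w : ℝ × ℝ → Ix → ℂ} {C K : ℝ}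
    (hC : ∀ ξ i, ‖w ξ i‖ ≤ C) (hK : 0 ≤ K) (hl : ∀ ξ ξ' i, ‖w ξ i - w ξ' i‖ ≤ K * ‖ξ - ξ'‖)
    (ξ ξ' : ℝ × ℝ) : ‖tp (wop f S (w ξ)) - tp (wop f S (w ξ'))‖ ≤ K * ‖ξ - ξ'‖ := by
  rw [← tp_sub, wop_sub hf (hC ξ) (hC ξ')]
  exact (norm_tp_le _).trans (norm_wop_le hf (by positivity) (hl ξ ξ'))

lemma Jm_lip (ξ ξ' : ℝ × ℝ) : ‖Jm ξ - Jm ξ'‖ ≤ 4 * Real.pi * ‖ξ - ξ'‖ :=
  tp_lip id_inj wJ_le (by positivity) wJ_lip ξ ξ'

lemma Am_lip (ξ ξ' : ℝ × ℝ) : ‖Am ξ - Am ξ'‖ ≤ 4 * Real.pi * ‖ξ - ξ'‖ :=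
  tp_lip up_inj wA_le (by positivity) wA_lip ξ ξ'

lemma Cm_lip (ξ ξ' : ℝ × ℝ) : ‖Cm ξ - Cm ξ'‖ ≤ 8 * Real.pi * ‖ξ - ξ'‖ :=
  tp_lip dn_inj wC'_le (by positivity) wC'_lip ξ ξ'

theorem Gm_lip (ξ ξ' : ℝ × ℝ) (j : Fin 4) : ‖Gm ξ j - Gm ξ' j‖ ≤ 12 * Real.pi * ‖ξ - ξ'‖ := by
  have hA := Am_lip ξ ξ'
  have hC := Cm_lip ξ ξ'
  have hn : 0 ≤ Real.pi * ‖ξ - ξ'‖ := by positivity
  fin_cases j
  · change ‖Gm ξ 0 - Gm ξ' 0‖ ≤ _
    have e : Gm ξ 0 - Gm ξ' 0 = (1 / 2 : ℂ) • ((Am ξ - Am ξ') - (Cm ξ - Cm ξ')) := by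
      rw [Gm_zero, Gm_zero]; module
    rw [e, norm_smul]
    have e1 : ‖(1 / 2 : ℂ)‖ = 1 / 2 := by simp
    have := norm_sub_le (Am ξ - Am ξ') (Cm ξ - Cm ξ')
    rw [e1]
    nlinarith [norm_nonneg ((Am ξ - Am ξ') - (Cm ξ - Cm ξ'))]
  · change ‖Gm ξ 1 - Gm ξ' 1‖ ≤ _
    have e : Gm ξ 1 - Gm ξ' 1 = (-(I / 2) : ℂ) • ((Am ξ - Am ξ') + (Cm ξ - Cm ξ')) := by
      rw [Gm_one, Gm_one]; module
    rw [e, norm_smul]
    have e1 : ‖(-(I / 2) : ℂ)‖ = 1 / 2 := by simp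
    have := norm_add_le (Am ξ - Am ξ') (Cm ξ - Cm ξ')
    rw [e1]
    nlinarith [norm_nonneg ((Am ξ - Am ξ') + (Cm ξ - Cm ξ'))]
  · change ‖tp (wop id univ (w2 ξ)) - tp (wop id univ (w2 ξ'))‖ ≤ _
    have := tp_lip id_inj w2_le (by positivity) w2_lip ξ ξ'
    nlinarith
  · change ‖tp (wop id univ (w3 ξ)) - tp (wop id univ (w3 ξ'))‖ ≤ _
    have := tp_lip id_inj w3_le (by positivity) w3_lip ξ ξ'
    nlinarith

theorem continuous_Jm : Continuous Jm := by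
  refine (LipschitzWith.of_dist_le_mul (K := ⟨4 * Real.pi, by positivity⟩) fun ξ ξ' => ?_).continuous
  rw [dist_eq_norm, dist_eq_norm]
  exact Jm_lip ξ ξ'

theorem continuous_Gm (j : Fin 4) : Continuous fun ξ => Gm ξ j := by
  refine (LipschitzWith.of_dist_le_mul (K := ⟨12 * Real.pi, by positivity⟩) fun ξ ξ' => ?_).continuous
  rw [dist_eq_norm, dist_eq_norm]
  exact Gm_lip ξ ξ' j

/-! ## Compactness -/

lemma finite_lam (ξ : ℝ × ℝ) (B : ℝ) : {i : Ix | lam ξ i ≤ B}.Finite := by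
  have hpi := Real.pi_gt_three
  obtain ⟨N, hN⟩ := exists_nat_ge (|B| + 1 + |ξ.1| + |ξ.2|)
  have hfin : ((Iic N : Set ℕ) ×ˢ ((Icc (-(N : ℤ)) N : Set ℤ) ×ˢ (Icc (-(N : ℤ)) N : Set ℤ))).Finite :=
    (finite_Iic N).prod ((finite_Icc _ _).prod (finite_Icc _ _))
  refine hfin.subset ?_
  rintro ⟨j, m, n⟩ h
  have h : lam ξ (j, m, n) ≤ B := h
  rw [lam] at h
  simp only at h
  have hB := le_abs_self B
  have hj : (0 : ℝ) ≤ j := Nat.cast_nonneg j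
  have ha := abs_nonneg ξ.1
  have hb := abs_nonneg ξ.2
  have hBn := abs_nonneg B
  have q1 : 0 ≤ ((m : ℝ) + ξ.1) ^ 2 := by positivity
  have q2 : 0 ≤ ((n : ℝ) + ξ.2) ^ 2 := by positivity
  have p2 : 1 ≤ 4 * Real.pi ^ 2 := by nlinarith
  have h1 : (j : ℝ) ≤ N := by
    have : 2 * Real.pi * (2 * j + 1) ≤ B := by nlinarith
    nlinarith
  have key : ∀ (t x : ℝ), t ^ 2 ≤ |B| → |x| ≤ |ξ.1| + |ξ.2| → |t - x| ≤ N := by
    intro t x ht hx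
    have h3 : |t| ≤ |B| + 1 := by
      have : t ^ 2 ≤ (|B| + 1) ^ 2 := by nlinarith
      exact abs_le_of_sq_le_sq this (by positivity)
    have := abs_sub t x
    linarith
  have hm : |(m : ℝ)| ≤ N := by
    have h3 : ((m : ℝ) + ξ.1) ^ 2 ≤ |B| := by
      have : 0 ≤ 2 * Real.pi * (2 * (j : ℝ) + 1) := by positivity
      nlinarith
    have := key _ ξ.1 h3 (by linarith)
    simpa using this
  have hn : |(n : ℝ)| ≤ N := by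
    have h3 : ((n : ℝ) + ξ.2) ^ 2 ≤ |B| := by
      have : 0 ≤ 2 * Real.pi * (2 * (j : ℝ) + 1) := by positivity
      nlinarith
    have := key _ ξ.2 h3 (by linarith)
    simpa using this
  rw [abs_le] at hm hn
  refine ⟨by exact_mod_cast h1, ⟨?_, ?_⟩, ⟨?_, ?_⟩⟩
  · exact_mod_cast hm.1
  · exact_mod_cast hm.2
  · exact_mod_cast hn.1
  · exact_mod_cast hn.2

lemma finite_mu (ξ : ℝ × ℝ) {ε : ℝ} (hε : 0 < ε) : {i : Ix | ε ≤ mu ξ i}.Finite := by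
  refine (finite_lam ξ ((ε ^ 2)⁻¹)).subset ?_
  intro i hi
  have hi : ε ≤ mu ξ i := hi
  have h1 := mu_sq ξ i
  have h2 := lam_pos ξ i
  have h3 : ε ^ 2 ≤ mu ξ i ^ 2 := by gcongr
  have h4 : ε ^ 2 * (1 + lam ξ i) ≤ 1 :=
    (mul_le_mul_of_nonneg_right h3 (by linarith)).trans h1.le
  change lam ξ i ≤ (ε ^ 2)⁻¹
  rw [le_inv_comm₀ h2 (by positivity)]
  rw [← one_div, le_div_iff₀ h2]
  nlinarith [sq_nonneg ε]

/-- the projection on a basis vector -/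
def Pj (i : Ix) : H →L[ℂ] H := (ContinuousLinearMap.toSpanSingleton ℂ (bas i)) ∘L (innerSL ℂ (bas i))

lemma Pj_apply (i : Ix) (w : H) : Pj i w = bas.repr w i • bas i := by
  simp [Pj, HilbertBasis.repr_apply_apply]

lemma compact_Pj (i : Ix) : IsCompactOperator (Pj i) :=
  (isCompactOperator_of_locallyCompactSpace_dom (innerSL ℂ (bas i))).clm_comp
    (ContinuousLinearMap.toSpanSingleton ℂ (bas i))

open Classical in
lemma Jm_sub_sum (ξ : ℝ × ℝ) (F : Finset Ix) : Jm ξ - ∑ i ∈ F, (mu ξ i : ℂ) • Pj i =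
    tp (wop id univ (fun i => if i ∈ F then 0 else wJ ξ i)) := by
  have hb : ∀ i, ‖(if i ∈ F then 0 else wJ ξ i : ℂ)‖ ≤ 1 := by
    intro i
    split_ifs
    · simp
    · exact wJ_le ξ i
  ext1 w
  refine ext_repr fun i => ?_
  rw [repr_tp, wop_apply id_inj hb]
  simp only [sub_apply, map_sub, lp.coeFn_sub, Pi.sub_apply, repr_Jm,
    sum_apply, smul_apply, Pj_apply, map_sum, map_smul]
  have h1 : ((∑ i' ∈ F, (mu ξ i' : ℂ) • bas.repr w i' • bas.repr (bas i') : L2) : Ix → ℂ) i =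
      if i ∈ F then (mu ξ i : ℂ) * bas.repr w i else 0 := by
    rw [lp.coeFn_sum, Finset.sum_apply]
    simp only [lp.coeFn_smul, Pi.smul_apply, smul_eq_mul, repr_bas]
    simp
  rw [h1]
  simp only [wf, indicator_univ, id]
  split_ifs with h
  · simp
  · simp [wJ]

theorem compact_Jm (ξ : ℝ × ℝ) : IsCompactOperator (Jm ξ) := by
  classical
  have hl : Tendsto (fun F : Finset Ix => ∑ i ∈ F, (mu ξ i : ℂ) • Pj i) atTop (𝓝 (Jm ξ)) := by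
    rw [Metric.tendsto_atTop]
    intro ε hε
    refine ⟨(finite_mu ξ (half_pos hε)).toFinset, fun F hF => ?_⟩
    rw [dist_comm, dist_eq_norm, Jm_sub_sum]
    refine lt_of_le_of_lt ((norm_tp_le _).trans (norm_wop_le (C := ε / 2) id_inj (by positivity)
      fun i => ?_)) (half_lt_self hε)
    split_ifs with h
    · simp; positivity
    · have h1 : i ∉ (finite_mu ξ (half_pos hε)).toFinset := fun h2 => h (hF h2)
      rw [Set.Finite.mem_toFinset] at h1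
      have h2 : mu ξ i < ε / 2 := not_le.1 h1
      rw [wJ, norm_real, Real.norm_eq_abs, abs_of_pos (mu_pos ξ i)]
      exact h2.le
  refine isCompactOperator_of_tendsto hl (Eventually.of_forall fun F => ?_)
  have : (∑ i ∈ F, (mu ξ i : ℂ) • Pj i) ∈ compactOperator (RingHom.id ℂ) H H :=
    Submodule.sum_mem _ fun i _ => Submodule.smul_mem _ _ (compact_Pj i)
  exact this

/-- the first half of the package -/
theorem fl : Fl Jm Gm where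
  contJ := continuous_Jm
  contG := continuous_Gm
  compact := compact_Jm
  inj := Jm_injective
  norm := Jm_norm
  sec := Jm_sec
  dense := Jm_dense
  perJ := Jm_per
  perG := Gm_per

end Vale.Agent.P247.H957
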