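import Vale.Agent.P247.H957.Fl0
import Mathlib.Analysis.Fourier.AddCircleMulti

/-!
# Completeness of the exponentials in `L²` of the unit cube
-/

open scoped ContDiff Topology ComplexConjugate ENNReal
open Set MeasureTheory Filter Metric Complex

noncomputable section

namespace Vale.Agent.P247.H957

open Vale.Agent.P247.H74 Vale.Agent.P247.H574

local instance : MeasureSpace UnitAddCircle := ⟨AddCircle.haarAddCircle⟩

local instance : Measure.IsAddHaarMeasure (volume : Measure UnitAddCircle) :=
  inferInstanceAs (Measure.IsAddHaarMeasure AddCircle.haarAddCircle)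

local instance : IsProbabilityMeasure (volume : Measure UnitAddCircle) :=
  inferInstanceAs (IsProbabilityMeasure AddCircle.haarAddCircle)

/-- the half open cube -/
def SQ : Set R4 := {x : R4 | ∀ i, x i ∈ Ioc ((0 : R4) i) ((0 : R4) i + 1)}

lemma measurableSet_SQ : MeasurableSet SQ :=
  MeasurableSet.univ_pi' fun i => (measurableSet_Ioc : MeasurableSet (Ioc ((0 : R4) i) ((0 : R4) i + 1)))

lemma SQ_ae : SQ =ᵐ[volume] Icc (0 : R4) 1 := by
  have h1 : SQ = pi univ (fun i => Ioc ((0 : R4) i) ((1 : R4) i)) := by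
    ext x
    simp [SQ]
  rw [h1]
  exact Measure.univ_pi_Ioc_ae_eq_Icc

lemma restrict_SQ : (volume : Measure R4).restrict SQ = mQ := Measure.restrict_congr_set SQ_ae

/-- the measure preserving map from the torus to the cube -/
def kap (t : UnitAddTorus (Fin 4)) : R4 := (UnitAddTorus.measurableEquivPiIoc (0 : R4) t).1

lemma measurePreserving_kap : MeasurePreserving kap (volume : Measure (UnitAddTorus (Fin 4))) mQ := by
  rw [← restrict_SQ]
  have h1 := UnitAddTorus.measurePreserving_equivPiIoc (d := Fin 4) (0 : R4)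
  have h2 : MeasurePreserving (Subtype.val : {x : R4 // ∀ i, x i ∈ Ioc ((0 : R4) i) ((0 : R4) i + 1)} → R4)
      (Measure.comap Subtype.val volume) (volume.restrict SQ) :=
    ⟨measurable_subtype_coe, map_comap_subtype_coe measurableSet_SQ volume⟩
  exact h2.comp h1

lemma kap_coe {x : R4} (hx : x ∈ SQ) : kap (fun i => (x i : UnitAddCircle)) = x := by
  funext i
  have h : kap (fun i => (x i : UnitAddCircle)) i =
      (AddCircle.equivIoc 1 ((0 : R4) i) (x i : UnitAddCircle)).1 := rfl
  rw [h]
  rw [AddCircle.equivIoc_coe_eq (hx i)]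

lemma mFourier_coe' (k : Fin 4 → ℤ) (x : R4) :
    UnitAddTorus.mFourier k (fun i => (x i : UnitAddCircle)) =
      exp ((2 * Real.pi * ∑ i, (k i : ℝ) * x i : ℝ) * I) := by
  have h1 : UnitAddTorus.mFourier k (fun i => (x i : UnitAddCircle)) =
      ∏ i, fourier (k i) (x i : UnitAddCircle) := rfl
  rw [h1]
  have h2 : ∀ i, fourier (k i) (x i : UnitAddCircle) =
      exp (2 * Real.pi * I * (k i) * (x i)) := by
    intro i
    rw [fourier_coe_apply]
    simp
  rw [Finset.prod_congr rfl fun i _ => h2 i, ← Complex.exp_sum]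
  congr 1
  push_cast
  rw [Finset.mul_sum, Finset.sum_mul]
  refine Finset.sum_congr rfl fun i _ => ?_
  ring

/-- a square integrable function on the cube with vanishing Fourier coefficients vanishes -/
theorem eq_zero_of_fourier {g : R4 → ℂ} (hg : MemLp g 2 mQ)
    (h : ∀ k : Fin 4 → ℤ, ∫ x in Icc (0 : R4) 1,
      exp ((2 * Real.pi * ∑ i, (k i : ℝ) * x i : ℝ) * I) * g x = 0) : g =ᵐ[mQ] 0 := by
  have hG : MemLp (g ∘ kap) 2 (volume : Measure (UnitAddTorus (Fin 4))) :=
    hg.comp_measurePreserving measurePreserving_kap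
  have hc : ∀ k, UnitAddTorus.mFourierCoeff (g ∘ kap) k = 0 := by
    intro k
    rw [UnitAddTorus.mFourierCoeff_eq_integral _ _ (0 : R4)]
    have h1 := h (-k)
    have h2 : (∫ x in Icc (0 : R4) 1,
        exp ((2 * Real.pi * ∑ i, (((-k) i : ℤ) : ℝ) * x i : ℝ) * I) * g x) = ∫ x in SQ,
        exp ((2 * Real.pi * ∑ i, (((-k) i : ℤ) : ℝ) * x i : ℝ) * I) * g x := by
      rw [restrict_SQ]
    rw [h2] at h1
    rw [← h1]
    refine setIntegral_congr_fun measurableSet_SQ fun x hx => ?_
    simp only [Function.comp, kap_coe hx, smul_eq_mul]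
    rw [mFourier_coe']
  have h0 : hG.toLp (g ∘ kap) = 0 := by
    have h3 : UnitAddTorus.mFourierBasis.repr (hG.toLp (g ∘ kap)) = 0 := by
      ext k
      rw [UnitAddTorus.mFourierBasis_repr]
      have : UnitAddTorus.mFourierCoeff (hG.toLp (g ∘ kap)) k =
          UnitAddTorus.mFourierCoeff (g ∘ kap) k := by
        refine integral_congr_ae ?_
        filter_upwards [hG.coeFn_toLp] with t ht
        rw [ht]
      rw [this, hc]
      rfl
    exact (LinearIsometryEquiv.map_eq_zero_iff _).1 h3
  have h4 : eLpNorm (g ∘ kap) 2 (volume : Measure (UnitAddTorus (Fin 4))) = 0 := by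
    rw [eLpNorm_eq_zero_iff hG.1 (by norm_num)]
    exact (MemLp.toLp_eq_toLp_iff hG (MemLp.zero')).1 (by rw [h0]; rfl)
  rw [eLpNorm_comp_measurePreserving hg.1 measurePreserving_kap] at h4
  exact (eLpNorm_eq_zero_iff hg.1 (by norm_num)).1 h4

end Vale.Agent.P247.H957
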