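import Vale.Agent.P247.H957.Fl7
import Vale.Agent.P247.H332.FlD.Main

/-!
# The flat model
-/

namespace Vale.Agent.P247.H957

/-- the package -/
theorem FLAT : FLAT_statement :=
  ⟨Jm, Gm, bas (0, 0, 0), fl, H332.FlD.flD ⟨12 * Real.pi, Gm_lip⟩⟩

end Vale.Agent.P247.H957
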