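import Vale.Agent.P247.H957.Asm5
import Vale.Agent.P247.H899.Vrt3
import Vale.Agent.P247.H845.Grd2

/-! P247, PUI-ASM (helper957), part 6: `PUI_statement` from `CLU`, `EDEC`, `PA`, `GRD`. -/

open MeasureTheory Set Metric Filter Topology
open scoped ContDiff ENNReal

noncomputable section

namespace Vale.Agent.P247.H957.Asm

open Vale.Agent.P247.H324

/-- sums over a multiset -/
def msum (g : ℂ → ℝ) : Multiset ℂ →+ ℝ where
  toFun M := (M.map g).sum
  map_zero' := by simp
  map_add' M M' := by rw [Multiset.map_add, Multiset.sum_add]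

theorem msum_singleton (g : ℂ → ℝ) (a : ℂ) : msum g {a} = g a := by
  change (({a} : Multiset ℂ).map g).sum = g a
  simp

theorem msum_map {N : ℕ} (g : ℂ → ℝ) (y : Fin N → ℂ) :
    msum g (Finset.univ.val.map y) = ∑ i, g (y i) := by
  change ((Finset.univ.val.map y).map g).sum = _
  rw [Multiset.map_map]
  rfl

theorem pui0 (hCLU : CLU_statement) (hEDEC : EDEC_statement) (hPA : PA_statement) :
    H899.PUI0_statement := by
  intro N m A ρ Y P R hm hA hlt hρ H
  obtain ⟨R0, K, ε, L, g, Y', D, hR1, hL, hB, hae⟩ :=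
    hPA N m A ρ Y P hm hA hlt hρ H.toMG (hEDEC N m A ρ Y P R hm hA hlt hρ H)
  obtain ⟨δ, n, k, μ, W, hδ, hδR, hT⟩ := hCLU N R0 K ε L m A g Y' D hm hA hlt hL hB
  obtain ⟨h1, h2⟩ := hT.ana H845.grd hB hL hm hA hlt hδ hδR
  refine ⟨δ / 4, by positivity, n, k, μ, W, hT.pos, hT.card, h1, h2, ?_, ?_, ?_⟩
  · intro l s h0 hs
    exact hT.eqn hB hL hm hA hlt hδR l h0 (by linarith)
  · intro l l' s s' h0 hs
    exact hT.inj l l' s s' h0 (by linarith)
  · have h0 : ∀ᵐ z ∂volume.restrict (ball (0 : ℂ) (δ / 4)), z ≠ 0 :=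
      ae_restrict_of_ae (by rw [ae_iff]; simp)
    have hae' := ae_restrict_of_ae_restrict_of_subset
      (ball_subset_ball (by linarith : δ / 4 ≤ R0)) hae
    filter_upwards [h0, hae', ae_restrict_mem measurableSet_ball] with z hz0 hzY hzb s hs f
    rw [← hzY]
    have hsum := hT.sum z hz0 (by have := mem_ball_zero_iff.1 hzb; linarith) s hs
    have h3 := congrArg (msum f) hsum
    rw [msum_map, map_sum] at h3
    rw [h3]
    refine Finset.sum_congr rfl fun l _ => ?_
    rw [map_nsmul, map_sum, nsmul_eq_mul]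
    congr 1
    refine Finset.sum_congr rfl fun j _ => ?_
    rw [msum_singleton]

theorem pui (hCLU : CLU_statement) (hEDEC : EDEC_statement) (hPA : PA_statement) :
    H574.PUI_statement := H899.PUI_of (pui0 hCLU hEDEC hPA)

end Vale.Agent.P247.H957.Asm
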