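import Vale.Agent.P247.H574.Sta2

/-! P247, package MONO (helper957), part 1: branches over `t ^ q`, the rotation `t ↦ ω t`. -/

open scoped ContDiff Topology
open Set MeasureTheory Filter Metric

namespace Vale.Agent.P247.H957.Mono

open Vale.Agent.P247.H74 Vale.Agent.P247.H574

/-- Branches of a multigraph over `t ^ q`. -/
structure Pre (N : ℕ) (m A : ℂ × ℂ → ℂ) (Y : ℂ → Fin N → ℂ) (q : ℕ) (r : ℝ)
    (y : Fin N → ℂ → ℂ) : Prop where
  q1 : 1 ≤ q
  r0 : 0 < r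
  cont : ∀ i, ContinuousOn (y i) (ball 0 r)
  smooth : ∀ i, ContDiffOn ℝ ∞ (y i) (ball 0 r \ {0})
  bd : ∃ C γ : ℝ, 0 < γ ∧ ∀ i, ∀ t ∈ ball (0 : ℂ) r, t ≠ 0 →
    ‖y i t - y i 0‖ ≤ C * ‖t‖ ^ γ ∧ ‖fderiv ℝ (y i) t‖ ≤ C * ‖t‖ ^ (γ - 1)
  eq : ∀ i, ∀ t ∈ ball (0 : ℂ) r, t ≠ 0 →
    dbar (y i) t = m (t ^ q, y i t) * ((starRingEnd ℂ) t / t) ^ (q - 1) *
        ((1 / 2 : ℂ) * (fderiv ℝ (y i) t 1 - Complex.I * fderiv ℝ (y i) t Complex.I)) +
        A (t ^ q, y i t) * q * (starRingEnd ℂ) t ^ (q - 1)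
  sep : ∀ i j, (∀ t ∈ ball (0 : ℂ) r, y i t = y j t) ∨
    ∀ t ∈ ball (0 : ℂ) r, t ≠ 0 → y i t ≠ y j t
  ae : ∀ᵐ t ∂volume.restrict (ball (0 : ℂ) r), ∀ g : ℂ → ℝ,
    ∑ i, g (Y (t ^ q) i) = ∑ i, g (y i t)

/-- the punctured disc is connected -/
theorem pc {r : ℝ} (hr : 0 < r) : IsPreconnected (ball (0 : ℂ) r \ {0}) := by
  have h1 : Complex.exp '' {w : ℂ | w.re < Real.log r} = ball (0 : ℂ) r \ {0} := by
    ext z
    simp only [mem_image, mem_ofPred_eq, Set.mem_sdiff, mem_ball, dist_zero_right, mem_singleton_iff]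
    constructor
    · rintro ⟨w, hw, rfl⟩
      refine ⟨?_, Complex.exp_ne_zero _⟩
      rw [Complex.norm_exp]
      calc Real.exp w.re < Real.exp (Real.log r) := Real.exp_lt_exp.2 hw
        _ = r := Real.exp_log hr
    · rintro ⟨hz, h0⟩
      refine ⟨Complex.log z, ?_, Complex.exp_log h0⟩
      rw [Complex.log_re]
      exact Real.log_lt_log (norm_pos_iff.2 h0) hz
  rw [← h1]
  exact (convex_halfSpace_re_lt (Real.log r)).isPreconnected.image _
    Complex.continuous_exp.continuousOn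

/-- A continuous function which is everywhere equal to one of finitely many separated continuous
functions is equal to one of them. -/
theorem choose_branch {N : ℕ} {B : Set ℂ} (hB : IsOpen B) (hpc : IsPreconnected B)
    (hne : B.Nonempty) {f : ℂ → ℂ} (hf : ContinuousOn f B) {y : Fin N → ℂ → ℂ}
    (hy : ∀ i, ContinuousOn (y i) B)
    (sep : ∀ i j, (∀ t ∈ B, y i t = y j t) ∨ ∀ t ∈ B, y i t ≠ y j t)
    (hex : ∀ t ∈ B, ∃ j, f t = y j t) : ∃ j, ∀ t ∈ B, f t = y j t := by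
  obtain ⟨t0, ht0⟩ := hne
  obtain ⟨j, hj⟩ := hex t0 ht0
  refine ⟨j, ?_⟩
  by_contra hcon
  push Not at hcon
  obtain ⟨t1, ht1, hj1⟩ := hcon
  have hop : ∀ i, IsOpen {t | t ∈ B ∧ f t ≠ y i t} := fun i => by
    have : {t | t ∈ B ∧ f t ≠ y i t} = B ∩ (fun t => f t - y i t) ⁻¹' {0}ᶜ := by
      ext t; simp [sub_eq_zero]
    rw [this]
    exact (hf.sub (hy i)).isOpen_inter_preimage hB isClosed_singleton.isOpen_compl
  have hV : IsOpen {t | t ∈ B ∧ ∀ i, (∀ s ∈ B, y i s ≠ y j s) → f t ≠ y i t} := by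
    have : {t | t ∈ B ∧ ∀ i, (∀ s ∈ B, y i s ≠ y j s) → f t ≠ y i t} =
        B ∩ ⋂ i : {i // ∀ s ∈ B, y i s ≠ y j s}, {t | t ∈ B ∧ f t ≠ y i t} := by
      ext t
      simp only [mem_ofPred_eq, mem_inter_iff, mem_iInter, Subtype.forall]
      constructor
      · rintro ⟨h1, h2⟩
        exact ⟨h1, fun i hi => ⟨h1, h2 i hi⟩⟩
      · rintro ⟨h1, h2⟩
        exact ⟨h1, fun i hi => (h2 i hi).2⟩
    rw [this]
    exact hB.inter (isOpen_iInter_of_finite fun i => hop i)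
  obtain ⟨t, htB, ht2, ht3⟩ := hpc _ _ (hop j) hV (fun t ht => by
      by_cases h : f t = y j t
      · exact Or.inr ⟨ht, fun i hi h' => hi t ht (h'.symm.trans h)⟩
      · exact Or.inl ⟨ht, h⟩) ⟨t1, ht1, ht1, hj1⟩
      ⟨t0, ht0, ht0, fun i hi h' => hi t0 ht0 (h'.symm.trans hj)⟩
  obtain ⟨i, hi⟩ := hex t htB
  rcases sep i j with h | h
  · exact ht2.2 (hi.trans (h t htB))
  · exact ht3.2 i h hi

section Om

/-- the rotation -/
noncomputable def om (q : ℕ) : ℂ := Complex.exp (2 * Real.pi * Complex.I / q)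

theorem om_prim {q : ℕ} (hq : 1 ≤ q) : IsPrimitiveRoot (om q) q :=
  Complex.isPrimitiveRoot_exp q (by omega)

theorem om_pow {q : ℕ} (hq : 1 ≤ q) : om q ^ q = 1 := (om_prim hq).pow_eq_one

theorem norm_om {q : ℕ} (hq : 1 ≤ q) : ‖om q‖ = 1 :=
  Complex.norm_eq_one_of_pow_eq_one (om_pow hq) (by omega)

theorem norm_om_pow {q : ℕ} (hq : 1 ≤ q) (n : ℕ) : ‖om q ^ n‖ = 1 := by
  rw [norm_pow, norm_om hq, one_pow]

/-- two `q`-th roots of the same number differ by a rotation -/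
theorem exists_om {q : ℕ} (hq : 1 ≤ q) {t t' : ℂ} (h : t' ^ q = t ^ q) :
    ∃ n < q, t' = om q ^ n * t := by
  have : NeZero q := ⟨by omega⟩
  by_cases ht : t = 0
  · subst ht
    rw [zero_pow (by omega)] at h
    have := pow_eq_zero_iff (by omega : q ≠ 0) |>.1 h
    exact ⟨0, by omega, by simp [this]⟩
  · have h1 : (t' / t) ^ q = 1 := by
      rw [div_pow, h, div_self (pow_ne_zero _ ht)]
    obtain ⟨n, hn, h2⟩ := (om_prim hq).eq_pow_of_pow_eq_one h1
    exact ⟨n, hn, by rw [h2, div_mul_cancel₀ _ ht]⟩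

end Om

namespace Pre

variable {N : ℕ} {m A : ℂ × ℂ → ℂ} {Y : ℂ → Fin N → ℂ} {q : ℕ} {r : ℝ} {y : Fin N → ℂ → ℂ}

theorem rot_mem (h : Pre N m A Y q r y) (n : ℕ) {t : ℂ} (ht : t ∈ ball (0 : ℂ) r) :
    om q ^ n * t ∈ ball (0 : ℂ) r := by
  rw [mem_ball_zero_iff, norm_mul, norm_om_pow h.q1, one_mul]
  exact mem_ball_zero_iff.1 ht

theorem rot_inv (h : Pre N m A Y q r y) (n : ℕ) (t : ℂ) :
    om q ^ ((q - 1) * n) * (om q ^ n * t) = t := by
  rw [← mul_assoc, ← pow_add]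
  have : (q - 1) * n + n = q * n := by
    have := h.q1
    calc (q - 1) * n + n = (q - 1 + 1) * n := by ring
      _ = q * n := by rw [Nat.sub_add_cancel this]
  rw [this, pow_mul, om_pow h.q1, one_pow, one_mul]

theorem rot_pow (h : Pre N m A Y q r y) (n : ℕ) (t : ℂ) : (om q ^ n * t) ^ q = t ^ q := by
  rw [mul_pow, ← pow_mul, mul_comm n q, pow_mul, om_pow h.q1, one_pow, one_mul]

/-- the set of good `t` -/
def G (Y : ℂ → Fin N → ℂ) (q : ℕ) (y : Fin N → ℂ → ℂ) : Set ℂ :=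
  {t | ∀ g : ℂ → ℝ, ∑ i, g (Y (t ^ q) i) = ∑ i, g (y i t)}

theorem rot_null (q : ℕ) (hq : 1 ≤ q) (n : ℕ) {s : Set ℂ} (hs : volume s = 0) :
    volume ((fun t => om q ^ n * t) ⁻¹' s) = 0 := by
  obtain ⟨a, ha⟩ : ∃ a : Circle, (a : ℂ) = om q ^ n :=
    ⟨⟨om q ^ n, mem_sphere_zero_iff_norm.2 (norm_om_pow hq n)⟩, rfl⟩
  have h1 : MeasurePreserving (fun t : ℂ => om q ^ n * t) := by
    have : (fun t : ℂ => om q ^ n * t) = rotation a := by
      funext t
      rw [rotation_apply, ha]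
    rw [this]
    exact LinearIsometryEquiv.measurePreserving _
  exact (h1.quasiMeasurePreserving).preimage_null hs

theorem ae_good (h : Pre N m A Y q r y) : ∀ᵐ t : ℂ, t ∈ ball (0 : ℂ) r → t ∈ G Y q y := by
  have := (ae_restrict_iff' measurableSet_ball).1 h.ae
  exact this

theorem ae_rot (h : Pre N m A Y q r y) (n : ℕ) :
    ∀ᵐ t : ℂ, t ∈ ball (0 : ℂ) r → om q ^ n * t ∈ G Y q y := by
  have h1 := rot_null q h.q1 n (s := {t | ¬ (t ∈ ball (0 : ℂ) r → t ∈ G Y q y)}) h.ae_good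
  have h2 : ∀ᵐ t : ℂ, (om q ^ n * t ∈ ball (0 : ℂ) r → om q ^ n * t ∈ G Y q y) := h1
  filter_upwards [h2] with t ht hb
  exact ht (h.rot_mem n hb)

/-- the two sums agree at `t` and `ω ^ n t` -/
theorem ae_sum (h : Pre N m A Y q r y) (n : ℕ) :
    ∀ᵐ t : ℂ, t ∈ ball (0 : ℂ) r → ∀ g : ℂ → ℝ,
      ∑ i, g (y i (om q ^ n * t)) = ∑ i, g (y i t) := by
  filter_upwards [h.ae_good, h.ae_rot n] with t h1 h2 hb g
  have e1 := h1 hb g
  have e2 := h2 hb g
  rw [h.rot_pow] at e2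
  rw [← e1, ← e2]

theorem cont_rot (h : Pre N m A Y q r y) (n : ℕ) (i : Fin N) :
    ContinuousOn (fun t => y i (om q ^ n * t)) (ball 0 r) :=
  (h.cont i).comp (by fun_prop) fun _ ht => h.rot_mem n ht

theorem exists_val (h : Pre N m A Y q r y) (n : ℕ) (i : Fin N) :
    ∀ t ∈ ball (0 : ℂ) r, ∃ j, y i (om q ^ n * t) = y j t := by
  classical
  -- the product vanishes almost everywhere, hence everywhere
  have h1 : ∀ᵐ t : ℂ, t ∈ ball (0 : ℂ) r → ∏ j, (y i (om q ^ n * t) - y j t) = 0 := by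
    filter_upwards [h.ae_sum n] with t ht hb
    have e := ht hb (fun v => if v = y i (om q ^ n * t) then 1 else 0)
    have hpos : (0 : ℝ) < ∑ j, if y j (om q ^ n * t) = y i (om q ^ n * t) then (1 : ℝ) else 0 := by
      refine Finset.sum_pos' (fun j _ => by split_ifs <;> norm_num) ⟨i, Finset.mem_univ _, ?_⟩
      simp
    rw [e] at hpos
    by_contra hne
    refine hpos.ne' (Finset.sum_eq_zero fun j _ => ?_)
    rw [if_neg]
    intro hj
    exact hne (Finset.prod_eq_zero (Finset.mem_univ j) (by rw [hj, sub_self]))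
  have hc : ContinuousOn (fun t => ∏ j, (y i (om q ^ n * t) - y j t)) (ball 0 r) :=
    continuousOn_finsetProd _ fun j _ => (h.cont_rot n i).sub (h.cont j)
  intro t ht
  have h2 : ∏ j, (y i (om q ^ n * t) - y j t) = 0 := by
    by_contra hne
    have hop : IsOpen (ball (0 : ℂ) r ∩ (fun t => ∏ j, (y i (om q ^ n * t) - y j t)) ⁻¹' {0}ᶜ) :=
      hc.isOpen_inter_preimage isOpen_ball isClosed_singleton.isOpen_compl
    have hpos := hop.measure_pos (volume : Measure ℂ) ⟨t, ht, hne⟩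
    refine hpos.ne' (measure_mono_null ?_ h1)
    rintro s ⟨hs, hs0⟩ hcon
    exact hs0 (hcon hs)
  obtain ⟨j, -, hj⟩ := Finset.prod_eq_zero_iff.1 h2
  exact ⟨j, sub_eq_zero.1 hj⟩

/-- the relation: `y i (ω ^ n t) = y j t` -/
def E (q : ℕ) (r : ℝ) (y : Fin N → ℂ → ℂ) (i : Fin N) (n : ℕ) (j : Fin N) : Prop :=
  ∀ t ∈ ball (0 : ℂ) r, y i (om q ^ n * t) = y j t

theorem dense0 (hr : 0 < r) : ball (0 : ℂ) r ⊆ closure (ball (0 : ℂ) r \ {0}) := by
  intro t ht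
  have : (𝓝[≠] (0 : ℂ)).NeBot := inferInstance
  by_cases h0 : t = 0
  · subst h0
    rw [mem_closure_iff_nhdsWithin_neBot]
    have : 𝓝[ball (0 : ℂ) r \ {0}] (0 : ℂ) = 𝓝[≠] 0 := by
      rw [Set.sdiff_eq, inter_comm]
      exact nhdsWithin_inter_of_mem' (mem_nhdsWithin_of_mem_nhds (ball_mem_nhds _ hr))
    rw [this]
    infer_instance
  · exact subset_closure ⟨ht, h0⟩

theorem eq_of_eq_off {f g : ℂ → ℂ} (hr : 0 < r) (hf : ContinuousOn f (ball 0 r))
    (hg : ContinuousOn g (ball 0 r)) (hfg : ∀ t ∈ ball (0 : ℂ) r \ {0}, f t = g t) :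
    ∀ t ∈ ball (0 : ℂ) r, f t = g t := by
  have := EqOn.of_subset_closure (s := ball (0 : ℂ) r \ {0}) (t := ball (0 : ℂ) r) hfg hf hg
    Set.sdiff_subset (dense0 hr)
  exact this

theorem exists_E (h : Pre N m A Y q r y) (i : Fin N) (n : ℕ) : ∃ j, E q r y i n j := by
  have hne : (ball (0 : ℂ) r \ {0}).Nonempty := by
    refine ⟨(r / 2 : ℝ), ?_, ?_⟩
    · have := h.r0
      rw [mem_ball_zero_iff, Complex.norm_real, Real.norm_of_nonneg (by linarith)]
      linarith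
    · have := h.r0
      simp only [mem_singleton_iff, Complex.ofReal_eq_zero]
      linarith
  obtain ⟨j, hj⟩ := choose_branch (B := ball (0 : ℂ) r \ {0})
    (isOpen_ball.sdiff isClosed_singleton) (pc h.r0) hne
    (f := fun t => y i (om q ^ n * t)) ((h.cont_rot n i).mono Set.sdiff_subset)
    (fun j => (h.cont j).mono Set.sdiff_subset)
    (fun a b => by
      rcases h.sep a b with h1 | h1
      · exact Or.inl fun t ht => h1 t ht.1
      · exact Or.inr fun t ht => h1 t ht.1 ht.2)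
    (fun t ht => h.exists_val n i t ht.1)
  exact ⟨j, eq_of_eq_off h.r0 (h.cont_rot n i) (h.cont j) hj⟩

end Pre

end Vale.Agent.P247.H957.Mono
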