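import Vale.Agent.P247.H324.MG.WG5
import Vale.Agent.P247.H957.Mono1

/-! P247, PUI-ASM (helper957), part 1: Hölder estimates from Morrey bounds of the weak gradient. -/

open MeasureTheory Set Metric Filter Topology
open scoped ContDiff ENNReal

noncomputable section

namespace Vale.Agent.P247.H957.Asm

open Vale.Agent.P247.H324 Vale.Agent.P272.CT

theorem ball_diff : ball (0 : ℂ) 1 \ {0} = pd := rfl

/-- weak gradients are measurable on the open set -/
theorem aesm_of_int {G : Type*} [NormedAddCommGroup G] {U : Set ℂ} (hU : IsOpen U) {u : ℂ → G}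
    (h : ∀ K, IsCompact K → K ⊆ U → IntegrableOn u K) :
    AEStronglyMeasurable u (volume.restrict U) := by
  have h1 : LocallyIntegrableOn u U := by
    rw [locallyIntegrableOn_iff hU.isLocallyClosed]
    exact fun k hk hc => h k hc hk
  exact h1.aestronglyMeasurable

/-- the `∂̄` part of the weak gradient -/
theorem norm_zb_le (L : ℂ →L[ℝ] ℂ) : ‖(1 / 2 : ℂ) • (L 1 + Complex.I • L Complex.I)‖ ≤ ‖L‖ := by
  rw [norm_smul]
  have h1 : ‖L 1‖ ≤ ‖L‖ := by simpa using L.le_opNorm 1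
  have h2 : ‖Complex.I • L Complex.I‖ ≤ ‖L‖ := by
    rw [norm_smul, Complex.norm_I, one_mul]
    simpa using L.le_opNorm Complex.I
  have h3 := norm_add_le (L 1) (Complex.I • L Complex.I)
  have h4 : ‖(1 / 2 : ℂ)‖ = 1 / 2 := by simp
  rw [h4]
  linarith

/-- **Hölder estimate on the unit disc.** -/
theorem hol_unit {ε h : ℝ} (hε : 0 < ε) (hh0 : 0 < h) (hh : h < ε) (hh1 : h ≤ 1) :
    ∃ C : ℝ, 0 ≤ C ∧ ∀ (K M : ℝ) (G : ℂ → ℝ≥0∞) (f : ℂ → ℂ) (f' : ℂ → ℂ →L[ℝ] ℂ), Mor K ε G →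
      0 ≤ M → ContinuousOn f (ball 0 1) → (∀ z ∈ ball (0 : ℂ) 1, ‖f z‖ ≤ M) →
      WG (ball 0 1) f f' → (∀ᵐ w ∂volume.restrict (ball (0 : ℂ) 1), ‖f' w‖ₑ ≤ G w) →
      ∀ x ∈ ball (0 : ℂ) (1 / 2), ∀ y ∈ ball (0 : ℂ) (1 / 2),
        ‖f x - f y‖ ≤ C * (K + M) * ‖x - y‖ ^ h := by
  have hpi := Real.pi_pos
  have hk1 : 0 < kc 1 ε := kc_pos (by linarith)
  have hk2 : 0 < kc (1 + h) ε := kc_pos (by linarith)
  refine ⟨2 * (1 + kc 1 ε / Real.pi) + 4 * kc (1 + h) ε / Real.pi, by positivity, ?_⟩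
  intro K M G f f' hG hM hfc hfM hw hle x hx y hy
  set F : ℂ → ℂ := fun z => (1 / 2 : ℂ) • (f' z 1 + Complex.I • f' z Complex.I) with hF
  have hK := hG.K0
  have hm : AEStronglyMeasurable f' (volume.restrict (ball (0 : ℂ) 1)) :=
    aesm_of_int isOpen_ball hw.int
  have hD : Dom G 1 0 F := by
    refine ⟨?_, ?_⟩
    · have h1 : AEStronglyMeasurable (fun z => f' z 1) (volume.restrict (ball (0 : ℂ) 1)) :=
        hm.apply_continuousLinearMap 1
      have h2 : AEStronglyMeasurable (fun z => f' z Complex.I)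
          (volume.restrict (ball (0 : ℂ) 1)) := hm.apply_continuousLinearMap Complex.I
      exact (h1.add (h2.const_smul Complex.I)).const_smul (1 / 2 : ℂ)
    · filter_upwards [hle] with w hw
      rw [Real.rpow_zero, mul_one, ENNReal.ofReal_one, mul_one]
      refine le_trans ?_ hw
      rw [← ofReal_norm, ← ofReal_norm]
      exact ENNReal.ofReal_le_ofReal (norm_zb_le _)
  have hwd : WDb pd f F := (hw.mono pd_subset).toWDb
  obtain ⟨H, hH, hdec⟩ := wdecomp hG hε zero_le_one hD (hfc.mono pd_subset)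
    (fun z hz => hfM z (pd_subset hz)) hwd
  have hcc : Continuous (cauT F) := hD.continuous_cauT zero_le_one hG hε
  have hdec' : ∀ z ∈ ball (0 : ℂ) 1, f z = H z + cauT F z :=
    Mono.Pre.eq_of_eq_off one_pos hfc (hH.continuousOn.add hcc.continuousOn) hdec
  have hcb : ∀ z, ‖cauT F z‖ ≤ K * kc 1 ε / Real.pi := fun z => by
    simpa using hD.norm_cauT_le zero_le_one hG hε z
  have hHb : ∀ z ∈ ball (0 : ℂ) 1, ‖H z‖ ≤ M + K * kc 1 ε / Real.pi := fun z hz => by
    have : H z = f z - cauT F z := by rw [hdec' z hz]; ring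
    rw [this]
    exact (norm_sub_le _ _).trans (add_le_add (hfM z hz) (hcb z))
  have hder : ∀ z ∈ ball (0 : ℂ) (1 / 2), ‖deriv H z‖ ≤ 2 * (M + K * kc 1 ε / Real.pi) := by
    intro z hz
    have hz' := mem_ball_zero_iff.1 hz
    have hsub : closedBall z (1 / 2) ⊆ ball (0 : ℂ) 1 := fun w hw => by
      rw [mem_closedBall, dist_eq_norm] at hw
      rw [mem_ball_zero_iff]
      calc ‖w‖ = ‖(w - z) + z‖ := by ring_nf
        _ ≤ ‖w - z‖ + ‖z‖ := norm_add_le _ _
        _ < 1 := by linarith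
    have hdc : DiffContOnCl ℂ H (ball z (1 / 2)) := by
      refine DifferentiableOn.diffContOnCl ?_
      rw [closure_ball z (by norm_num)]
      exact hH.mono hsub
    have := Complex.norm_deriv_le_of_forall_mem_sphere_norm_le (by norm_num) hdc
      (fun w hw => hHb w (hsub (sphere_subset_closedBall hw)))
    linarith
  have hHl : ‖H x - H y‖ ≤ 2 * (M + K * kc 1 ε / Real.pi) * ‖x - y‖ :=
    (convex_ball (0 : ℂ) (1 / 2)).norm_image_sub_le_of_norm_deriv_le
      (fun z hz => hH.differentiableAt (isOpen_ball.mem_nhds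
        (ball_subset_ball (by norm_num) hz))) hder hy hx
  have hxy : ‖x - y‖ ≤ 1 := by
    have h1 := mem_ball_zero_iff.1 hx
    have h2 := mem_ball_zero_iff.1 hy
    have := norm_sub_le x y
    linarith
  have hle1 : ‖x - y‖ ≤ ‖x - y‖ ^ h := by
    have := Real.rpow_le_rpow_of_exponent_ge' (norm_nonneg (x - y)) hxy hh0.le hh1
    rwa [Real.rpow_one] at this
  have hcl := hD.cauT_holder zero_le_one hG hε hh0.le hh1 hh x y
  rw [hdec' x (ball_subset_ball (by norm_num) hx), hdec' y (ball_subset_ball (by norm_num) hy)]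
  have hpos : 0 ≤ ‖x - y‖ ^ h := by positivity
  calc ‖H x + cauT F x - (H y + cauT F y)‖
      = ‖(H x - H y) + (cauT F x - cauT F y)‖ := by ring_nf
    _ ≤ ‖H x - H y‖ + ‖cauT F x - cauT F y‖ := norm_add_le _ _
    _ ≤ 2 * (M + K * kc 1 ε / Real.pi) * ‖x - y‖ ^ h +
        4 * (1 * (K * kc (1 + h) ε)) / Real.pi * ‖x - y‖ ^ h := by
        refine add_le_add (hHl.trans ?_) hcl
        exact mul_le_mul_of_nonneg_left hle1 (by positivity)
    _ = (2 * (M + K * kc 1 ε / Real.pi) + 4 * (1 * (K * kc (1 + h) ε)) / Real.pi) *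
        ‖x - y‖ ^ h := by ring
    _ ≤ ((2 * (1 + kc 1 ε / Real.pi) + 4 * kc (1 + h) ε / Real.pi) * (K + M)) *
        ‖x - y‖ ^ h := by
        refine mul_le_mul_of_nonneg_right ?_ hpos
        have e1 : 0 ≤ kc 1 ε / Real.pi := by positivity
        have e2 : 0 ≤ kc (1 + h) ε / Real.pi := by positivity
        have : (2 * (1 + kc 1 ε / Real.pi) + 4 * kc (1 + h) ε / Real.pi) * (K + M) -
          (2 * (M + K * kc 1 ε / Real.pi) + 4 * (1 * (K * kc (1 + h) ε)) / Real.pi) =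
          2 * K + 2 * (kc 1 ε / Real.pi) * M + 4 * (kc (1 + h) ε / Real.pi) * M := by ring
        have h3 : 0 ≤ 2 * K + 2 * (kc 1 ε / Real.pi) * M + 4 * (kc (1 + h) ε / Real.pi) * M := by
          positivity
        linarith

/-- from the square to the first power -/
theorem morrey1 {c : ℂ} {ρ K ε : ℝ} {g : ℂ → ℝ≥0∞} (hK : 0 ≤ K)
    (hg : AEMeasurable g (volume.restrict (ball c ρ)))
    (hM : ∀ x t, 0 < t → ∫⁻ z in ball x t ∩ ball c ρ, g z ^ 2 ≤ ENNReal.ofReal (K * t ^ (2 * ε)))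
    (x : ℂ) (t : ℝ) (ht : 0 < t) :
    ∫⁻ z in ball x t ∩ ball c ρ, g z ≤ ENNReal.ofReal (2 * Real.sqrt K * t ^ (1 + ε)) := by
  set S := ball x t ∩ ball c ρ with hS
  have h1 : ∫⁻ z in S, g z ≤ (∫⁻ z in S, g z ^ (2 : ℝ)) ^ (1 / 2 : ℝ) *
      (∫⁻ _ in S, (1 : ℝ≥0∞) ^ (2 : ℝ)) ^ (1 / 2 : ℝ) := by
    have := ENNReal.lintegral_mul_le_Lp_mul_Lq (volume.restrict S) Real.HolderConjugate.two_two
      (f := g) (g := fun _ => 1) (hg.mono_measure (Measure.restrict_mono_set _ inter_subset_right))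
      aemeasurable_const
    simpa using this
  have h2 : ∫⁻ z in S, g z ^ (2 : ℝ) ≤ ENNReal.ofReal (K * t ^ (2 * ε)) := by
    simpa using hM x t ht
  have h3 : ∫⁻ _ in S, (1 : ℝ≥0∞) ^ (2 : ℝ) ≤ ENNReal.ofReal (4 * t ^ 2) := by
    simp only [ENNReal.one_rpow, lintegral_const, one_mul, Measure.restrict_apply_univ]
    refine (measure_mono inter_subset_left).trans ?_
    rw [Complex.volume_ball, ENNReal.ofReal_mul (by norm_num), ENNReal.ofReal_pow ht.le, mul_comm]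
    gcongr
    rw [← ENNReal.ofReal_coe_nnreal]
    exact ENNReal.ofReal_le_ofReal Real.pi_lt_four.le
  refine h1.trans ?_
  have h4 : (ENNReal.ofReal (K * t ^ (2 * ε))) ^ (1 / 2 : ℝ) *
      (ENNReal.ofReal (4 * t ^ 2)) ^ (1 / 2 : ℝ) = ENNReal.ofReal (2 * Real.sqrt K * t ^ (1 + ε)) := by
    rw [ENNReal.ofReal_rpow_of_nonneg (by positivity) (by norm_num),
      ENNReal.ofReal_rpow_of_nonneg (by positivity) (by norm_num),
      ← ENNReal.ofReal_mul (by positivity)]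
    congr 1
    rw [Real.mul_rpow hK (by positivity), Real.mul_rpow (by norm_num) (by positivity),
      ← Real.sqrt_eq_rpow K, ← Real.rpow_mul ht.le, ← Real.rpow_natCast t 2, ← Real.rpow_mul ht.le,
      Real.rpow_add ht]
    have : (4 : ℝ) ^ (1 / 2 : ℝ) = 2 := by
      rw [← Real.sqrt_eq_rpow, show (4 : ℝ) = 2 ^ 2 by norm_num, Real.sqrt_sq (by norm_num)]
    rw [this, show 2 * ε * (1 / 2) = ε by ring, show ((2 : ℕ) : ℝ) * (1 / 2) = 1 by norm_num]
    ring
  rw [← h4]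
  gcongr

/-- **Hölder estimate on a disc of radius `ρ`.** -/
theorem hol_ball {ε h : ℝ} (hε : 0 < ε) (hh0 : 0 < h) (hh : h < ε) (hh1 : h ≤ 1) :
    ∃ C : ℝ, 0 ≤ C ∧ ∀ (K M ρ : ℝ) (c : ℂ) (g : ℂ → ℝ≥0∞) (f : ℂ → ℂ) (f' : ℂ → ℂ →L[ℝ] ℂ),
      0 < ρ → 0 ≤ K → 0 ≤ M → AEMeasurable g (volume.restrict (ball c ρ)) →
      (∀ x t, 0 < t → ∫⁻ z in ball x t ∩ ball c ρ, g z ≤ ENNReal.ofReal (K * t ^ (1 + ε))) →
      ContinuousOn f (ball c ρ) → (∀ z ∈ ball c ρ, ‖f z‖ ≤ M) → WG (ball c ρ) f f' →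
      (∀ᵐ w ∂volume.restrict (ball c ρ), ‖f' w‖ₑ ≤ g w) →
      ∀ x ∈ ball c (ρ / 2), ∀ y ∈ ball c (ρ / 2),
        ‖f x - f y‖ ≤ C * (K * ρ ^ ε + M) * (‖x - y‖ / ρ) ^ h := by
  obtain ⟨C, hC, H⟩ := hol_unit hε hh0 hh hh1
  refine ⟨C, hC, ?_⟩
  intro K M ρ c g f f' hρ hK hM hgm hmor hfc hfM hw hle x hx y hy
  have hsc : sc c ρ '' ball 0 1 = ball c ρ := by
    rw [sc_image_ball c 0 hρ 1, sc_eq]; simp
  have hmaps : ∀ z ∈ ball (0 : ℂ) 1, sc c ρ z ∈ ball c ρ := fun z hz => by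
    rw [← hsc]; exact mem_image_of_mem _ hz
  have hscd : ContDiff ℝ 1 (sc c ρ) := by
    unfold sc; fun_prop
  have hfd : ∀ z, fderiv ℝ (sc c ρ) z = ρ • ContinuousLinearMap.id ℝ ℂ := fun z =>
    (hasFDerivAt_sc c ρ z).fderiv
  have hdet : (ρ • ContinuousLinearMap.id ℝ ℂ).det ≠ 0 := by
    have : (ρ • ContinuousLinearMap.id ℝ ℂ).det = ρ ^ 2 := by
      change LinearMap.det (ρ • (LinearMap.id : ℂ →ₗ[ℝ] ℂ)) = ρ ^ 2
      rw [LinearMap.det_smul, LinearMap.det_id, Complex.finrank_real_complex, mul_one]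
    rw [this]; positivity
  have hWG := hw.comp_right isOpen_ball isOpen_ball (V := ball 0 1) hscd.contDiffOn
    (fun z _ => by rw [hfd]; exact hdet) hmaps
  have hMor : Mor (K * ρ ^ ε) ε (fun z => ENNReal.ofReal ρ * g (sc c ρ z)) := by
    refine ⟨?_, by positivity, fun a t ht => ?_⟩
    · refine AEMeasurable.const_mul ?_ _
      have h1 : Measure.QuasiMeasurePreserving (sc c ρ) (volume.restrict (ball 0 1))
          (volume.restrict (ball c ρ)) := by
        refine (sc_quasi c hρ).restrict ?_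
        intro z hz; exact hmaps z hz
      exact hgm.comp_quasiMeasurePreserving h1
    · have hms : MeasurableSet (ball a t ∩ ball (0 : ℂ) 1) := measurableSet_ball.inter
        measurableSet_ball
      rw [lintegral_const_mul' _ _ ENNReal.ofReal_ne_top, sc_lintegral c hρ hms]
      have hincl : sc c ρ '' (ball a t ∩ ball 0 1) ⊆ ball (sc c ρ a) (ρ * t) ∩ ball c ρ := by
        refine (image_inter_subset _ _ _).trans ?_
        rw [sc_image_ball c a hρ t, hsc]
      calc ENNReal.ofReal ρ * (ENNReal.ofReal ((ρ ^ 2)⁻¹) *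
            ∫⁻ w in sc c ρ '' (ball a t ∩ ball 0 1), g w)
          ≤ ENNReal.ofReal ρ * (ENNReal.ofReal ((ρ ^ 2)⁻¹) *
            ENNReal.ofReal (K * (ρ * t) ^ (1 + ε))) := by
            gcongr
            exact (lintegral_mono_set hincl).trans (hmor _ _ (by positivity))
        _ = ENNReal.ofReal (K * ρ ^ ε * t ^ (1 + ε)) := by
            rw [← ENNReal.ofReal_mul (by positivity), ← ENNReal.ofReal_mul (by positivity)]
            congr 1
            rw [Real.mul_rpow hρ.le ht.le, Real.rpow_add hρ, Real.rpow_one]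
            field_simp
  have hinv : ∀ z ∈ ball c (ρ / 2), ∃ w ∈ ball (0 : ℂ) (1 / 2), sc c ρ w = z := fun z hz => by
    have : sc c ρ '' ball 0 (1 / 2) = ball c (ρ / 2) := by
      rw [sc_image_ball c 0 hρ (1 / 2), sc_eq]; simp [div_eq_mul_inv]
    rw [← this] at hz
    exact hz
  obtain ⟨x', hx', rfl⟩ := hinv x hx
  obtain ⟨y', hy', rfl⟩ := hinv y hy
  have hres := H (K * ρ ^ ε) M _ (fun z => f (sc c ρ z)) _ hMor hM
    (hfc.comp hscd.continuous.continuousOn hmaps) (fun z hz => hfM _ (hmaps z hz)) hWG ?_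
    x' hx' y' hy'
  · have hn : ‖sc c ρ x' - sc c ρ y'‖ / ρ = ‖x' - y'‖ := by
      have : sc c ρ x' - sc c ρ y' = ρ • (x' - y') := by simp only [sc, smul_sub]; abel
      rw [this, norm_smul, Real.norm_of_nonneg hρ.le]
      field_simp
    rw [hn]
    exact hres
  · have h1 : Measure.QuasiMeasurePreserving (sc c ρ) (volume.restrict (ball 0 1))
        (volume.restrict (ball c ρ)) :=
      (sc_quasi c hρ).restrict (fun z hz => hmaps z hz)
    filter_upwards [h1.ae hle] with z hz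
    have e1 : ‖(f' (sc c ρ z)).comp (fderiv ℝ (sc c ρ) z)‖ₑ ≤ ENNReal.ofReal ρ * ‖f' (sc c ρ z)‖ₑ := by
      rw [hfd, ← ofReal_norm, ← ofReal_norm, ← ENNReal.ofReal_mul hρ.le]
      refine ENNReal.ofReal_le_ofReal ?_
      refine (ContinuousLinearMap.opNorm_comp_le _ _).trans ?_
      rw [norm_smul, Real.norm_of_nonneg hρ.le, mul_comm]
      refine mul_le_mul_of_nonneg_right ?_ (norm_nonneg _)
      exact mul_le_of_le_one_right hρ.le ContinuousLinearMap.norm_id_le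
    exact e1.trans (by gcongr)

end Vale.Agent.P247.H957.Asm
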