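import Vale.Agent.P247.H957.Asm1
import Vale.Agent.P247.H957.AsmDef
import Vale.Agent.P247.H667.Spl

/-! P247, PUI-ASM (helper957), part 2: weak gradient of a sheet of constant multiplicity. -/

open MeasureTheory Set Metric Filter Topology
open scoped ContDiff ENNReal

noncomputable section

namespace Vale.Agent.P247.H957.Asm

open Vale.Agent.P247.H324 Vale.Agent.P272.CT Vale.Agent.P247.H667

variable {N : ℕ} {Y : ℂ → Fin N → ℂ} {D : ℂ → Fin N → ℂ →L[ℝ] ℂ} {B : Set ℂ} {c : ℕ} {w : ℂ → ℂ}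

open Classical in
/-- a continuous sheet of constant multiplicity -/
structure Sheet (Y : ℂ → Fin N → ℂ) (B : Set ℂ) (c : ℕ) (w : ℂ → ℂ) : Prop where
  op : IsOpen B
  cont : ContinuousOn w B
  c1 : 1 ≤ c
  mult : ∀ z ∈ B, (Finset.univ.filter fun i => Y z i = w z).card = c

open Classical in
/-- the weak gradient of the sheet -/
def Dw (Y : ℂ → Fin N → ℂ) (D : ℂ → Fin N → ℂ →L[ℝ] ℂ) (w : ℂ → ℂ) (z : ℂ) : ℂ →L[ℝ] ℂ :=
  if h : ∃ i, Y z i = w z then D z h.choose else 0

theorem Sheet.mem (h : Sheet Y B c w) {z : ℂ} (hz : z ∈ B) : ∃ i, Y z i = w z := by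
  classical
  have h1 := h.mult z hz
  have h2 : (Finset.univ.filter fun i => Y z i = w z).Nonempty := by
    rw [← Finset.card_pos, h1]; exact h.c1
  obtain ⟨i, hi⟩ := h2
  exact ⟨i, (Finset.mem_filter.1 hi).2⟩

theorem Dw_mem (h : Sheet Y B c w) {z : ℂ} (hz : z ∈ B) : ∃ i, Y z i = w z ∧ Dw Y D w z = D z i := by
  have h1 := h.mem hz
  exact ⟨h1.choose, h1.choose_spec, by rw [Dw, dif_pos h1]⟩

theorem Dw_eq (same : ∀ z ∈ B, ∀ i j, Y z i = Y z j → D z i = D z j) (h : Sheet Y B c w) {z : ℂ}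
    (hz : z ∈ B) {i : Fin N} (hi : Y z i = w z) : Dw Y D w z = D z i := by
  obtain ⟨j, hj, hD⟩ := Dw_mem (D := D) h hz
  rw [hD]
  exact same z hz j i (hj.trans hi.symm)

/-- a positive distance to finitely many other values -/
theorem exists_gap {N : ℕ} (a : Fin N → ℂ) (v : ℂ) : ∃ η > 0, ∀ j, a j = v ∨ 3 * η ≤ ‖a j - v‖ := by
  classical
  rcases (Finset.univ.filter fun j => a j ≠ v).eq_empty_or_nonempty with he | hne
  · refine ⟨1, one_pos, fun j => Or.inl ?_⟩
    by_contra hcon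
    have : j ∈ Finset.univ.filter fun j => a j ≠ v := Finset.mem_filter.2 ⟨Finset.mem_univ _, hcon⟩
    rw [he] at this
    exact absurd this (Finset.notMem_empty _)
  · obtain ⟨i, hi, hmin⟩ := Finset.exists_min_image _ (fun j => ‖a j - v‖) hne
    have hpos : 0 < ‖a i - v‖ := norm_pos_iff.2 (sub_ne_zero.2 (Finset.mem_filter.1 hi).2)
    refine ⟨‖a i - v‖ / 3, by positivity, fun j => ?_⟩
    by_cases hj : a j = v
    · exact Or.inl hj
    · right
      have := hmin j (Finset.mem_filter.2 ⟨Finset.mem_univ _, hj⟩)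
      linarith

/-- near a point, the values near `w` are equal to `w` -/
theorem Sheet.local_eq (h : Sheet Y B c w) (hM : MS N B Y D) {z1 : ℂ} (hz : z1 ∈ B) :
    ∃ η > 0, ∀ᶠ z in 𝓝 z1, ‖w z - w z1‖ < η ∧
      ∀ i, Y z i = w z ∨ 2 * η < ‖Y z i - w z1‖ := by
  classical
  obtain ⟨η, hη, hgap⟩ := exists_gap (Y z1) (w z1)
  refine ⟨η, hη, ?_⟩
  have hB : B ∈ 𝓝 z1 := h.op.mem_nhds hz
  have hnear := hM.near hz hη
  rw [nhdsWithin_eq_nhds.2 hB] at hnear
  have hdich : ∀ᶠ z in 𝓝 z1, ∀ i, ‖Y z i - w z1‖ < η ∨ 2 * η < ‖Y z i - w z1‖ := by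
    filter_upwards [hnear] with z hz i
    obtain ⟨j, hj⟩ := hz i
    rcases hgap j with h1 | h1
    · left; rwa [← h1]
    · right
      have h2 : ‖Y z1 j - w z1‖ ≤ ‖Y z i - Y z1 j‖ + ‖Y z i - w z1‖ := by
        have := norm_sub_le (Y z i - w z1) (Y z i - Y z1 j)
        rw [show Y z i - w z1 - (Y z i - Y z1 j) = Y z1 j - w z1 by ring] at this
        linarith
      linarith
  -- the number of values near `w z1`
  let χ : ContDiffBump (w z1) := ⟨η, 2 * η, hη, by linarith⟩
  have hχ1 : ∀ y, ‖y - w z1‖ < η → χ y = 1 := fun y hy =>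
    χ.one_of_mem_closedBall (mem_closedBall.2 (by rw [dist_eq_norm]; exact hy.le))
  have hχ0 : ∀ y, 2 * η < ‖y - w z1‖ → χ y = 0 := fun y hy =>
    χ.zero_of_le_dist (by rw [dist_eq_norm]; exact hy.le)
  have hsum : ∀ z, (∀ i, ‖Y z i - w z1‖ < η ∨ 2 * η < ‖Y z i - w z1‖) →
      ∑ i, ((χ (Y z i) : ℝ) : ℂ) =
        ((Finset.univ.filter fun i => ‖Y z i - w z1‖ < η).card : ℂ) := fun z hz => by
    rw [Finset.card_filter]
    push_cast
    refine Finset.sum_congr rfl fun i _ => ?_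
    rcases hz i with h1 | h1
    · rw [hχ1 _ h1, if_pos h1]; simp
    · rw [hχ0 _ h1, if_neg (by linarith)]; simp
  have hc0 := (hM.cont (fun y => ((χ y : ℝ) : ℂ))
    (Complex.continuous_ofReal.comp χ.continuous)).continuousAt hB
  have hcard1 : (Finset.univ.filter fun i => ‖Y z1 i - w z1‖ < η).card = c := by
    rw [← h.mult z1 hz]
    congr 1
    ext i
    simp only [Finset.mem_filter, Finset.mem_univ, true_and]
    constructor
    · intro h1
      rcases hgap i with h2 | h2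
      · exact h2
      · linarith
    · intro h1; rw [h1, sub_self, norm_zero]; exact hη
  have hev : ∀ᶠ z in 𝓝 z1, (Finset.univ.filter fun i => ‖Y z i - w z1‖ < η).card = c := by
    have h1 := Metric.tendsto_nhds.1 hc0 1 one_pos
    filter_upwards [h1, hdich] with z hz1 hz2
    rw [hsum z hz2, hsum z1 hdich.self_of_nhds, hcard1, dist_eq_norm] at hz1
    have h2 : ‖(((Finset.univ.filter fun i => ‖Y z i - w z1‖ < η).card : ℤ) - (c : ℤ) : ℂ)‖ < 1 := by
      simpa using hz1
    have h3 : |(((Finset.univ.filter fun i => ‖Y z i - w z1‖ < η).card : ℤ) - (c : ℤ))| < 1 := by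
      rw [← Int.cast_sub, Complex.norm_intCast] at h2
      exact_mod_cast h2
    have h4 := Int.abs_lt_one_iff.1 h3
    omega
  have hwc : ∀ᶠ z in 𝓝 z1, ‖w z - w z1‖ < η := by
    have h1 := Metric.tendsto_nhds.1 (h.cont.continuousAt hB) η hη
    filter_upwards [h1] with z hz
    rwa [dist_eq_norm] at hz
  filter_upwards [hdich, hev, hwc, hB] with z h1 h2 h3 h4
  refine ⟨h3, fun i => ?_⟩
  rcases h1 i with h5 | h5
  · left
    have hsub : (Finset.univ.filter fun i => Y z i = w z) ⊆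
        Finset.univ.filter fun i => ‖Y z i - w z1‖ < η := by
      intro j hj
      rw [Finset.mem_filter] at hj ⊢
      refine ⟨hj.1, ?_⟩
      rw [hj.2]; exact h3
    have heq := Finset.eq_of_subset_of_card_le hsub (by rw [h2, h.mult z h4])
    have hi : i ∈ Finset.univ.filter fun i => ‖Y z i - w z1‖ < η :=
      Finset.mem_filter.2 ⟨Finset.mem_univ _, h5⟩
    rw [← heq] at hi
    exact (Finset.mem_filter.1 hi).2
  · exact Or.inr h5

/-- **weak gradient of the sheet** -/
theorem Sheet.wg (h : Sheet Y B c w) (hM : MS N B Y D)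
    (same : ∀ z ∈ B, ∀ i j, Y z i = Y z j → D z i = D z j) : WG B w (Dw Y D w) := by
  classical
  refine WG.of_local h.op fun z1 hz1 => ?_
  obtain ⟨η, hη, hev⟩ := h.local_eq hM hz1
  have hB : B ∈ 𝓝 z1 := h.op.mem_nhds hz1
  obtain ⟨V, hVs, hVo, hzV⟩ := _root_.eventually_nhds_iff.1 (hev.and hB)
  refine ⟨V, hVo, hzV, ?_⟩
  let χ : ContDiffBump (w z1) := ⟨η, 2 * η, hη, by linarith⟩
  set F : ℂ → ℂ := fun y => ((χ y : ℝ) : ℂ) * y with hF
  have hFs : ContDiff ℝ ∞ F :=
    (Complex.ofRealCLM.contDiff.comp χ.contDiff).mul contDiff_id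
  have hF1 : ∀ y, ‖y - w z1‖ < η → F y = y ∧ fderiv ℝ F y = ContinuousLinearMap.id ℝ ℂ := by
    intro y hy
    have hev2 : F =ᶠ[𝓝 y] id := by
      have hop : IsOpen {y : ℂ | ‖y - w z1‖ < η} := isOpen_lt (by fun_prop) continuous_const
      filter_upwards [hop.mem_nhds hy] with x hx
      have : χ x = 1 := χ.one_of_mem_closedBall
        (mem_closedBall.2 (by rw [dist_eq_norm]; exact (le_of_lt hx)))
      simp [hF, this]
    exact ⟨hev2.self_of_nhds, by rw [hev2.fderiv_eq, fderiv_id]⟩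
  have hF0 : ∀ y, 2 * η < ‖y - w z1‖ → F y = 0 ∧ fderiv ℝ F y = 0 := by
    intro y hy
    have hev2 : F =ᶠ[𝓝 y] fun _ => 0 := by
      have hop : IsOpen {y : ℂ | 2 * η < ‖y - w z1‖} := isOpen_lt continuous_const (by fun_prop)
      filter_upwards [hop.mem_nhds hy] with x hx
      have : χ x = 0 := χ.zero_of_le_dist (by rw [dist_eq_norm]; exact (le_of_lt hx))
      simp [hF, this]
    exact ⟨hev2.self_of_nhds, by rw [hev2.fderiv_eq, fderiv_fun_const]; rfl⟩
  have hVB : V ⊆ B := fun z hz => (hVs z hz).2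
  have hc0 : (c : ℂ) ≠ 0 := Nat.cast_ne_zero.2 (by have := h.c1; omega)
  have hwg := ((hM.chain F hFs).mono hVB).clm (((c : ℝ)⁻¹) • ContinuousLinearMap.id ℝ ℂ)
  have hval : ∀ z ∈ V, ∀ i, (Y z i = w z → F (Y z i) = w z ∧
      fderiv ℝ F (Y z i) = ContinuousLinearMap.id ℝ ℂ) ∧
      (Y z i ≠ w z → F (Y z i) = 0 ∧ fderiv ℝ F (Y z i) = 0) := by
    intro z hz i
    obtain ⟨⟨h1, h2⟩, -⟩ := hVs z hz
    constructor
    · intro h3
      rw [h3]
      exact hF1 _ h1
    · intro h3
      rcases h2 i with h4 | h4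
      · exact absurd h4 h3
      · exact hF0 _ h4
  refine hwg.congr hVo.measurableSet ?_ ?_
  · intro z hz
    have hs : ∑ i, F (Y z i) = (c : ℂ) * w z := by
      calc ∑ i, F (Y z i) = ∑ i, if Y z i = w z then w z else 0 := by
            refine Finset.sum_congr rfl fun i _ => ?_
            split_ifs with h1
            · exact ((hval z hz i).1 h1).1
            · exact ((hval z hz i).2 h1).1
        _ = (c : ℂ) * w z := by
            rw [← Finset.sum_filter, Finset.sum_const, h.mult z (hVB hz), nsmul_eq_mul]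
    change ((c : ℝ)⁻¹) • (∑ i, F (Y z i)) = w z
    rw [hs, Complex.real_smul]
    push_cast
    rw [← mul_assoc, inv_mul_cancel₀ hc0, one_mul]
  · intro z hz
    have hs : ∑ i, (fderiv ℝ F (Y z i)).comp (D z i) = (c : ℝ) • Dw Y D w z := by
      calc ∑ i, (fderiv ℝ F (Y z i)).comp (D z i) =
          ∑ i, if Y z i = w z then Dw Y D w z else 0 := by
            refine Finset.sum_congr rfl fun i _ => ?_
            split_ifs with h1
            · rw [((hval z hz i).1 h1).2, ContinuousLinearMap.id_comp,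
                Dw_eq same h (hVB hz) h1]
            · rw [((hval z hz i).2 h1).2, ContinuousLinearMap.zero_comp]
        _ = (c : ℝ) • Dw Y D w z := by
            rw [← Finset.sum_filter, Finset.sum_const, h.mult z (hVB hz)]
            exact (Nat.cast_smul_eq_nsmul ℝ c _).symm
    change (((c : ℝ)⁻¹) • ContinuousLinearMap.id ℝ ℂ).comp
      (∑ i, (fderiv ℝ F (Y z i)).comp (D z i)) = Dw Y D w z
    rw [hs]
    ext v
    have hc1 : (c : ℝ) ≠ 0 := Nat.cast_ne_zero.2 (by have := h.c1; omega)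
    simp only [ContinuousLinearMap.comp_apply, _root_.smul_apply,
      ContinuousLinearMap.id_apply, smul_smul, inv_mul_cancel₀ hc1, one_smul]

end Vale.Agent.P247.H957.Asm
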