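import Vale.Agent.P247.H957.Asm2
import Vale.Agent.P247.H832.R1U

/-! P247, PUI-ASM (helper957), part 3: sheets are smooth solutions. -/

open MeasureTheory Set Metric Filter Topology
open scoped ContDiff ENNReal

noncomputable section

namespace Vale.Agent.P247.H957.Asm

open Vale.Agent.P247.H324 Vale.Agent.P272.CT Vale.Agent.P247.H667

/-- uniqueness of the weak gradient -/
theorem wg_unique {U : Set ℂ} (hU : IsOpen U) {f : ℂ → ℂ} {f' f'' : ℂ → ℂ →L[ℝ] ℂ}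
    (h : WG U f f') (h2 : WG U f f'') : ∀ᵐ z, z ∈ U → f' z = f'' z := by
  have loc : ∀ v, LocallyIntegrableOn (fun z => f' z v - f'' z v) U := fun v => by
    rw [locallyIntegrableOn_iff hU.isLocallyClosed]
    exact fun k hk hc => (int_apply (h.int k hc hk) v).sub (int_apply (h2.int k hc hk) v)
  have key : ∀ v, ∀ᵐ z, z ∈ U → f' z v - f'' z v = 0 := fun v => by
    refine hU.ae_eq_zero_of_integral_contDiff_smul_eq_zero (loc v) fun φ hφ hc hs => ?_
    have i1 : Integrable fun z => φ z • f' z v :=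
      int_test hφ.continuous hc hs (fun K hK hKU => int_apply (h.int K hK hKU) v)
    have i2 : Integrable fun z => φ z • f'' z v :=
      int_test hφ.continuous hc hs (fun K hK hKU => int_apply (h2.int K hK hKU) v)
    simp only [smul_sub]
    rw [integral_sub i1 i2]
    have e1 := h.wd φ hφ hc hs v
    have e2 := h2.wd φ hφ hc hs v
    rw [e1] at e2
    have := neg_injective e2
    rw [this, sub_self]
  filter_upwards [key 1, key Complex.I] with z h1 hI hz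
  refine ContinuousLinearMap.ext fun v => ?_
  rw [pz_pzb (f' z) v, pz_pzb (f'' z) v]
  unfold pz pzb
  rw [sub_eq_zero.1 (h1 hz), sub_eq_zero.1 (hI hz)]

variable {N : ℕ} {Y : ℂ → Fin N → ℂ} {D : ℂ → Fin N → ℂ →L[ℝ] ℂ} {B : Set ℂ} {c : ℕ} {w : ℂ → ℂ}
  {R K ε L : ℝ} {m A : ℂ × ℂ → ℂ} {g : ℂ → ℝ≥0∞}

/-- the multisection of `Bas` -/
theorem bas_ms (hB : Bas R K ε L m A g Y D) {B : Set ℂ} (hBR : B ⊆ ball 0 R) : MS N B Y D :=
  MS.mono ⟨hB.cont, hB.chain⟩ hBR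

theorem Sheet.wgB (hB : Bas R K ε L m A g Y D) (h : Sheet Y B c w) (hBR : B ⊆ ball 0 R) :
    WG B w (Dw Y D w) :=
  h.wg (bas_ms hB hBR) fun z hz => hB.same z (hBR hz)

theorem Sheet.bound (hB : Bas R K ε L m A g Y D) (h : Sheet Y B c w) {z : ℂ} (hz : z ∈ B) :
    ‖w z‖ ≤ L := by
  obtain ⟨i, hi⟩ := h.mem hz
  rw [← hi]; exact hB.bdd z i

theorem mem_PD (hB : Bas R K ε L m A g Y D) (hL : L < 1) {z y : ℂ} (hz : z ∈ ball (0 : ℂ) R)
    (hy : ‖y‖ ≤ L) : (z, y) ∈ H574.PD 2 := by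
  have := hB.Rle
  refine ⟨?_, ?_⟩
  · change z ∈ ball (0 : ℂ) 2
    exact ball_subset_ball (by linarith) hz
  · change y ∈ ball (0 : ℂ) 2
    rw [mem_ball_zero_iff]; linarith

theorem isOpen_PD (r : ℝ) : IsOpen (H574.PD r) := isOpen_ball.prod isOpen_ball

/-- **sheets are smooth** -/
theorem Sheet.smooth (hB : Bas R K ε L m A g Y D) (hL : L < 1) (hm : ContDiffOn ℝ ∞ m (H574.PD 2))
    (hA : ContDiffOn ℝ ∞ A (H574.PD 2)) (hlt : ∀ p ∈ H574.PD 2, ‖m p‖ < 1) (h : Sheet Y B c w)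
    (hBR : B ⊆ ball 0 R) : ContDiffOn ℝ ∞ w B := by
  refine H832.R1.reg1_WG' h.op (h.wgB hB hBR) h.cont (fun S hS hSc => ?_) (isOpen_PD 2)
    (fun z hz => mem_PD hB hL (hBR hz) (h.bound hB hz)) hm hA
    (fun z hz => hlt _ (mem_PD hB hL (hBR hz) (h.bound hB hz)))
    (Eventually.of_forall fun z hz => ?_)
  · have h1 : ∫⁻ z in S, ‖Dw Y D w z‖ₑ ^ 2 ≤ ∫⁻ z in S, g z ^ 2 := by
      refine lintegral_mono_ae ?_
      filter_upwards [ae_restrict_mem hSc.measurableSet] with z hz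
      obtain ⟨i, -, hi⟩ := Dw_mem (D := D) h (hS hz)
      rw [hi]
      gcongr
      exact hB.gD z (hBR (hS hz)) i
    have h2 : ∫⁻ z in S, g z ^ 2 ≤ ∫⁻ z in ball (0 : ℂ) R ∩ ball 0 R, g z ^ 2 :=
      lintegral_mono_set (by rw [inter_self]; exact hS.trans hBR)
    exact (lt_of_le_of_lt (h1.trans (h2.trans (hB.mor 0 R hB.Rpos))) ENNReal.ofReal_lt_top).ne
  · obtain ⟨i, hi, hi2⟩ := Dw_mem (D := D) h hz
    rw [hi2, ← hi]
    exact hB.eqn z (hBR hz) i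

/-- the classical gradient of the sheet -/
theorem Sheet.fderiv_ae (hB : Bas R K ε L m A g Y D) (hL : L < 1)
    (hm : ContDiffOn ℝ ∞ m (H574.PD 2))
    (hA : ContDiffOn ℝ ∞ A (H574.PD 2)) (hlt : ∀ p ∈ H574.PD 2, ‖m p‖ < 1) (h : Sheet Y B c w)
    (hBR : B ⊆ ball 0 R) : ∀ᵐ z, z ∈ B → fderiv ℝ w z = Dw Y D w z :=
  wg_unique h.op (WG.of_contDiffOn h.op ((h.smooth hB hL hm hA hlt hBR).of_le (by simp)))
    (h.wgB hB hBR)

/-- **the equation** -/
theorem Sheet.eqn (hB : Bas R K ε L m A g Y D) (hL : L < 1) (hm : ContDiffOn ℝ ∞ m (H574.PD 2))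
    (hA : ContDiffOn ℝ ∞ A (H574.PD 2)) (hlt : ∀ p ∈ H574.PD 2, ‖m p‖ < 1) (h : Sheet Y B c w)
    (hBR : B ⊆ ball 0 R) : ∀ z ∈ B, pzb (fderiv ℝ w z) = m (z, w z) * pz (fderiv ℝ w z) +
      A (z, w z) := by
  have hs := h.smooth hB hL hm hA hlt hBR
  have hd : ContinuousOn (fderiv ℝ w) B := hs.continuousOn_fderiv_of_isOpen h.op (by simp)
  have hgr : ContinuousOn (fun z => (z, w z)) B := continuousOn_id.prodMk h.cont
  have hmem : ∀ z ∈ B, (z, w z) ∈ H574.PD 2 := fun z hz =>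
    mem_PD hB hL (hBR hz) (h.bound hB hz)
  have c1 : ContinuousOn (fun z => fderiv ℝ w z 1) B := hd.clm_apply continuousOn_const
  have c2 : ContinuousOn (fun z => fderiv ℝ w z Complex.I) B := hd.clm_apply continuousOn_const
  have cz : ContinuousOn (fun z => pz (fderiv ℝ w z)) B := by
    unfold pz; fun_prop
  have czb : ContinuousOn (fun z => pzb (fderiv ℝ w z)) B := by
    unfold pzb; fun_prop
  have cr : ContinuousOn (fun z => m (z, w z) * pz (fderiv ℝ w z) + A (z, w z)) B :=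
    ((hm.continuousOn.comp hgr hmem).mul cz).add (hA.continuousOn.comp hgr hmem)
  have hae : ∀ᵐ z, z ∈ B → pzb (fderiv ℝ w z) = m (z, w z) * pz (fderiv ℝ w z) + A (z, w z) := by
    filter_upwards [h.fderiv_ae hB hL hm hA hlt hBR] with z h1 hz
    rw [h1 hz]
    obtain ⟨i, hi, hi2⟩ := Dw_mem (D := D) h hz
    rw [hi2, ← hi]
    exact hB.eqn z (hBR hz) i
  intro z hz
  by_contra hne
  have hop : IsOpen (B ∩ (fun z => pzb (fderiv ℝ w z) -
      (m (z, w z) * pz (fderiv ℝ w z) + A (z, w z))) ⁻¹' {0}ᶜ) :=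
    (czb.sub cr).isOpen_inter_preimage h.op isClosed_singleton.isOpen_compl
  have hpos := hop.measure_pos (volume : Measure ℂ) ⟨z, hz, fun h0 => hne (sub_eq_zero.1 h0)⟩
  refine hpos.ne' (measure_mono_null ?_ hae)
  rintro s ⟨hs, hs0⟩ hcon
  exact hs0 (sub_eq_zero.2 (hcon hs))

theorem Sheet.enorm_le (hB : Bas R K ε L m A g Y D) (h : Sheet Y B c w) (hBR : B ⊆ ball 0 R)
    {z : ℂ} (hz : z ∈ B) : ‖Dw Y D w z‖ₑ ≤ g z := by
  obtain ⟨i, -, hi2⟩ := Dw_mem (D := D) h hz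
  rw [hi2]
  exact hB.gD z (hBR hz) i

end Vale.Agent.P247.H957.Asm
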