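import Vale.Agent.P247.H957.Asm3

/-! P247, PUI-ASM (helper957), part 4: Hölder bounds at `0` and on sheets. -/

open MeasureTheory Set Metric Filter Topology
open scoped ContDiff ENNReal

noncomputable section

namespace Vale.Agent.P247.H957.Asm

open Vale.Agent.P247.H324 Vale.Agent.P272.CT Vale.Agent.P247.H667

variable {N : ℕ} {Y : ℂ → Fin N → ℂ} {D : ℂ → Fin N → ℂ →L[ℝ] ℂ} {B : Set ℂ} {c : ℕ} {w : ℂ → ℂ}
  {R K ε L : ℝ} {m A : ℂ × ℂ → ℂ} {g : ℂ → ℝ≥0∞}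

/-- the first power Morrey bound on a smaller disc -/
theorem bas_mor1 (hB : Bas R K ε L m A g Y D) {z0 : ℂ} {ρ : ℝ} (hsub : ball z0 ρ ⊆ ball 0 R)
    (x : ℂ) (t : ℝ) (ht : 0 < t) :
    ∫⁻ z in ball x t ∩ ball z0 ρ, g z ≤ ENNReal.ofReal (2 * Real.sqrt K * t ^ (1 + ε)) :=
  morrey1 hB.Kpos (hB.gm.mono_measure (Measure.restrict_mono_set _ hsub))
    (fun x t ht => (lintegral_mono_set (inter_subset_inter_right _ hsub)).trans (hB.mor x t ht))
    x t ht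

/-- the product of the squared distances to finitely many points -/
def Fv (S : Finset ℂ) (y : ℂ) : ℂ := ∏ v ∈ S, ((y - v) * (starRingEnd ℂ) (y - v))

theorem Fv_smooth (S : Finset ℂ) : ContDiff ℝ ∞ (Fv S) := by
  unfold Fv
  refine contDiff_prod fun v _ => ?_
  have h1 : ContDiff ℝ ∞ fun y : ℂ => y - v := contDiff_id.sub contDiff_const
  exact h1.mul (Complex.conjCLE.contDiff.comp h1)

theorem Fv_eq (S : Finset ℂ) (y : ℂ) : Fv S y = ((∏ v ∈ S, ‖y - v‖ ^ 2 : ℝ) : ℂ) := by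
  unfold Fv
  push_cast
  refine Finset.prod_congr rfl fun v _ => ?_
  rw [Complex.mul_conj, Complex.normSq_eq_norm_sq]
  push_cast
  rfl

/-- **Hölder bound at `0`.** -/
theorem hol_zero (hB : Bas R K ε L m A g Y D) : ∃ C γ : ℝ, 0 ≤ C ∧ 0 < γ ∧
    ∀ z ∈ ball (0 : ℂ) (R / 2), ∀ i, ∏ v ∈ Finset.univ.image (Y 0), ‖Y z i - v‖ ^ 2 ≤
      C * ‖z‖ ^ γ := by
  classical
  set S := Finset.univ.image (Y 0) with hS
  have hε := hB.εpos
  have hR := hB.Rpos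
  set h : ℝ := min (ε / 2) 1 with hh
  have hh0 : 0 < h := lt_min (half_pos hε) one_pos
  have hhε : h < ε := (min_le_left _ _).trans_lt (half_lt_self hε)
  obtain ⟨C, hC, H⟩ := hol_ball hε hh0 hhε (min_le_right _ _)
  have hFs := Fv_smooth S
  have hcomp : IsCompact (closedBall (0 : ℂ) L) := isCompact_closedBall _ _
  obtain ⟨M1, hM1⟩ := hcomp.exists_bound_of_continuousOn (f := Fv S) hFs.continuous.continuousOn
  obtain ⟨M2, hM2⟩ := hcomp.exists_bound_of_continuousOn (f := fderiv ℝ (Fv S))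
    (hFs.continuous_fderiv (by simp)).continuousOn
  have hYm : ∀ z i, Y z i ∈ closedBall (0 : ℂ) L := fun z i => by
    rw [mem_closedBall_zero_iff]; exact hB.bdd z i
  set f : ℂ → ℂ := fun z => ∑ i, Fv S (Y z i) with hf
  set f' : ℂ → ℂ →L[ℝ] ℂ := fun z => ∑ i, (fderiv ℝ (Fv S) (Y z i)).comp (D z i) with hf'
  have hf0 : f 0 = 0 := by
    refine Finset.sum_eq_zero fun i _ => ?_
    unfold Fv
    refine Finset.prod_eq_zero (i := Y 0 i) (Finset.mem_image_of_mem _ (Finset.mem_univ i)) ?_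
    simp
  have hfM : ∀ z ∈ ball (0 : ℂ) R, ‖f z‖ ≤ N * |M1| := fun z _ => by
    refine (norm_sum_le _ _).trans ?_
    calc ∑ i, ‖Fv S (Y z i)‖ ≤ ∑ _i : Fin N, |M1| :=
          Finset.sum_le_sum fun i _ => (hM1 _ (hYm z i)).trans (le_abs_self _)
      _ = N * |M1| := by simp
  have hle : ∀ᵐ z ∂volume.restrict (ball (0 : ℂ) R), ‖f' z‖ₑ ≤ ENNReal.ofReal (N * |M2|) * g z := by
    filter_upwards [ae_restrict_mem measurableSet_ball] with z hz
    calc ‖f' z‖ₑ ≤ ∑ i, ‖(fderiv ℝ (Fv S) (Y z i)).comp (D z i)‖ₑ := enorm_sum_le _ _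
      _ ≤ ∑ _i : Fin N, ENNReal.ofReal |M2| * g z := by
          refine Finset.sum_le_sum fun i _ => ?_
          calc ‖(fderiv ℝ (Fv S) (Y z i)).comp (D z i)‖ₑ
              ≤ ‖fderiv ℝ (Fv S) (Y z i)‖ₑ * ‖D z i‖ₑ := by
                rw [← ofReal_norm, ← ofReal_norm, ← ofReal_norm,
                  ← ENNReal.ofReal_mul (norm_nonneg _)]
                exact ENNReal.ofReal_le_ofReal (ContinuousLinearMap.opNorm_comp_le _ _)
            _ ≤ _ := by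
                gcongr
                · rw [← ofReal_norm]
                  exact ENNReal.ofReal_le_ofReal ((hM2 _ (hYm z i)).trans (le_abs_self _))
                · exact hB.gD z hz i
      _ = ENNReal.ofReal (N * |M2|) * g z := by
          rw [Finset.sum_const, Finset.card_univ, Fintype.card_fin, nsmul_eq_mul, ← mul_assoc,
            ENNReal.ofReal_mul (by positivity), ENNReal.ofReal_natCast]
  have hmor : ∀ x t, 0 < t → ∫⁻ z in ball x t ∩ ball (0 : ℂ) R, ENNReal.ofReal (N * |M2|) * g z ≤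
      ENNReal.ofReal ((N * |M2| * (2 * Real.sqrt K)) * t ^ (1 + ε)) := fun x t ht => by
    rw [lintegral_const_mul' _ _ ENNReal.ofReal_ne_top]
    refine (mul_le_mul_right (bas_mor1 hB le_rfl x t ht) _).trans (le_of_eq ?_)
    rw [← ENNReal.ofReal_mul (by positivity)]
    congr 1; ring
  have hres := H (N * |M2| * (2 * Real.sqrt K)) (N * |M1|) R 0
    (fun z => ENNReal.ofReal (N * |M2|) * g z) f f' hR (by positivity) (by positivity)
    (hB.gm.const_mul _) hmor (hB.cont _ hFs.continuous) hfM (hB.chain _ hFs) hle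
  refine ⟨C * (N * |M2| * (2 * Real.sqrt K) * R ^ ε + N * |M1|) * (R⁻¹) ^ h, h, by positivity,
    hh0, fun z hz i => ?_⟩
  have h1 := hres z hz 0 (mem_ball_self (by linarith))
  rw [hf0, sub_zero, sub_zero, div_eq_mul_inv, Real.mul_rpow (norm_nonneg _) (by positivity)] at h1
  have h2 : (∏ v ∈ S, ‖Y z i - v‖ ^ 2 : ℝ) ≤ ‖f z‖ := by
    have h3 : f z = ((∑ i, ∏ v ∈ S, ‖Y z i - v‖ ^ 2 : ℝ) : ℂ) := by
      simp only [hf, Fv_eq]
      push_cast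
      rfl
    rw [h3, Complex.norm_real, Real.norm_of_nonneg (Finset.sum_nonneg fun i _ =>
      Finset.prod_nonneg fun v _ => by positivity)]
    exact Finset.single_le_sum (f := fun i => ∏ v ∈ S, ‖Y z i - v‖ ^ 2)
      (fun i _ => Finset.prod_nonneg fun v _ => by positivity) (Finset.mem_univ i)
  calc (∏ v ∈ S, ‖Y z i - v‖ ^ 2 : ℝ) ≤ ‖f z‖ := h2
    _ ≤ _ := h1
    _ = _ := by ring

/-- from the product to one factor -/
theorem near_bound {S : Finset ℂ} {v0 y : ℂ} (hv0 : v0 ∈ S) {η : ℝ} (hη : 0 < η)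
    (hfar : ∀ v ∈ S, v ≠ v0 → η ≤ ‖y - v‖) {b : ℝ} (h : ∏ v ∈ S, ‖y - v‖ ^ 2 ≤ b) :
    ‖y - v0‖ ^ 2 ≤ b / η ^ (2 * (S.card - 1)) := by
  classical
  rw [le_div_iff₀ (by positivity)]
  refine le_trans ?_ h
  rw [← Finset.mul_prod_erase S _ hv0]
  refine mul_le_mul_of_nonneg_left ?_ (by positivity)
  calc η ^ (2 * (S.card - 1)) = ∏ _v ∈ S.erase v0, η ^ 2 := by
        rw [Finset.prod_const, Finset.card_erase_of_mem hv0, ← pow_mul]
    _ ≤ _ := by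
        refine Finset.prod_le_prod (fun _ _ => by positivity) fun v hv => ?_
        have h1 := Finset.mem_erase.1 hv
        exact pow_le_pow_left₀ hη.le (hfar v h1.2 h1.1) 2

/-- uniform constants of `m`, `A` -/
theorem exists_const (hL : L < 1) (hL0 : 0 ≤ L) (hm : ContDiffOn ℝ ∞ m (H574.PD 2))
    (hA : ContDiffOn ℝ ∞ A (H574.PD 2)) (hlt : ∀ p ∈ H574.PD 2, ‖m p‖ < 1) :
    ∃ κ L' : ℝ, 0 ≤ κ ∧ κ < 1 ∧ 0 ≤ L' ∧ ∀ z z' y y' : ℂ, ‖z‖ ≤ 1 → ‖z'‖ ≤ 1 → ‖y‖ ≤ L →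
      ‖y'‖ ≤ L → ‖m (z, y)‖ ≤ κ ∧ ‖A (z, y)‖ ≤ L' ∧
      ‖m (z, y) - m (z', y')‖ ≤ L' * (‖z - z'‖ + ‖y - y'‖) ∧
      ‖A (z, y) - A (z', y')‖ ≤ L' * (‖z - z'‖ + ‖y - y'‖) := by
  set S : Set (ℂ × ℂ) := closedBall (0 : ℂ) 1 ×ˢ closedBall (0 : ℂ) L with hS
  have hSc : IsCompact S := (isCompact_closedBall _ _).prod (isCompact_closedBall _ _)
  have hSv : Convex ℝ S := (convex_closedBall _ _).prod (convex_closedBall _ _)
  have hSP : S ⊆ H574.PD 2 := prod_mono (closedBall_subset_ball (by norm_num))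
    (closedBall_subset_ball (by linarith))
  have hne : S.Nonempty := ⟨(0, 0), mem_closedBall_self (by norm_num), mem_closedBall_self hL0⟩
  obtain ⟨p0, hp0, hmax⟩ := hSc.exists_isMaxOn hne (f := fun p => ‖m p‖)
    ((hm.continuousOn.mono hSP).norm)
  obtain ⟨M1, hM1⟩ := hSc.exists_bound_of_continuousOn (hA.continuousOn.mono hSP)
  have hdm : ContinuousOn (fderiv ℝ m) (H574.PD 2) :=
    hm.continuousOn_fderiv_of_isOpen (isOpen_PD 2) (by simp)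
  have hdA : ContinuousOn (fderiv ℝ A) (H574.PD 2) :=
    hA.continuousOn_fderiv_of_isOpen (isOpen_PD 2) (by simp)
  obtain ⟨M2, hM2⟩ := hSc.exists_bound_of_continuousOn (hdm.mono hSP)
  obtain ⟨M3, hM3⟩ := hSc.exists_bound_of_continuousOn (hdA.mono hSP)
  have lip : ∀ (u : ℂ × ℂ → ℂ) (M : ℝ), ContDiffOn ℝ ∞ u (H574.PD 2) →
      (∀ p ∈ S, ‖fderiv ℝ u p‖ ≤ M) → ∀ p ∈ S, ∀ p' ∈ S, ‖u p - u p'‖ ≤ |M| * ‖p - p'‖ := by
    intro u M hu hM p hp p' hp'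
    refine hSv.norm_image_sub_le_of_norm_fderiv_le (𝕜 := ℝ) (fun x hx => ?_)
      (fun x hx => (hM x hx).trans (le_abs_self _)) hp' hp
    exact (hu.contDiffAt ((isOpen_PD 2).mem_nhds (hSP hx))).differentiableAt (by simp)
  refine ⟨‖m p0‖, |M1| + |M2| + |M3|, norm_nonneg _, hlt _ (hSP hp0), by positivity, ?_⟩
  intro z z' y y' hz hz' hy hy'
  have hp : (z, y) ∈ S := ⟨mem_closedBall_zero_iff.2 hz, mem_closedBall_zero_iff.2 hy⟩
  have hp' : (z', y') ∈ S := ⟨mem_closedBall_zero_iff.2 hz', mem_closedBall_zero_iff.2 hy'⟩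
  have hn : ‖(z, y) - (z', y')‖ ≤ ‖z - z'‖ + ‖y - y'‖ := by
    rw [Prod.mk_sub_mk, Prod.norm_def]
    exact max_le (by have := norm_nonneg (y - y'); simp only; linarith)
      (by have := norm_nonneg (z - z'); simp only; linarith)
  have a1 := abs_nonneg M1
  have a2 := abs_nonneg M2
  have a3 := abs_nonneg M3
  have hn0 : 0 ≤ ‖z - z'‖ + ‖y - y'‖ := by positivity
  refine ⟨hmax hp, (hM1 _ hp).trans ((le_abs_self _).trans (by linarith)), ?_, ?_⟩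
  · refine (lip m M2 hm hM2 _ hp _ hp').trans ?_
    calc |M2| * ‖(z, y) - (z', y')‖ ≤ |M2| * (‖z - z'‖ + ‖y - y'‖) := by gcongr
      _ ≤ _ := mul_le_mul_of_nonneg_right (by linarith) hn0
  · refine (lip A M3 hA hM3 _ hp _ hp').trans ?_
    calc |M3| * ‖(z, y) - (z', y')‖ ≤ |M3| * (‖z - z'‖ + ‖y - y'‖) := by gcongr
      _ ≤ _ := mul_le_mul_of_nonneg_right (by linarith) hn0

/-- **gradient bound for sheets near `0`** -/
theorem grad_bound (hGRD : GRD_statement) (hB : Bas R K ε L m A g Y D) (hL : L < 1)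
    (hm : ContDiffOn ℝ ∞ m (H574.PD 2)) (hA : ContDiffOn ℝ ∞ A (H574.PD 2))
    (hlt : ∀ p ∈ H574.PD 2, ‖m p‖ < 1) {C0 γ0 : ℝ} (hC0 : 0 ≤ C0) (hγ0 : 0 < γ0) :
    ∃ C h : ℝ, 0 ≤ C ∧ 0 < h ∧ h < 1 ∧ ∀ (z0 : ℂ) (c : ℕ) (w : ℂ → ℂ) (y0 : ℂ), z0 ≠ 0 →
      ball z0 (‖z0‖ / 2) ⊆ ball 0 R → Sheet Y (ball z0 (‖z0‖ / 2)) c w →
      (∀ z ∈ ball z0 (‖z0‖ / 2), ‖w z - y0‖ ≤ C0 * ‖z‖ ^ γ0) →
      ‖fderiv ℝ w z0‖ ≤ C * ‖z0‖ ^ (h - 1) := by
  have hε := hB.εpos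
  set h : ℝ := min (min (ε / 2) (1 / 2)) γ0 with hh
  have hh0 : 0 < h := lt_min (lt_min (half_pos hε) (by norm_num)) hγ0
  have hhε : h < ε := ((min_le_left _ _).trans (min_le_left _ _)).trans_lt (half_lt_self hε)
  have hh1 : h < 1 := ((min_le_left _ _).trans (min_le_right _ _)).trans_lt (by norm_num)
  have hhγ : h ≤ γ0 := min_le_right _ _
  obtain ⟨C1, hC1, H⟩ := hol_ball hε hh0 hhε hh1.le
  obtain ⟨κ, L', hκ0, hκ1, hL', hcon⟩ := exists_const hL hB.Lpos hm hA hlt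
  set K1 : ℝ := 2 * Real.sqrt K with hK1
  set C2 : ℝ := C1 * (K1 + C0 * 3 ^ γ0) with hC2
  have hC2' : 0 ≤ C2 := by positivity
  obtain ⟨C', hC', G⟩ := hGRD κ L' C2 h hκ0 hκ1 hL' hC2' hh0 hh1
  refine ⟨C' * (1 / 4) ^ (h - 1), h, by positivity, hh0, hh1, ?_⟩
  intro z0 c w y0 hz0 hsub hsh hw
  have hzp : 0 < ‖z0‖ := norm_pos_iff.2 hz0
  set ρ : ℝ := ‖z0‖ / 2 with hρ
  have hρp : 0 < ρ := half_pos hzp
  have hz0R : ‖z0‖ < R := mem_ball_zero_iff.1 (hsub (mem_ball_self hρp))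
  have hR1 := hB.Rle
  have hρ1 : ρ ≤ 1 := by rw [hρ]; linarith
  have hzb : ∀ z ∈ ball z0 ρ, ‖z‖ ≤ 3 * ρ := fun z hz => by
    rw [mem_ball, dist_eq_norm] at hz
    calc ‖z‖ = ‖(z - z0) + z0‖ := by ring_nf
      _ ≤ ‖z - z0‖ + ‖z0‖ := norm_add_le _ _
      _ ≤ 3 * ρ := by rw [hρ] at *; linarith
  have hwc : WG (ball z0 ρ) (fun z => w z - y0) (Dw Y D w) := by
    have h1 := (hsh.wgB hB hsub).add (WG.const isOpen_ball (-y0))
    refine h1.congr measurableSet_ball (fun z _ => ?_) (fun z _ => ?_)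
    · change w z + -y0 = w z - y0; ring
    · simp
  have hHol := H K1 (C0 * (3 * ρ) ^ γ0) ρ z0 g (fun z => w z - y0) (Dw Y D w) hρp
    (by positivity) (by positivity) (hB.gm.mono_measure (Measure.restrict_mono_set _ hsub))
    (fun x t ht => bas_mor1 hB hsub x t ht) (hsh.cont.sub continuousOn_const)
    (fun z hz => (hw z hz).trans (by
      have := hzb z hz
      gcongr)) hwc
    (by
      filter_upwards [ae_restrict_mem measurableSet_ball] with z hz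
      exact hsh.enorm_le hB hsub hz)
  have hHol2 : ∀ x ∈ ball z0 (ρ / 2), ∀ y ∈ ball z0 (ρ / 2),
      ‖w x - w y‖ ≤ C2 * ‖x - y‖ ^ h := by
    intro x hx y hy
    have h1 := hHol x hx y hy
    have e0 : w x - y0 - (w y - y0) = w x - w y := by ring
    simp only [e0] at h1
    refine h1.trans ?_
    rw [Real.div_rpow (norm_nonneg _) hρp.le]
    have e1 : K1 * ρ ^ ε + C0 * (3 * ρ) ^ γ0 ≤ (K1 + C0 * 3 ^ γ0) * ρ ^ h := by
      rw [Real.mul_rpow (by norm_num) hρp.le]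
      have e2 : ρ ^ ε ≤ ρ ^ h := Real.rpow_le_rpow_of_exponent_ge hρp hρ1 hhε.le
      have e3 : ρ ^ γ0 ≤ ρ ^ h := Real.rpow_le_rpow_of_exponent_ge hρp hρ1 hhγ
      calc K1 * ρ ^ ε + C0 * (3 ^ γ0 * ρ ^ γ0) ≤ K1 * ρ ^ h + C0 * (3 ^ γ0 * ρ ^ h) := by gcongr
        _ = _ := by ring
    have hρh : 0 < ρ ^ h := Real.rpow_pos_of_pos hρp h
    calc C1 * (K1 * ρ ^ ε + C0 * (3 * ρ) ^ γ0) * (‖x - y‖ ^ h / ρ ^ h)
        ≤ C1 * ((K1 + C0 * 3 ^ γ0) * ρ ^ h) * (‖x - y‖ ^ h / ρ ^ h) := by gcongr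
      _ = C2 * ‖x - y‖ ^ h := by rw [hC2]; field_simp
  have hsub2 : ball z0 (ρ / 2) ⊆ ball z0 ρ := ball_subset_ball (by linarith)
  have hzn : ∀ z ∈ ball z0 (ρ / 2), ‖z‖ ≤ 1 := fun z hz =>
    ((mem_ball_zero_iff.1 (hsub (hsub2 hz))).trans_le hR1).le
  have hwn : ∀ z ∈ ball z0 (ρ / 2), ‖w z‖ ≤ L := fun z hz => hsh.bound hB (hsub2 hz)
  have hfin := G m A z0 (ρ / 2) w (by positivity) (by linarith)
    (fun z hz => by
      have := hcon z z (w z) (w z) (hzn z hz) (hzn z hz) (hwn z hz) (hwn z hz)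
      exact ⟨this.1, this.2.1⟩)
    (fun z hz z' hz' => by
      have := hcon z z' (w z) (w z') (hzn z hz) (hzn z' hz') (hwn z hz) (hwn z' hz')
      exact ⟨this.2.2.1, this.2.2.2⟩)
    (((hsh.smooth hB hL hm hA hlt hsub).mono hsub2).of_le (by simp)) hHol2
    (fun z hz => hsh.eqn hB hL hm hA hlt hsub z (hsub2 hz))
  refine hfin.trans (le_of_eq ?_)
  rw [show ρ / 2 = 1 / 4 * ‖z0‖ by rw [hρ]; ring, Real.mul_rpow (by norm_num) hzp.le]
  ring

end Vale.Agent.P247.H957.Asm
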