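import Vale.Agent.P247.H957.Asm4
import Vale.Agent.P247.H620.LRoot

/-! P247, PUI-ASM (helper957), part 5: the branches `W l` are smooth solutions with bounds. -/

open MeasureTheory Set Metric Filter Topology
open scoped ContDiff ENNReal

noncomputable section

namespace Vale.Agent.P247.H957.Asm

open Vale.Agent.P247.H324 Vale.Agent.P247.H667
open Vale.Agent.P247.H620 (rt rt_pow om om_pow om_inj lrt lrt_pow lrt_self lrt_hasDerivAt)

variable {N : ℕ} {Y : ℂ → Fin N → ℂ} {D : ℂ → Fin N → ℂ →L[ℝ] ℂ}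
  {R K ε L : ℝ} {m A : ℂ × ℂ → ℂ} {g : ℂ → ℝ≥0∞} {δ : ℝ} {n : ℕ} {k μ : Fin n → ℕ}
  {W : Fin n → ℂ → ℂ}

theorem om_zero (k : ℕ) : om k 0 = 1 := by
  unfold om; simp

/-- every branch has constant multiplicity -/
theorem TopP.count (hT : TopP N Y δ n k μ W) (l : Fin n) {s : ℂ} (h0 : s ≠ 0)
    (hs : ‖s‖ ^ k l < δ) [∀ i, Decidable (Y (s ^ k l) i = W l s)] :
    (Finset.univ.filter fun i => Y (s ^ k l) i = W l s).card = μ l := by
  classical
  have hk := fun l => (hT.pos l).1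
  have hz0 : s ^ k l ≠ 0 := pow_ne_zero _ h0
  have hzδ : ‖s ^ k l‖ < δ := by rw [norm_pow]; exact hs
  let r : Fin n → ℂ := fun l' => if l' = l then s else rt (k l') (s ^ k l)
  have hr : ∀ l', r l' ^ k l' = s ^ k l := fun l' => by
    simp only [r]
    split_ifs with h1
    · rw [h1]
    · exact rt_pow (hk l') (s ^ k l)
  have hsum := hT.sum (s ^ k l) hz0 hzδ r hr
  have h1 := congrArg (Multiset.count (W l s)) hsum
  rw [Multiset.count_map, Multiset.count_sum'] at h1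
  simp only [Multiset.count_nsmul, Multiset.count_sum', Multiset.count_singleton] at h1
  have h2 : (Finset.univ.filter fun i => Y (s ^ k l) i = W l s).card =
      Multiset.card (Multiset.filter (fun a => W l s = Y (s ^ k l) a) Finset.univ.val) := by
    rw [Finset.card_def, Finset.filter_val]
    congr 1
    refine Multiset.filter_congr fun i _ => ?_
    exact eq_comm
  rw [h2, h1]
  have key : ∀ l' : Fin n, ∀ j < k l',
      (W l s = W l' (Complex.exp (2 * Real.pi * Complex.I * j / k l') * r l')) → l' = l ∧ j = 0 := by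
    intro l' j hj hW
    have hom : (om (k l') j * r l') ^ k l' = s ^ k l := by rw [mul_pow, om_pow (hk l'), one_mul, hr]
    obtain ⟨h3, h4⟩ := hT.inj l l' s (om (k l') j * r l') h0 hs (by rw [hom]) hW
    refine ⟨h3.symm, ?_⟩
    subst h3
    have hrl : r l = s := by simp [r]
    rw [hrl] at h4
    have h5 : om (k l) j = 1 := by
      have : om (k l) j * s = 1 * s := by rw [one_mul, ← h4]
      exact mul_right_cancel₀ h0 this
    exact om_inj hj (by have := hk l; omega) (h5.trans (om_zero _).symm)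
  rw [Finset.sum_eq_single l, Finset.sum_eq_single 0]
  · have hrl : r l = s := by simp [r]
    rw [if_pos, mul_one]
    rw [hrl]
    simp
  · intro j hj hne
    rw [if_neg]
    intro h3
    exact hne (key l j (Finset.mem_range.1 hj) h3).2
  · intro h3
    exact absurd (Finset.mem_range.2 (by have := hk l; omega)) h3
  · intro l' _ hne
    rw [Finset.sum_eq_zero, mul_zero]
    intro j hj
    rw [if_neg]
    intro h3
    exact hne (key l' j (Finset.mem_range.1 hj) h3).1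
  · intro h3
    exact absurd (Finset.mem_univ _) h3

theorem TopP.mem (hT : TopP N Y δ n k μ W) (l : Fin n) {s : ℂ} (h0 : s ≠ 0)
    (hs : ‖s‖ ^ k l < δ) : ∃ i, Y (s ^ k l) i = W l s := by
  classical
  have h1 := hT.count l h0 hs
  have h2 : (Finset.univ.filter fun i => Y (s ^ k l) i = W l s).Nonempty := by
    rw [← Finset.card_pos, h1]; exact (hT.pos l).2
  obtain ⟨i, hi⟩ := h2
  exact ⟨i, (Finset.mem_filter.1 hi).2⟩

/-- points of the disc `ball z0 (|z0| / 2)` -/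
theorem ball_half {z0 z : ℂ} (hz : z ∈ ball z0 (‖z0‖ / 2)) :
    z ∈ ball z0 ‖z0‖ ∧ z ≠ 0 ∧ ‖z‖ ≤ 3 / 2 * ‖z0‖ := by
  rw [mem_ball, dist_eq_norm] at hz
  have h0 := norm_nonneg z0
  refine ⟨by rw [mem_ball, dist_eq_norm]; linarith, ?_, ?_⟩
  · rintro rfl
    rw [zero_sub, norm_neg] at hz
    linarith
  · calc ‖z‖ = ‖(z - z0) + z0‖ := by ring_nf
      _ ≤ ‖z - z0‖ + ‖z0‖ := norm_add_le _ _
      _ ≤ 3 / 2 * ‖z0‖ := by linarith

/-- the local sheet -/
theorem TopP.sheet (hT : TopP N Y δ n k μ W) (l : Fin n) {s0 : ℂ} (h0 : s0 ≠ 0)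
    (hs : ‖s0‖ ^ k l < δ / 2) :
    Sheet Y (ball (s0 ^ k l) (‖s0 ^ k l‖ / 2)) (μ l) (fun z => W l (lrt (k l) s0 z)) := by
  have hk := (hT.pos l).1
  have hz00 : s0 ^ k l ≠ 0 := pow_ne_zero _ h0
  have hmaps : ∀ z ∈ ball (s0 ^ k l) (‖s0 ^ k l‖ / 2), lrt (k l) s0 z ≠ 0 ∧
      ‖lrt (k l) s0 z‖ ^ k l < δ := fun z hz => by
    obtain ⟨h1, h2, h3⟩ := ball_half hz
    have h4 := lrt_pow hk h0 z
    refine ⟨?_, ?_⟩
    · intro h5
      rw [h5, zero_pow (by omega)] at h4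
      exact h2 h4.symm
    · rw [← norm_pow, h4]
      rw [norm_pow] at h3
      have := norm_nonneg z
      linarith
  refine ⟨isOpen_ball, ?_, (hT.pos l).2, fun z hz => ?_⟩
  · refine (hT.cont l).comp (fun z hz => ?_) hmaps
    exact (lrt_hasDerivAt hk (ball_half hz).1).continuousAt.continuousWithinAt
  · have h1 := hT.count l (hmaps z hz).1 (hmaps z hz).2
    rw [lrt_pow hk h0 z] at h1
    exact h1

theorem lrt_near {k : ℕ} (hk : 1 ≤ k) {s0 : ℂ} (h0 : s0 ≠ 0) :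
    ∀ᶠ s in 𝓝 s0, lrt k s0 (s ^ k) = s := by
  have hc : ContinuousAt (fun s : ℂ => Complex.arg (s / s0)) s0 := by
    have h1 : ContinuousAt Complex.arg (s0 / s0) := by
      rw [div_self h0]
      exact Complex.continuousAt_arg Complex.one_mem_slitPlane
    exact ContinuousAt.comp (f := fun s : ℂ => s / s0) h1 (by fun_prop)
  have hpos : 0 < Real.pi / k := div_pos Real.pi_pos (Nat.cast_pos.2 (by omega))
  have h1 := Metric.tendsto_nhds.1 hc (Real.pi / k) hpos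
  filter_upwards [h1] with s hs
  rw [div_self h0, Complex.arg_one, Real.dist_eq, sub_zero, abs_lt] at hs
  have h2 : s ^ k / s0 ^ k = (s / s0) ^ k := (div_pow _ _ _).symm
  rw [lrt, h2, rt, Complex.pow_cpow_nat_inv (by omega) hs.1 hs.2.le]
  field_simp

/-- derivative of the branch in terms of the sheet -/
theorem TopP.deriv (hB : Bas R K ε L m A g Y D) (hL : L < 1) (hm : ContDiffOn ℝ ∞ m (H574.PD 2))
    (hA : ContDiffOn ℝ ∞ A (H574.PD 2)) (hlt : ∀ p ∈ H574.PD 2, ‖m p‖ < 1)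
    (hT : TopP N Y δ n k μ W) (hδR : δ ≤ R) (l : Fin n) {s0 : ℂ} (h0 : s0 ≠ 0)
    (hs : ‖s0‖ ^ k l < δ / 2) : ContDiffAt ℝ ∞ (W l) s0 ∧
    (∀ v, fderiv ℝ (W l) s0 v =
      fderiv ℝ (fun z => W l (lrt (k l) s0 z)) (s0 ^ k l) (k l * s0 ^ (k l - 1) * v)) := by
  have hk := (hT.pos l).1
  have hsh := hT.sheet l h0 hs
  have hz00 : 0 < ‖s0 ^ k l‖ := norm_pos_iff.2 (pow_ne_zero _ h0)
  have hsub : ball (s0 ^ k l) (‖s0 ^ k l‖ / 2) ⊆ ball 0 R := fun z hz => by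
    obtain ⟨h1, h2, h3⟩ := ball_half hz
    rw [mem_ball_zero_iff]
    rw [norm_pow] at h3
    have := norm_nonneg z
    have h4 : 0 ≤ ‖s0‖ ^ k l := by positivity
    linarith
  have hmem : s0 ^ k l ∈ ball (s0 ^ k l) (‖s0 ^ k l‖ / 2) := mem_ball_self (half_pos hz00)
  have hsm := (hsh.smooth hB hL hm hA hlt hsub).contDiffAt (isOpen_ball.mem_nhds hmem)
  have hev : W l =ᶠ[𝓝 s0] fun s => (fun z => W l (lrt (k l) s0 z)) (s ^ k l) := by
    filter_upwards [lrt_near hk h0] with s hs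
    rw [hs]
  have hpow : HasDerivAt (fun s : ℂ => s ^ k l) (k l * s0 ^ (k l - 1)) s0 := hasDerivAt_pow _ _
  have hpc : ContDiffAt ℝ ∞ (fun s : ℂ => s ^ k l) s0 := (contDiff_id.pow _).contDiffAt
  refine ⟨ContDiffAt.congr_of_eventuallyEq (hsm.comp s0 hpc) hev, fun v => ?_⟩
  rw [hev.fderiv_eq]
  have h5 := (hsm.differentiableAt (by simp)).hasFDerivAt
  have h6 := h5.comp s0 (hpow.hasFDerivAt.restrictScalars ℝ)
  have h7 : fderiv ℝ (fun s => (fun z => W l (lrt (k l) s0 z)) (s ^ k l)) s0 = _ := h6.fderiv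
  rw [h7]
  simp only [ContinuousLinearMap.comp_apply, ContinuousLinearMap.coe_restrictScalars']
  congr 1
  simp [mul_comm]

/-- algebra of the equation under `z = s ^ k` -/
theorem eq_transfer {T S : ℂ →L[ℝ] ℂ} {c a b : ℂ} (hT : ∀ v, T v = S (c * v)) (hc : c ≠ 0)
    (he : pzb S = a * pz S + b) :
    pzb T = a * ((starRingEnd ℂ) c / c) * pz T + b * (starRingEnd ℂ) c := by
  have h1 : pz T = pz S * c := by
    unfold pz
    rw [hT, hT, mul_one, pz_pzb S c, pz_pzb S (c * Complex.I)]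
    simp only [map_mul, Complex.conj_I, smul_eq_mul]
    unfold pz pzb
    simp only [smul_eq_mul]
    linear_combination (-(1 / 4 : ℂ) * (c * (S 1 - Complex.I * S Complex.I)) +
      (1 / 4 : ℂ) * ((starRingEnd ℂ) c * (S 1 + Complex.I * S Complex.I))) * Complex.I_sq
  have h2 : pzb T = pzb S * (starRingEnd ℂ) c := by
    unfold pzb
    rw [hT, hT, mul_one, pz_pzb S c, pz_pzb S (c * Complex.I)]
    simp only [map_mul, Complex.conj_I, smul_eq_mul]
    unfold pz pzb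
    simp only [smul_eq_mul]
    linear_combination ((1 / 4 : ℂ) * (c * (S 1 - Complex.I * S Complex.I)) -
      (1 / 4 : ℂ) * ((starRingEnd ℂ) c * (S 1 + Complex.I * S Complex.I))) * Complex.I_sq
  rw [h2, h1, he]
  field_simp

/-- the equation for the branch -/
theorem TopP.eqn (hB : Bas R K ε L m A g Y D) (hL : L < 1) (hm : ContDiffOn ℝ ∞ m (H574.PD 2))
    (hA : ContDiffOn ℝ ∞ A (H574.PD 2)) (hlt : ∀ p ∈ H574.PD 2, ‖m p‖ < 1)
    (hT : TopP N Y δ n k μ W) (hδR : δ ≤ R) (l : Fin n) {s0 : ℂ} (h0 : s0 ≠ 0)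
    (hs : ‖s0‖ ^ k l < δ / 2) :
    H74.dbar (W l) s0 = m (s0 ^ k l, W l s0) * ((starRingEnd ℂ) s0 / s0) ^ (k l - 1) *
        ((1 / 2 : ℂ) * (fderiv ℝ (W l) s0 1 - Complex.I * fderiv ℝ (W l) s0 Complex.I)) +
        A (s0 ^ k l, W l s0) * k l * (starRingEnd ℂ) s0 ^ (k l - 1) := by
  have hk := (hT.pos l).1
  have hsh := hT.sheet l h0 hs
  have hz00 : 0 < ‖s0 ^ k l‖ := norm_pos_iff.2 (pow_ne_zero _ h0)
  have hsub : ball (s0 ^ k l) (‖s0 ^ k l‖ / 2) ⊆ ball 0 R := fun z hz => by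
    obtain ⟨h1, h2, h3⟩ := ball_half hz
    rw [mem_ball_zero_iff]
    rw [norm_pow] at h3
    have := norm_nonneg z
    have h4 : 0 ≤ ‖s0‖ ^ k l := by positivity
    linarith
  have hmem : s0 ^ k l ∈ ball (s0 ^ k l) (‖s0 ^ k l‖ / 2) := mem_ball_self (half_pos hz00)
  have he := hsh.eqn hB hL hm hA hlt hsub _ hmem
  simp only [lrt_self h0] at he
  have hkc : (k l : ℂ) ≠ 0 := Nat.cast_ne_zero.2 (by omega)
  have hc : (k l : ℂ) * s0 ^ (k l - 1) ≠ 0 := mul_ne_zero hkc (pow_ne_zero _ h0)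
  have hres := eq_transfer (hT.deriv hB hL hm hA hlt hδR l h0 hs).2 hc he
  have e1 : (starRingEnd ℂ) ((k l : ℂ) * s0 ^ (k l - 1)) = k l * (starRingEnd ℂ) s0 ^ (k l - 1) := by
    simp
  rw [e1] at hres
  have e2 : (k l : ℂ) * (starRingEnd ℂ) s0 ^ (k l - 1) / (k l * s0 ^ (k l - 1)) =
      ((starRingEnd ℂ) s0 / s0) ^ (k l - 1) := by
    rw [mul_div_mul_left _ _ hkc, div_pow]
  rw [e2] at hres
  have e3 : H74.dbar (W l) s0 = pzb (fderiv ℝ (W l) s0) := rfl
  have e4 : pz (fderiv ℝ (W l) s0) =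
      (1 / 2 : ℂ) * (fderiv ℝ (W l) s0 1 - Complex.I * fderiv ℝ (W l) s0 Complex.I) := rfl
  rw [e3, hres, e4]
  ring

/-- Hölder bound at `0` for the branches -/
theorem TopP.hol (hB : Bas R K ε L m A g Y D) (hT : TopP N Y δ n k μ W) (hδR : δ ≤ R) :
    ∃ C γ : ℝ, 0 ≤ C ∧ 0 < γ ∧ ∀ l s, s ≠ 0 → ‖s‖ ^ k l < δ / 2 →
      ‖W l s - W l 0‖ ≤ C * ‖s ^ k l‖ ^ γ := by
  classical
  obtain ⟨C, γ, hC, hγ, H⟩ := hol_zero hB
  obtain ⟨η, hη, hnear⟩ := hT.near
  set S := Finset.univ.image (Y 0) with hS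
  set C1 := C / η ^ (2 * (S.card - 1)) with hC1
  have hC10 : 0 ≤ C1 := by positivity
  refine ⟨Real.sqrt C1, γ / 2, Real.sqrt_nonneg _, half_pos hγ, fun l s h0 hs => ?_⟩
  have hδ : 0 < δ := by
    have : 0 ≤ ‖s‖ ^ k l := by positivity
    linarith
  obtain ⟨i, hi⟩ := hT.mem l h0 (by linarith)
  have hz : s ^ k l ∈ ball (0 : ℂ) (R / 2) := by
    rw [mem_ball_zero_iff, norm_pow]; linarith
  have h1 := H _ hz i
  rw [hi] at h1
  have hv0 : W l 0 ∈ S := by
    obtain ⟨j, hj⟩ := hT.mem0 l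
    rw [hj]
    exact Finset.mem_image_of_mem _ (Finset.mem_univ j)
  have h2 := near_bound hv0 hη (fun v hv hne => by
    obtain ⟨j, -, rfl⟩ := Finset.mem_image.1 hv
    exact hnear l s h0 (by linarith) j hne) h1
  have h3 : ‖W l s - W l 0‖ ^ 2 ≤ (Real.sqrt C1 * ‖s ^ k l‖ ^ (γ / 2)) ^ 2 := by
    refine h2.trans (le_of_eq ?_)
    rw [mul_pow, Real.sq_sqrt hC10, ← Real.rpow_natCast (‖s ^ k l‖ ^ (γ / 2)) 2,
      ← Real.rpow_mul (norm_nonneg _)]
    rw [hC1, show γ / 2 * ((2 : ℕ) : ℝ) = γ by push_cast; ring]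
    ring
  exact le_of_sq_le_sq h3 (by positivity)

/-- the analytic clauses -/
theorem TopP.ana (hGRD : GRD_statement) (hB : Bas R K ε L m A g Y D) (hL : L < 1)
    (hm : ContDiffOn ℝ ∞ m (H574.PD 2)) (hA : ContDiffOn ℝ ∞ A (H574.PD 2))
    (hlt : ∀ p ∈ H574.PD 2, ‖m p‖ < 1) (hT : TopP N Y δ n k μ W) (hδ0 : 0 < δ) (hδR : δ ≤ R) :
    (∀ l, ContinuousOn (W l) {s | ‖s‖ ^ k l < δ / 4} ∧
      ContDiffOn ℝ ∞ (W l) ({s | ‖s‖ ^ k l < δ / 4} \ {0})) ∧
    (∃ C γ : ℝ, 0 < γ ∧ ∀ l s, s ≠ 0 → ‖s‖ ^ k l < δ / 4 → ‖W l s - W l 0‖ ≤ C * ‖s‖ ^ γ ∧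
      ‖fderiv ℝ (W l) s‖ ≤ C * ‖s‖ ^ (γ - 1)) := by
  obtain ⟨C0, γ0, hC0, hγ0, H0⟩ := hT.hol hB hδR
  obtain ⟨C1, h, hC1, hh0, hh1, H1⟩ := grad_bound hGRD hB hL hm hA hlt hC0 hγ0
  have hopen : ∀ l, IsOpen {s : ℂ | ‖s‖ ^ k l < δ / 4} := fun l =>
    isOpen_lt (by fun_prop) continuous_const
  have hR1 := hB.Rle
  have hle1 : ∀ (l : Fin n) (s : ℂ), ‖s‖ ^ k l < δ / 4 → ‖s‖ ≤ 1 := fun l s hs => by
    by_contra hcon
    push Not at hcon
    have := one_le_pow₀ (n := k l) hcon.le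
    linarith
  have hsmul : ∀ l, ContDiffOn ℝ ∞ (W l) ({s | ‖s‖ ^ k l < δ / 4} \ {0}) := by
    rintro l s ⟨hs, hs0⟩
    have hs' : ‖s‖ ^ k l < δ / 4 := hs
    exact (hT.deriv hB hL hm hA hlt hδR l hs0 (by linarith)).1.contDiffWithinAt
  set γ := min h γ0 with hγ
  have hγp : 0 < γ := lt_min hh0 hγ0
  have hbd : ∀ l s, s ≠ 0 → ‖s‖ ^ k l < δ / 4 →
      ‖W l s - W l 0‖ ≤ (C0 + C1 * ∑ l, (k l : ℝ)) * ‖s‖ ^ γ ∧
      ‖fderiv ℝ (W l) s‖ ≤ (C0 + C1 * ∑ l, (k l : ℝ)) * ‖s‖ ^ (γ - 1) := by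
    intro l s h0 hs
    have hk := (hT.pos l).1
    have hk1 : (1 : ℝ) ≤ k l := Nat.one_le_cast.2 hk
    have hsp : 0 < ‖s‖ := norm_pos_iff.2 h0
    have hs1 := hle1 l s hs
    have hzp : 0 < ‖s ^ k l‖ := norm_pos_iff.2 (pow_ne_zero _ h0)
    have hzr : ∀ a : ℝ, ‖s ^ k l‖ ^ a = ‖s‖ ^ (k l * a) := fun a => by
      rw [norm_pow, Real.rpow_mul hsp.le, Real.rpow_natCast]
    have hsumk : (k l : ℝ) ≤ ∑ l, (k l : ℝ) :=
      Finset.single_le_sum (f := fun l => (k l : ℝ)) (fun _ _ => Nat.cast_nonneg _)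
        (Finset.mem_univ l)
    have hsum0 : 0 ≤ ∑ l, (k l : ℝ) := Finset.sum_nonneg fun _ _ => Nat.cast_nonneg _
    constructor
    · calc ‖W l s - W l 0‖ ≤ C0 * ‖s ^ k l‖ ^ γ0 := H0 l s h0 (by linarith)
        _ ≤ C0 * ‖s‖ ^ γ := by
            rw [hzr]
            refine mul_le_mul_of_nonneg_left ?_ hC0
            refine Real.rpow_le_rpow_of_exponent_ge hsp hs1 ?_
            have : γ ≤ γ0 := min_le_right _ _
            nlinarith
        _ ≤ (C0 + C1 * ∑ l, (k l : ℝ)) * ‖s‖ ^ γ := by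
            refine mul_le_mul_of_nonneg_right ?_ (by positivity)
            have : 0 ≤ C1 * ∑ l, (k l : ℝ) := by positivity
            linarith
    · have hgr := H1 (s ^ k l) (μ l) (fun z => W l (lrt (k l) s z)) (W l 0)
        (pow_ne_zero _ h0) (fun z hz => by
          obtain ⟨a1, a2, a3⟩ := ball_half hz
          rw [mem_ball_zero_iff]
          rw [norm_pow] at a3
          have a4 : 0 ≤ ‖s‖ ^ k l := by positivity
          linarith) (hT.sheet l h0 (by linarith)) (fun z hz => by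
          obtain ⟨a1, a2, a3⟩ := ball_half hz
          rw [norm_pow] at a3
          have e1 := lrt_pow hk h0 z
          have e2 := H0 l (lrt (k l) s z) (by
            intro h5
            rw [h5, zero_pow (by omega)] at e1
            exact a2 e1.symm) (by rw [← norm_pow, e1]; linarith)
          rwa [e1] at e2)
      refine ContinuousLinearMap.opNorm_le_bound _ (by positivity) fun v => ?_
      rw [(hT.deriv hB hL hm hA hlt hδR l h0 (by linarith)).2 v]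
      calc ‖fderiv ℝ (fun z => W l (lrt (k l) s z)) (s ^ k l) (k l * s ^ (k l - 1) * v)‖
          ≤ ‖fderiv ℝ (fun z => W l (lrt (k l) s z)) (s ^ k l)‖ * ‖(k l : ℂ) * s ^ (k l - 1) * v‖ :=
            ContinuousLinearMap.le_opNorm _ _
        _ ≤ (C1 * ‖s ^ k l‖ ^ (h - 1)) * ((k l : ℝ) * ‖s‖ ^ (k l - 1) * ‖v‖) := by
            refine mul_le_mul hgr (le_of_eq ?_) (norm_nonneg _) (by positivity)
            rw [norm_mul, norm_mul, norm_pow, Complex.norm_natCast]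
        _ = C1 * k l * ‖s‖ ^ (k l * h - 1) * ‖v‖ := by
            rw [hzr]
            have e5 : ‖s‖ ^ (k l - 1) = ‖s‖ ^ ((k l : ℝ) - 1) := by
              rw [← Real.rpow_natCast, Nat.cast_sub hk]; push_cast; ring_nf
            rw [e5, show (k l : ℝ) * h - 1 = k l * (h - 1) + (k l - 1) by ring,
              Real.rpow_add hsp]
            ring
        _ ≤ (C0 + C1 * ∑ l, (k l : ℝ)) * ‖s‖ ^ (γ - 1) * ‖v‖ := by
            refine mul_le_mul_of_nonneg_right ?_ (norm_nonneg _)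
            refine mul_le_mul ?_ ?_ (by positivity) (by positivity)
            · have : C1 * k l ≤ C1 * ∑ l, (k l : ℝ) := mul_le_mul_of_nonneg_left hsumk hC1
              linarith
            · refine Real.rpow_le_rpow_of_exponent_ge hsp hs1 ?_
              have : γ ≤ h := min_le_left _ _
              nlinarith
  refine ⟨fun l => ⟨?_, hsmul l⟩, C0 + C1 * ∑ l, (k l : ℝ), γ, hγp, hbd⟩
  intro s hs
  by_cases hs0 : s = 0
  · subst hs0
    refine ContinuousAt.continuousWithinAt ?_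
    rw [Metric.continuousAt_iff']
    intro e he
    set C := C0 + C1 * ∑ l, (k l : ℝ) with hC
    have hlim : Tendsto (fun s : ℂ => C * ‖s‖ ^ γ) (𝓝 0) (𝓝 (C * ‖(0 : ℂ)‖ ^ γ)) := by
      refine Tendsto.const_mul _ ?_
      exact (continuousAt_id.norm.rpow_const (Or.inr hγp.le))
    rw [norm_zero, Real.zero_rpow hγp.ne', mul_zero] at hlim
    have e1 : ∀ᶠ s : ℂ in 𝓝 0, C * ‖s‖ ^ γ < e := hlim.eventually_lt_const he
    filter_upwards [e1, (hopen l).mem_nhds hs] with s h7 h8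
    by_cases h9 : s = 0
    · rw [h9, dist_self]; exact he
    · rw [dist_eq_norm]
      exact (hbd l s h9 h8).1.trans_lt h7
  · exact ((hsmul l).contDiffAt (((hopen l).sdiff isClosed_singleton).mem_nhds
      ⟨hs, hs0⟩)).continuousAt.continuousWithinAt

end Vale.Agent.P247.H957.Asm
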