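import Vale.Agent.P247.H957.Fl1

/-!
# The inner product of sections, the theta function and the ladder operators
-/

open scoped ContDiff Topology ComplexConjugate
open Set MeasureTheory Filter Metric Complex

noncomputable section

namespace Vale.Agent.P247.H957

open Vale.Agent.P247.H74 Vale.Agent.P247.H574

/-- the `L²` inner product over the cube -/
def ip (φ ψ : R4 → ℂ) : ℂ := ∫ x in Icc (0 : R4) 1, conj (φ x) * ψ x

lemma chi_conj_mul (k : Fin 4 → ℤ) (x : R4) : conj (chi k x) * chi k x = 1 := by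
  rw [chi, ← exp_conj, ← exp_add]
  have h : conj (2 * Real.pi * I * k 0 * x 1 : ℂ) = -(2 * Real.pi * I * k 0 * x 1) := by
    simp only [map_mul, conj_I, conj_ofReal, map_ofNat, map_intCast]
    ring
  rw [h, neg_add_cancel, exp_zero]

lemma conj_mul_per {φ ψ : R4 → ℂ} (h : ∀ k x, φ (tr k x) = chi k x * φ x)
    (h' : ∀ k x, ψ (tr k x) = chi k x * ψ x) (k : Fin 4 → ℤ) (x : R4) :
    conj (φ (tr k x)) * ψ (tr k x) = conj (φ x) * ψ x := by
  rw [h, h', map_mul]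
  linear_combination (conj (φ x) * ψ x) * chi_conj_mul k x

lemma Sec.per' {φ : R4 → ℂ} (h : Sec φ) (k : Fin 4 → ℤ) (x : R4) :
    φ (tr k x) = chi k x * φ x := h.per k x

lemma Sec.integrable_mul {φ ψ : R4 → ℂ} (h : Sec φ) (h' : Sec ψ) :
    IntegrableOn (fun x => conj (φ x) * ψ x) (Icc (0 : R4) 1) :=
  integrableOn_cube ((continuous_conj.comp h.smooth.continuous).mul h'.smooth.continuous)

lemma hasFDerivAt_conj_mul {φ ψ : R4 → ℂ} (h : ContDiff ℝ ∞ φ) (h' : ContDiff ℝ ∞ ψ) (x v : R4) :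
    fderiv ℝ (fun x => conj (φ x) * ψ x) x v = conj (fderiv ℝ φ x v) * ψ x
      + conj (φ x) * fderiv ℝ ψ x v := by
  have h1 : HasFDerivAt φ (fderiv ℝ φ x) x := (h.differentiable (by simp) x).hasFDerivAt
  have h2 : HasFDerivAt ψ (fderiv ℝ ψ x) x := (h'.differentiable (by simp) x).hasFDerivAt
  have h3 : HasFDerivAt (fun x => conj (φ x)) ((conjCLE : ℂ →L[ℝ] ℂ) ∘L fderiv ℝ φ x) x :=
    (conjCLE : ℂ →L[ℝ] ℂ).hasFDerivAt.comp x h1
  rw [(h3.fun_mul h2).fderiv]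
  simp
  ring

/-- integration by parts -/
lemma ip_nb {φ ψ : R4 → ℂ} (h : Sec φ) (h' : Sec ψ) (ξ : ℝ × ℝ) (j : Fin 4) :
    ip (nb ξ j φ) ψ = - ip φ (nb ξ j ψ) := by
  have hc : ContDiff ℝ ∞ (fun x => conj (φ x) * ψ x) :=
    ((conjCLE : ℂ →L[ℝ] ℂ).contDiff.comp h.smooth).mul h'.smooth
  have h0 := int_fderiv_eq_zero (u := fun x => conj (φ x) * ψ x) (hc.of_le (by simp))
    (conj_mul_per h.per' h'.per') j
  have h1 : ∀ x, fderiv ℝ (fun x => conj (φ x) * ψ x) x (e j) =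
      conj (nb ξ j φ x) * ψ x + conj (φ x) * nb ξ j ψ x := by
    intro x
    rw [hasFDerivAt_conj_mul h.smooth h'.smooth, nb_eq, nb_eq]
    simp
    ring
  simp only [h1] at h0
  rw [integral_add ((h.nb ξ j).integrable_mul h') (h.integrable_mul (h'.nb ξ j))] at h0
  rw [ip, ip]
  linear_combination h0

lemma ip_conj (φ ψ : R4 → ℂ) : conj (ip φ ψ) = ip ψ φ := by
  rw [ip, ip, ← integral_conj]
  congr 1
  funext x
  simp [mul_comm]

lemma ip_add_left {φ φ' ψ : R4 → ℂ} (h : Sec φ) (h' : Sec φ') (hψ : Sec ψ) :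
    ip (fun x => φ x + φ' x) ψ = ip φ ψ + ip φ' ψ := by
  rw [ip, ip, ip, ← integral_add (h.integrable_mul hψ) (h'.integrable_mul hψ)]
  congr 1; funext x; simp; ring

lemma ip_add_right {φ ψ ψ' : R4 → ℂ} (h : Sec φ) (hψ : Sec ψ) (hψ' : Sec ψ') :
    ip φ (fun x => ψ x + ψ' x) = ip φ ψ + ip φ ψ' := by
  rw [ip, ip, ip, ← integral_add (h.integrable_mul hψ) (h.integrable_mul hψ')]
  congr 1; funext x; ring

lemma ip_mul_left (c : ℂ) (φ ψ : R4 → ℂ) : ip (fun x => c * φ x) ψ = conj c * ip φ ψ := by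
  rw [ip, ip, ← integral_const_mul]
  congr 1; funext x; simp; ring

lemma ip_mul_right (c : ℂ) (φ ψ : R4 → ℂ) : ip φ (fun x => c * ψ x) = c * ip φ ψ := by
  rw [ip, ip, ← integral_const_mul]
  congr 1; funext x; ring

lemma ip_zero_left (ψ : R4 → ℂ) : ip (fun _ => 0) ψ = 0 := by simp [ip]

lemma ip_zero_right (ψ : R4 → ℂ) : ip ψ (fun _ => 0) = 0 := by simp [ip]

lemma ip_self (φ : R4 → ℂ) : ip φ φ = ((∫ x in Icc (0 : R4) 1, ‖φ x‖ ^ 2 : ℝ) : ℂ) := by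
  have h : ∀ x, conj (φ x) * φ x = ((‖φ x‖ ^ 2 : ℝ) : ℂ) := by
    intro x; rw [conj_mul']; push_cast; rfl
  simp only [ip, h]
  exact integral_ofReal

/-! ## Ladder operators -/

/-- annihilation operator `∇₀ + i ∇₁` -/
def ann (φ : R4 → ℂ) (x : R4) : ℂ := nb 0 0 φ x + I * nb 0 1 φ x

/-- creation operator `-∇₀ + i ∇₁` -/
def cre (φ : R4 → ℂ) (x : R4) : ℂ := -nb 0 0 φ x + I * nb 0 1 φ x

lemma Sec.ann {φ : R4 → ℂ} (h : Sec φ) : Sec (ann φ) :=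
  (h.nb 0 0).add ((h.nb 0 1).const_mul I)

lemma Sec.cre {φ : R4 → ℂ} (h : Sec φ) : Sec (cre φ) :=
  (h.nb 0 0).neg.add ((h.nb 0 1).const_mul I)

lemma A0c_zero (ξ : ℝ × ℝ) (x : R4) : A0c ξ 0 x = 0 := by simp [A0c]
lemma A0c_one (ξ : ℝ × ℝ) (x : R4) : A0c ξ 1 x = 2 * Real.pi * x 0 := by simp [A0c]
lemma A0c_two (ξ : ℝ × ℝ) (x : R4) : A0c ξ 2 x = -(2 * Real.pi * ξ.1) := by simp [A0c]
lemma A0c_three (ξ : ℝ × ℝ) (x : R4) : A0c ξ 3 x = -(2 * Real.pi * ξ.2) := by simp [A0c]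

lemma nb_zero (ξ : ℝ × ℝ) (φ : R4 → ℂ) : nb ξ 0 φ = nb 0 0 φ := by
  funext x; rw [nb_eq, nb_eq, A0c_zero, A0c_zero]

lemma nb_one (ξ : ℝ × ℝ) (φ : R4 → ℂ) : nb ξ 1 φ = nb 0 1 φ := by
  funext x; rw [nb_eq, nb_eq, A0c_one, A0c_one]

lemma nb_two (ξ : ℝ × ℝ) (φ : R4 → ℂ) (x : R4) :
    nb ξ 2 φ x = nb 0 2 φ x + 2 * Real.pi * I * ξ.1 * φ x := by
  rw [nb_eq, nb_eq, A0c_two, A0c_two]; push_cast; simp only [Prod.fst_zero, ofReal_zero]; ring

lemma nb_three (ξ : ℝ × ℝ) (φ : R4 → ℂ) (x : R4) :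
    nb ξ 3 φ x = nb 0 3 φ x + 2 * Real.pi * I * ξ.2 * φ x := by
  rw [nb_eq, nb_eq, A0c_three, A0c_three]; push_cast; simp only [Prod.snd_zero, ofReal_zero]; ring

lemma contDiff_ann {φ : R4 → ℂ} (h : ContDiff ℝ ∞ φ) : ContDiff ℝ ∞ (ann φ) :=
  (contDiff_nb 0 0 h).add (contDiff_const.mul (contDiff_nb 0 1 h))

lemma contDiff_cre {φ : R4 → ℂ} (h : ContDiff ℝ ∞ φ) : ContDiff ℝ ∞ (cre φ) :=
  (contDiff_nb 0 0 h).neg.add (contDiff_const.mul (contDiff_nb 0 1 h))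

lemma nb_ann (j : Fin 4) {φ : R4 → ℂ} (h : ContDiff ℝ ∞ φ) (x : R4) :
    nb 0 j (ann φ) x = nb 0 j (nb 0 0 φ) x + I * nb 0 j (nb 0 1 φ) x := by
  have : ann φ = fun x => nb 0 0 φ x + (fun y => I * nb 0 1 φ y) x := rfl
  rw [this, nb_add 0 j (contDiff_nb 0 0 h) (contDiff_const.mul (contDiff_nb 0 1 h)),
    nb_const_mul 0 j I (contDiff_nb 0 1 h)]

lemma nb_cre (j : Fin 4) {φ : R4 → ℂ} (h : ContDiff ℝ ∞ φ) (x : R4) :
    nb 0 j (cre φ) x = -nb 0 j (nb 0 0 φ) x + I * nb 0 j (nb 0 1 φ) x := by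
  have : cre φ = fun x => (fun y => -nb 0 0 φ y) x + (fun y => I * nb 0 1 φ y) x := rfl
  rw [this, nb_add 0 j (contDiff_nb 0 0 h).neg (contDiff_const.mul (contDiff_nb 0 1 h)),
    nb_const_mul 0 j I (contDiff_nb 0 1 h), nb_neg 0 j (contDiff_nb 0 0 h)]

/-- the commutation relation -/
lemma ann_cre {φ : R4 → ℂ} (h : ContDiff ℝ ∞ φ) (x : R4) :
    ann (cre φ) x = cre (ann φ) x + 4 * Real.pi * φ x := by
  have hc := nb_comm01 0 h x
  rw [ann, cre, nb_cre 0 h, nb_cre 1 h, nb_ann 0 h, nb_ann 1 h]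
  linear_combination (2 * I) * hc - 4 * Real.pi * φ x * I_mul_I

lemma ann_mul_const (c : ℂ) {φ : R4 → ℂ} (h : ContDiff ℝ ∞ φ) (x : R4) :
    ann (fun x => c * φ x) x = c * ann φ x := by
  rw [ann, ann, nb_const_mul 0 0 c h, nb_const_mul 0 1 c h]; ring

lemma cre_mul_const (c : ℂ) {φ : R4 → ℂ} (h : ContDiff ℝ ∞ φ) (x : R4) :
    cre (fun x => c * φ x) x = c * cre φ x := by
  rw [cre, cre, nb_const_mul 0 0 c h, nb_const_mul 0 1 c h]; ring

/-- adjointness -/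
lemma ip_cre {φ ψ : R4 → ℂ} (h : Sec φ) (h' : Sec ψ) : ip (cre φ) ψ = ip φ (ann ψ) := by
  have h1 : ip (cre φ) ψ = ip (fun x => -nb 0 0 φ x) ψ + ip (fun x => I * nb 0 1 φ x) ψ :=
    ip_add_left (h.nb 0 0).neg ((h.nb 0 1).const_mul I) h'
  have h2 : ip φ (ann ψ) = ip φ (nb 0 0 ψ) + ip φ (fun x => I * nb 0 1 ψ x) :=
    ip_add_right h (h'.nb 0 0) ((h'.nb 0 1).const_mul I)
  have h3 : ip (fun x => -nb 0 0 φ x) ψ = - ip (nb 0 0 φ) ψ := by
    have := ip_mul_left (-1) (nb 0 0 φ) ψ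
    simpa using this
  rw [h1, h2, h3, ip_mul_left, ip_mul_right, ip_nb h h', ip_nb h h']
  simp

lemma ip_ann {φ ψ : R4 → ℂ} (h : Sec φ) (h' : Sec ψ) : ip (ann φ) ψ = ip φ (cre ψ) := by
  rw [← ip_conj ψ (ann φ), ← ip_conj (cre ψ) φ, ip_cre h' h]

/-! ## The theta function -/

/-- the theta function, the ground state -/
def theta (x : R4) : ℂ := exp (-Real.pi * (x 0 : ℂ) ^ 2) * jacobiTheta₂ (-(x 1) + I * x 0) I

/-- the terms of the theta series -/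
def thT (m : ℤ) (x : R4) : ℂ :=
  exp (-Real.pi * ((x 0 : ℂ) + m) ^ 2 - 2 * Real.pi * I * m * x 1)

lemma thT_eq (m : ℤ) (x : R4) : exp (-Real.pi * (x 0 : ℂ) ^ 2) *
    jacobiTheta₂_term m (-(x 1) + I * x 0) I = thT m x := by
  rw [jacobiTheta₂_term, thT, ← exp_add]
  congr 1
  linear_combination (2 * Real.pi * m * (x 0 : ℂ) + Real.pi * (m : ℂ) ^ 2) * I_mul_I

lemma hasSum_theta (x : R4) : HasSum (fun m => thT m x) (theta x) := by
  have h := (hasSum_jacobiTheta₂_term (-(x 1) + I * x 0 : ℂ) (τ := I) (by simp)).mul_left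
    (exp (-Real.pi * (x 0 : ℂ) ^ 2))
  simp only [thT_eq] at h
  rw [theta]
  exact h

lemma thT_tr (m : ℤ) (k : Fin 4 → ℤ) (x : R4) : thT m (tr k x) = chi k x * thT (m + k 0) x := by
  have h1 : exp (-(((m * k 1 : ℤ) : ℂ) * (2 * Real.pi * I))) = 1 := by
    rw [exp_neg, exp_int_mul_two_pi_mul_I, inv_one]
  have h2 : thT m (tr k x) = chi k x * thT (m + k 0) x * exp (-(((m * k 1 : ℤ) : ℂ) * (2 * Real.pi * I))) := by
    rw [thT, chi, thT, ← exp_add, ← exp_add]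
    congr 1
    simp only [tr]
    push_cast
    ring
  rw [h2, h1, mul_one]

lemma theta_tr (k : Fin 4 → ℤ) (x : R4) : theta (tr k x) = chi k x * theta x := by
  rw [← (hasSum_theta (tr k x)).tsum_eq, ← (hasSum_theta x).tsum_eq, ← tsum_mul_left]
  simp only [thT_tr]
  exact (Equiv.addRight (k 0)).tsum_eq (fun m => chi k x * thT m x)

/-- the linear map `x ↦ -x₁ + i x₀` -/
def Lz : R4 →L[ℝ] ℂ := -(ofRealCLM ∘L (ContinuousLinearMap.proj 1 : R4 →L[ℝ] ℝ))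
  + (I : ℂ) • (ofRealCLM ∘L (ContinuousLinearMap.proj 0 : R4 →L[ℝ] ℝ))

lemma Lz_apply (x : R4) : Lz x = -(x 1) + I * x 0 := by simp [Lz]

lemma theta_eq : theta = fun x => exp (-Real.pi * (x 0 : ℂ) ^ 2) * jacobiTheta₂ (Lz x) I := by
  funext x; rw [theta, Lz_apply]

lemma differentiable_jt : Differentiable ℂ fun z => jacobiTheta₂ z I := fun z =>
  differentiableAt_jacobiTheta₂_fst z (by simp)

lemma contDiff_jt : ContDiff ℝ ∞ fun z => jacobiTheta₂ z I :=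
  (differentiable_jt.contDiff (n := ∞)).restrict_scalars ℝ

lemma contDiff_gauss : ContDiff ℝ ∞ fun x : R4 => exp (-Real.pi * (x 0 : ℂ) ^ 2) := by
  have h0 : ContDiff ℝ ∞ fun x : R4 => ((x 0 : ℝ) : ℂ) :=
    (ofRealCLM ∘L (ContinuousLinearMap.proj 0 : R4 →L[ℝ] ℝ)).contDiff
  exact (contDiff_const.mul (h0.pow 2)).cexp

lemma contDiff_theta : ContDiff ℝ ∞ theta := by
  rw [theta_eq]
  exact contDiff_gauss.mul (contDiff_jt.comp Lz.contDiff)

lemma sec_theta : Sec theta := ⟨contDiff_theta, theta_tr⟩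

lemma fderiv_theta (x v : R4) : fderiv ℝ theta x v = -(2 * Real.pi * x 0 * v 0) * theta x
    + exp (-Real.pi * (x 0 : ℂ) ^ 2) * (deriv (fun z => jacobiTheta₂ z I) (Lz x) * Lz v) := by
  have h0 : HasFDerivAt (fun x : R4 => ((x 0 : ℝ) : ℂ))
      (ofRealCLM ∘L (ContinuousLinearMap.proj 0 : R4 →L[ℝ] ℝ)) x :=
    (ofRealCLM ∘L (ContinuousLinearMap.proj 0 : R4 →L[ℝ] ℝ)).hasFDerivAt
  have h1 := ((h0.pow 2).const_mul (-Real.pi : ℂ)).cexp
  have h2 : HasFDerivAt (fun z => jacobiTheta₂ z I)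
      ((ContinuousLinearMap.smulRight (1 : ℂ →L[ℂ] ℂ)
        (deriv (fun z => jacobiTheta₂ z I) (Lz x))).restrictScalars ℝ) (Lz x) :=
    ((differentiable_jt (Lz x)).hasDerivAt.hasFDerivAt).restrictScalars ℝ
  have h3 := h2.comp x Lz.hasFDerivAt
  have h4 := h1.mul h3
  rw [theta_eq]
  have h5 : fderiv ℝ (fun x => exp (-Real.pi * (x 0 : ℂ) ^ 2) * jacobiTheta₂ (Lz x) I) x = _ :=
    h4.fderiv
  rw [h5]
  simp
  ring

lemma ann_theta (x : R4) : ann theta x = 0 := by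
  rw [ann, nb_eq, nb_eq, fderiv_theta, fderiv_theta, A0c_zero, A0c_one]
  simp only [Lz_apply, e_apply]
  simp
  linear_combination (- 2 * Real.pi * x 0 * theta x) * I_mul_I

lemma nb2_theta (x : R4) : nb 0 2 theta x = 0 := by
  rw [nb_eq, fderiv_theta, A0c_two]
  simp [e_apply, Lz_apply]

lemma nb3_theta (x : R4) : nb 0 3 theta x = 0 := by
  rw [nb_eq, fderiv_theta, A0c_three]
  simp [e_apply, Lz_apply]

lemma theta_zero_ne : theta 0 ≠ 0 := by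
  have h := hasSum_theta 0
  have h1 : ∀ m : ℤ, thT m 0 = ((Real.exp (-Real.pi * (m : ℝ) ^ 2) : ℝ) : ℂ) := by
    intro m
    rw [thT]
    push_cast
    congr 1
    simp
  simp only [h1] at h
  have h2 : Summable fun m : ℤ => Real.exp (-Real.pi * (m : ℝ) ^ 2) := by
    have := h.summable
    exact_mod_cast this
  have h3 : 0 < ∑' m : ℤ, Real.exp (-Real.pi * (m : ℝ) ^ 2) :=
    h2.tsum_pos (fun m => (Real.exp_pos _).le) 0 (Real.exp_pos _)
  rw [← h.tsum_eq, ← ofReal_tsum]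
  exact_mod_cast h3.ne'

end Vale.Agent.P247.H957
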