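import Vale.Agent.P247.H957.Fl2

/-!
# The Landau functions, an orthonormal family of smooth sections
-/

open scoped ContDiff Topology ComplexConjugate
open Set MeasureTheory Filter Metric Complex

noncomputable section

namespace Vale.Agent.P247.H957

open Vale.Agent.P247.H74 Vale.Agent.P247.H574

/-! ## Plane waves -/

lemma hasFDerivAt_vx (η : ℝ × ℝ) (x : R4) :
    HasFDerivAt (vx η) ((vx η x * (2 * Real.pi * I)) •
      (ofRealCLM ∘L (η.1 • (ContinuousLinearMap.proj 2 : R4 →L[ℝ] ℝ) +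
        η.2 • (ContinuousLinearMap.proj 3 : R4 →L[ℝ] ℝ)))) x := by
  have h1 : HasFDerivAt (fun x : R4 => ((η.1 * x 2 + η.2 * x 3 : ℝ) : ℂ))
      (ofRealCLM ∘L (η.1 • (ContinuousLinearMap.proj 2 : R4 →L[ℝ] ℝ) +
        η.2 • (ContinuousLinearMap.proj 3 : R4 →L[ℝ] ℝ))) x :=
    (ofRealCLM ∘L (η.1 • (ContinuousLinearMap.proj 2 : R4 →L[ℝ] ℝ) +
        η.2 • (ContinuousLinearMap.proj 3 : R4 →L[ℝ] ℝ))).hasFDerivAt
  have h2 := (h1.const_mul (2 * Real.pi * I)).cexp
  have h3 : (vx η) = fun x : R4 => exp (2 * Real.pi * I * ((η.1 * x 2 + η.2 * x 3 : ℝ) : ℂ)) := by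
    funext y; rw [vx]; push_cast; rfl
  rw [h3]
  refine h2.congr_fderiv ?_
  ext v
  simp [mul_assoc]

lemma contDiff_vx (η : ℝ × ℝ) : ContDiff ℝ ∞ (vx η) := by
  have h1 : ContDiff ℝ ∞ (fun x : R4 => ((η.1 * x 2 + η.2 * x 3 : ℝ) : ℂ)) :=
    (ofRealCLM ∘L (η.1 • (ContinuousLinearMap.proj 2 : R4 →L[ℝ] ℝ) +
        η.2 • (ContinuousLinearMap.proj 3 : R4 →L[ℝ] ℝ))).contDiff
  have h3 : (vx η) = fun x : R4 => exp (2 * Real.pi * I * ((η.1 * x 2 + η.2 * x 3 : ℝ) : ℂ)) := by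
    funext y; rw [vx]; push_cast; rfl
  rw [h3]
  exact (contDiff_const.mul h1).cexp

lemma fderiv_vx (η : ℝ × ℝ) (x v : R4) :
    fderiv ℝ (vx η) x v = vx η x * (2 * Real.pi * I * (η.1 * v 2 + η.2 * v 3)) := by
  rw [(hasFDerivAt_vx η x).fderiv]
  simp
  ring

lemma vx_tr (m n : ℤ) (k : Fin 4 → ℤ) (x : R4) :
    vx ((m : ℝ), (n : ℝ)) (tr k x) = vx ((m : ℝ), (n : ℝ)) x := by
  have h1 : exp (((m * k 2 + n * k 3 : ℤ) : ℂ) * (2 * Real.pi * I)) = 1 :=
    exp_int_mul_two_pi_mul_I _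
  have h2 : vx ((m : ℝ), (n : ℝ)) (tr k x) = vx ((m : ℝ), (n : ℝ)) x *
      exp (((m * k 2 + n * k 3 : ℤ) : ℂ) * (2 * Real.pi * I)) := by
    rw [vx, vx, ← exp_add]
    congr 1
    simp only [tr]
    push_cast
    ring
  rw [h2, h1, mul_one]

lemma vx_add (η η' : ℝ × ℝ) (x : R4) : vx (η + η') x = vx η x * vx η' x := by
  rw [vx, vx, vx, ← exp_add]
  congr 1
  simp
  ring

lemma vx_conj (η : ℝ × ℝ) (x : R4) : conj (vx η x) = vx (-η) x := by
  rw [vx, vx, ← exp_conj]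
  congr 1
  simp only [map_mul, conj_I, conj_ofReal, map_ofNat, map_add, Prod.fst_neg, Prod.snd_neg,
    ofReal_neg]
  ring

lemma vx_zero (x : R4) : vx 0 x = 1 := by simp [vx]

lemma vx_conj_mul (η : ℝ × ℝ) (x : R4) : conj (vx η x) * vx η x = 1 := by
  rw [vx_conj, ← vx_add, neg_add_cancel, vx_zero]

lemma norm_vx (η : ℝ × ℝ) (x : R4) : ‖vx η x‖ = 1 := by
  have h : vx η x = exp ((2 * Real.pi * (η.1 * x 2 + η.2 * x 3) : ℝ) * I) := by
    rw [vx]; congr 1; push_cast; ring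
  rw [h, norm_exp_ofReal_mul_I]

lemma nb_vx (ξ η : ℝ × ℝ) (j : Fin 4) {φ : R4 → ℂ} (h : ContDiff ℝ ∞ φ) (x : R4) :
    nb ξ j (fun x => vx η x * φ x) x = vx η x * nb (ξ + η) j φ x := by
  rw [nb_mul ξ j (contDiff_vx η) h, nb_eq, nb_eq, fderiv_vx]
  have hc : (2 * Real.pi * I * (η.1 * (e j : R4) 2 + η.2 * (e j : R4) 3) : ℂ) =
      I * (A0c ξ j x : ℂ) - I * (A0c (ξ + η) j x : ℂ) := by
    fin_cases j <;> simp [A0c, e_apply] <;> ring
  rw [hc]
  ring

lemma Sec.vx {φ : R4 → ℂ} (h : Sec φ) (n : ℤ × ℤ) :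
    Sec (fun x => vx ((n.1 : ℝ), (n.2 : ℝ)) x * φ x) :=
  h.mul_per (contDiff_vx _) (vx_tr _ _)

/-! ## The Landau levels -/

/-- powers of the creation operator applied to `theta` -/
def th : ℕ → R4 → ℂ
  | 0 => theta
  | j + 1 => cre (th j)

lemma sec_th : ∀ j, Sec (th j)
  | 0 => sec_theta
  | j + 1 => (sec_th j).cre

lemma cre_zero (x : R4) : cre (fun _ => 0) x = 0 := by
  simp [cre, nb_eq]

lemma nb_congr {ξ : ℝ × ℝ} {j : Fin 4} {φ ψ : R4 → ℂ} (h : ∀ x, φ x = ψ x) (x : R4) :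
    nb ξ j φ x = nb ξ j ψ x := by rw [funext h]

lemma ann_th_succ (j : ℕ) (x : R4) : ann (th (j + 1)) x = 4 * Real.pi * (j + 1) * th j x := by
  induction j generalizing x with
  | zero =>
    have h : ann theta = fun _ => 0 := funext ann_theta
    have h1 := ann_cre contDiff_theta x
    rw [h, cre_zero] at h1
    simpa [th] using h1
  | succ j ih =>
    have h : ann (th (j + 1)) = fun x => (4 * Real.pi * (j + 1)) * th j x := funext ih
    have h1 := ann_cre (sec_th (j + 1)).smooth x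
    rw [h, cre_mul_const _ (sec_th j).smooth] at h1
    have h2 : cre (th j) x = th (j + 1) x := rfl
    rw [h2] at h1
    have h3 : ann (th (j + 1 + 1)) x = ann (cre (th (j + 1))) x := rfl
    rw [h3, h1]
    push_cast
    ring

lemma nb2_th (j : ℕ) (x : R4) : nb 0 2 (th j) x = 0 := by
  induction j generalizing x with
  | zero => exact nb2_theta x
  | succ j ih =>
    have h : nb 0 2 (th j) = fun _ => 0 := funext ih
    have h0 := nb_comm_of 0 (i := 2) (j := 0) (by simp) (by simp) (sec_th j).smooth x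
    have h1 := nb_comm_of 0 (i := 2) (j := 1) (by simp) (by simp) (sec_th j).smooth x
    rw [h] at h0 h1
    change nb 0 2 (cre (th j)) x = 0
    rw [nb_cre 2 (sec_th j).smooth, h0, h1]
    simp [nb_eq]

lemma nb3_th (j : ℕ) (x : R4) : nb 0 3 (th j) x = 0 := by
  induction j generalizing x with
  | zero => exact nb3_theta x
  | succ j ih =>
    have h : nb 0 3 (th j) = fun _ => 0 := funext ih
    have h0 := nb_comm_of 0 (i := 3) (j := 0) (by simp) (by simp) (sec_th j).smooth x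
    have h1 := nb_comm_of 0 (i := 3) (j := 1) (by simp) (by simp) (sec_th j).smooth x
    rw [h] at h0 h1
    change nb 0 3 (cre (th j)) x = 0
    rw [nb_cre 3 (sec_th j).smooth, h0, h1]
    simp [nb_eq]

/-- squared norms -/
def nn (j : ℕ) : ℝ := ∫ x in Icc (0 : R4) 1, ‖th j x‖ ^ 2

lemma ip_th_self (j : ℕ) : ip (th j) (th j) = (nn j : ℂ) := ip_self _

lemma nn_succ (j : ℕ) : nn (j + 1) = 4 * Real.pi * (j + 1) * nn j := by
  have h : ip (th (j + 1)) (th (j + 1)) = (4 * Real.pi * (j + 1)) * ip (th j) (th j) := by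
    have h1 : ip (th (j + 1)) (th (j + 1)) = ip (th j) (ann (th (j + 1))) :=
      ip_cre (sec_th j) (sec_th (j + 1))
    have h2 : ann (th (j + 1)) = fun x => (4 * Real.pi * (j + 1)) * th j x :=
      funext (ann_th_succ j)
    rw [h1, h2, ip_mul_right]
  rw [ip_th_self, ip_th_self] at h
  exact_mod_cast h

lemma zero_mem_closure_interior : (0 : R4) ∈ closure (interior (Icc (0 : R4) 1)) := by
  have hc : Convex ℝ (Icc (0 : R4) 1) := convex_Icc 0 1
  have hi : (interior (Icc (0 : R4) 1)).Nonempty := by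
    refine ⟨fun _ => 1 / 2, ?_⟩
    rw [← pi_univ_Icc, interior_pi_set finite_univ]
    intro i _
    simp only [interior_Icc, mem_Ioo, Pi.zero_apply, Pi.one_apply]
    norm_num
  rw [hc.closure_interior_eq_closure_of_nonempty_interior hi]
  exact subset_closure ⟨le_refl _, zero_le_one⟩

lemma nn_zero_pos : 0 < nn 0 := by
  have hc : Continuous theta := contDiff_theta.continuous
  have ho : IsOpen {x | theta x ≠ 0} := isOpen_ne_fun hc continuous_const
  obtain ⟨y, hy⟩ : ({x | theta x ≠ 0} ∩ interior (Icc (0 : R4) 1)).Nonempty :=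
    mem_closure_iff.1 zero_mem_closure_interior _ ho theta_zero_ne
  have hpos : 0 < volume ({x | theta x ≠ 0} ∩ interior (Icc (0 : R4) 1)) :=
    (ho.inter isOpen_interior).measure_pos volume ⟨y, hy⟩
  rw [nn, integral_pos_iff_support_of_nonneg_ae]
  · have h1 : {x | theta x ≠ 0} ∩ interior (Icc (0 : R4) 1) ⊆
        (Function.support fun x => ‖th 0 x‖ ^ 2) ∩ Icc (0 : R4) 1 := by
      rintro x ⟨hx, hx'⟩
      refine ⟨?_, interior_subset hx'⟩
      simpa [th] using hx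
    have h2 := measure_mono (μ := volume) h1
    rw [Measure.restrict_apply' measurableSet_Icc]
    exact hpos.trans_le h2
  · exact Eventually.of_forall fun x => by positivity
  · exact integrableOn_cube ((sec_th 0).smooth.continuous.norm.pow 2)

lemma nn_pos : ∀ j, 0 < nn j
  | 0 => nn_zero_pos
  | j + 1 => by
    rw [nn_succ]
    have := nn_pos j
    positivity

lemma ip_th (i j : ℕ) (h : i ≠ j) : ip (th i) (th j) = 0 := by
  -- the number operator
  have hN : ∀ i, (fun x => cre (ann (th i)) x) = fun x => (4 * Real.pi * i : ℂ) * th i x := by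
    intro i
    funext x
    cases i with
    | zero =>
      have h : ann (th 0) = fun _ => 0 := funext ann_theta
      rw [h, cre_zero]; simp
    | succ i =>
      have h2 : ann (th (i + 1)) = fun x => (4 * Real.pi * (i + 1)) * th i x :=
        funext (ann_th_succ i)
      rw [h2, cre_mul_const _ (sec_th i).smooth]
      have h3 : cre (th i) x = th (i + 1) x := rfl
      rw [h3]; push_cast; ring
  have h1 : ip (cre (ann (th i))) (th j) = ip (th i) (cre (ann (th j))) := by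
    rw [ip_cre (sec_th i).ann (sec_th j), ip_ann (sec_th i) (sec_th j).ann]
  have h2 : ip (fun x => cre (ann (th i)) x) (th j) = ip (th i) (fun x => cre (ann (th j)) x) := h1
  rw [hN, hN, ip_mul_left, ip_mul_right] at h2
  have h3 : conj (4 * Real.pi * i : ℂ) = 4 * Real.pi * i := by
    simp only [map_mul, conj_ofReal, map_ofNat, map_natCast]
  rw [h3] at h2
  have h4 : (4 * Real.pi : ℂ) * ((i : ℂ) - j) * ip (th i) (th j) = 0 := by
    linear_combination h2
  have h5 : (4 * Real.pi : ℂ) ≠ 0 := by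
    simp [Real.pi_ne_zero]
  have h6 : ((i : ℂ) - j) ≠ 0 := by
    rw [sub_ne_zero]; exact_mod_cast h
  simpa [h5, h6] using h4

/-- index set -/
abbrev Ix : Type := ℕ × ℤ × ℤ

/-- the Landau basis -/
def bs (i : Ix) (x : R4) : ℂ :=
  (((√(nn i.1))⁻¹ : ℝ) : ℂ) * (vx ((i.2.1 : ℝ), (i.2.2 : ℝ)) x * th i.1 x)

lemma sec_bs (i : Ix) : Sec (bs i) := ((sec_th i.1).vx i.2).const_mul _

lemma nb_bs (ξ : ℝ × ℝ) (j : Fin 4) (i : Ix) (x : R4) :
    nb ξ j (bs i) x = (((√(nn i.1))⁻¹ : ℝ) : ℂ) *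
      (vx ((i.2.1 : ℝ), (i.2.2 : ℝ)) x * nb (ξ + ((i.2.1 : ℝ), (i.2.2 : ℝ))) j (th i.1) x) := by
  have h := nb_const_mul ξ j (((√(nn i.1))⁻¹ : ℝ) : ℂ) ((sec_th i.1).vx i.2).smooth x
  have h1 : nb ξ j (bs i) x = nb ξ j (fun x => (((√(nn i.1))⁻¹ : ℝ) : ℂ) *
    (vx ((i.2.1 : ℝ), (i.2.2 : ℝ)) x * th i.1 x)) x := rfl
  rw [h1, h, nb_vx ξ _ j (sec_th i.1).smooth]

lemma nb2_bs (ξ : ℝ × ℝ) (i : Ix) (x : R4) :
    nb ξ 2 (bs i) x = 2 * Real.pi * I * (i.2.1 + ξ.1) * bs i x := by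
  rw [nb_bs, nb_two, nb2_th, bs]
  simp
  ring

lemma nb3_bs (ξ : ℝ × ℝ) (i : Ix) (x : R4) :
    nb ξ 3 (bs i) x = 2 * Real.pi * I * (i.2.2 + ξ.2) * bs i x := by
  rw [nb_bs, nb_three, nb3_th, bs]
  simp
  ring

lemma ann_bs (i : Ix) (x : R4) : ann (bs i) x = (((√(nn i.1))⁻¹ : ℝ) : ℂ) *
      (vx ((i.2.1 : ℝ), (i.2.2 : ℝ)) x * ann (th i.1) x) := by
  rw [ann, nb_bs, nb_bs, ann, nb_zero (0 + _), nb_one (0 + _)]
  ring

lemma cre_bs (i : Ix) (x : R4) : cre (bs i) x = (((√(nn i.1))⁻¹ : ℝ) : ℂ) *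
      (vx ((i.2.1 : ℝ), (i.2.2 : ℝ)) x * cre (th i.1) x) := by
  rw [cre, nb_bs, nb_bs, cre, nb_zero (0 + _), nb_one (0 + _)]
  ring

lemma sqrt_nn_succ (j : ℕ) : √(nn (j + 1)) = √(4 * Real.pi * (j + 1)) * √(nn j) := by
  rw [nn_succ, Real.sqrt_mul (by positivity)]

lemma sqrt_nn_ne (j : ℕ) : √(nn j) ≠ 0 := (Real.sqrt_pos.2 (nn_pos j)).ne'

lemma sqrt4_ne (j : ℕ) : √(4 * Real.pi * ((j : ℝ) + 1)) ≠ 0 := by
  have : 0 < 4 * Real.pi * ((j : ℝ) + 1) := by positivity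
  exact (Real.sqrt_pos.2 this).ne'

lemma ann_bs_zero (n : ℤ × ℤ) (x : R4) : ann (bs (0, n)) x = 0 := by
  rw [ann_bs]
  have : ann (th 0) x = 0 := ann_theta x
  simp [this]

lemma ann_bs_succ (j : ℕ) (n : ℤ × ℤ) (x : R4) :
    ann (bs (j + 1, n)) x = (√(4 * Real.pi * (j + 1)) : ℝ) * bs (j, n) x := by
  rw [ann_bs, bs]
  simp only
  rw [ann_th_succ, sqrt_nn_succ]
  have h1 : ((√(4 * Real.pi * (j + 1)) * √(nn j))⁻¹ : ℝ) * (4 * Real.pi * (j + 1)) =
      √(4 * Real.pi * (j + 1)) * (√(nn j))⁻¹ := by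
    have := Real.mul_self_sqrt (show (0 : ℝ) ≤ 4 * Real.pi * (j + 1) by positivity)
    rw [mul_inv]
    field_simp
    rw [sq, this]
  have h2 : (((√(4 * Real.pi * (j + 1)) * √(nn j))⁻¹ : ℝ) : ℂ) * (4 * Real.pi * (j + 1)) =
      ((√(4 * Real.pi * (j + 1)) : ℝ) : ℂ) * (((√(nn j))⁻¹ : ℝ) : ℂ) := by
    exact_mod_cast congrArg (fun r : ℝ => (r : ℂ)) h1
  linear_combination (vx ((n.1 : ℝ), (n.2 : ℝ)) x * th j x) * h2

lemma cre_bs_eq (j : ℕ) (n : ℤ × ℤ) (x : R4) :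
    cre (bs (j, n)) x = (√(4 * Real.pi * (j + 1)) : ℝ) * bs (j + 1, n) x := by
  rw [cre_bs, bs]
  simp only
  have h3 : cre (th j) x = th (j + 1) x := rfl
  rw [h3, sqrt_nn_succ]
  have h1 : ((√(nn j))⁻¹ : ℝ) =
      √(4 * Real.pi * (j + 1)) * (√(4 * Real.pi * (j + 1)) * √(nn j))⁻¹ := by
    rw [mul_inv, ← mul_assoc, mul_inv_cancel₀ (sqrt4_ne j), one_mul]
  have h2 : (((√(nn j))⁻¹ : ℝ) : ℂ) = ((√(4 * Real.pi * (j + 1)) : ℝ) : ℂ) *
      (((√(4 * Real.pi * (j + 1)) * √(nn j))⁻¹ : ℝ) : ℂ) := by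
    exact_mod_cast congrArg (fun r : ℝ => (r : ℂ)) h1
  linear_combination (vx ((n.1 : ℝ), (n.2 : ℝ)) x * th (j + 1) x) * h2

/-- orthonormality -/
lemma ip_bs (i i' : Ix) : ip (bs i) (bs i') = if i = i' then 1 else 0 := by
  obtain ⟨j, m, n⟩ := i
  obtain ⟨j', m', n'⟩ := i'
  by_cases hm : m = m'
  · by_cases hn : n = n'
    · subst hm; subst hn
      have h1 : ip (bs (j, m, n)) (bs (j', m, n)) =
          (((√(nn j))⁻¹ * (√(nn j'))⁻¹ : ℝ) : ℂ) * ip (th j) (th j') := by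
        rw [← ip_mul_right, ip, ip]
        congr 1
        funext x
        have := vx_conj_mul ((m : ℝ), (n : ℝ)) x
        rw [bs, bs]
        simp only [map_mul, conj_ofReal]
        push_cast
        linear_combination (((√(nn j) : ℝ) : ℂ)⁻¹ * ((√(nn j') : ℝ) : ℂ)⁻¹ *
          (conj (th j x) * th j' x)) * this
      rw [h1]
      by_cases hj : j = j'
      · subst hj
        rw [ip_th_self, if_pos rfl]
        have h2 : (√(nn j))⁻¹ * (√(nn j))⁻¹ * nn j = 1 := by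
          have := Real.mul_self_sqrt (nn_pos j).le
          have h3 := sqrt_nn_ne j
          field_simp
          rw [sq, this]
        exact_mod_cast h2
      · rw [ip_th j j' hj, mul_zero, if_neg]
        intro h
        exact hj (congrArg Prod.fst h)
    · rw [if_neg (fun h => hn (congrArg (fun p : Ix => p.2.2) h))]
      have h := ip_nb (sec_bs (j, m, n)) (sec_bs (j', m', n')) 0 3
      have h1 : nb 0 3 (bs (j, m, n)) = fun x => (2 * Real.pi * I * n) * bs (j, m, n) x := by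
        funext x; rw [nb3_bs]; simp
      have h2 : nb 0 3 (bs (j', m', n')) = fun x => (2 * Real.pi * I * n') * bs (j', m', n') x := by
        funext x; rw [nb3_bs]; simp
      rw [h1, h2, ip_mul_left, ip_mul_right] at h
      have h3 : conj (2 * Real.pi * I * n : ℂ) = - (2 * Real.pi * I * n) := by
        simp only [map_mul, conj_I, conj_ofReal, map_ofNat, map_intCast]; ring
      rw [h3] at h
      have h4 : (2 * Real.pi * I : ℂ) * ((n : ℂ) - n') * ip (bs (j, m, n)) (bs (j', m', n')) = 0 := by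
        linear_combination -h
      have h5 : (2 * Real.pi * I : ℂ) ≠ 0 := by simp [Real.pi_ne_zero]
      have h6 : ((n : ℂ) - n') ≠ 0 := by rw [sub_ne_zero]; exact_mod_cast hn
      simpa only [mul_eq_zero, h5, h6, false_or] using h4
  · rw [if_neg (fun h => hm (congrArg (fun p : Ix => p.2.1) h))]
    have h := ip_nb (sec_bs (j, m, n)) (sec_bs (j', m', n')) 0 2
    have h1 : nb 0 2 (bs (j, m, n)) = fun x => (2 * Real.pi * I * m) * bs (j, m, n) x := by
      funext x; rw [nb2_bs]; simp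
    have h2 : nb 0 2 (bs (j', m', n')) = fun x => (2 * Real.pi * I * m') * bs (j', m', n') x := by
      funext x; rw [nb2_bs]; simp
    rw [h1, h2, ip_mul_left, ip_mul_right] at h
    have h3 : conj (2 * Real.pi * I * m : ℂ) = - (2 * Real.pi * I * m) := by
      simp only [map_mul, conj_I, conj_ofReal, map_ofNat, map_intCast]; ring
    rw [h3] at h
    have h4 : (2 * Real.pi * I : ℂ) * ((m : ℂ) - m') * ip (bs (j, m, n)) (bs (j', m', n')) = 0 := by
      linear_combination -h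
    have h5 : (2 * Real.pi * I : ℂ) ≠ 0 := by simp [Real.pi_ne_zero]
    have h6 : ((m : ℂ) - m') ≠ 0 := by rw [sub_ne_zero]; exact_mod_cast hm
    simpa only [mul_eq_zero, h5, h6, false_or] using h4

end Vale.Agent.P247.H957
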