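import Vale.Agent.P247.H957.Fl3
import Vale.Agent.P247.H957.Four

/-!
# Completeness of the Landau basis

The generating function `Ψ (z, x) = ∑ z ^ l / l! a* ^ l θ` is, up to constants, a magnetic
translate of `θ`; translates by half integers multiply it by exponentials.
-/

open scoped ContDiff Topology ComplexConjugate
open Set MeasureTheory Filter Metric Complex

noncomputable section

namespace Vale.Agent.P247.H957

open Vale.Agent.P247.H74 Vale.Agent.P247.H574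

/-- the generating function -/
def Psi (p : ℂ × R4) : ℂ :=
  exp (-Real.pi * (p.2 0 : ℂ) ^ 2 + 4 * Real.pi * p.1 * p.2 0 - 2 * Real.pi * p.1 ^ 2) *
    jacobiTheta₂ (Lz p.2 - 2 * I * p.1) I

/-- the terms of the series of `Ψ` -/
def psT (m : ℤ) (z : ℂ) (x : R4) : ℂ :=
  exp (-Real.pi * ((x 0 : ℂ) + m) ^ 2 + 4 * Real.pi * z * ((x 0 : ℂ) + m) - 2 * Real.pi * z ^ 2
    - 2 * Real.pi * I * m * x 1)

lemma psT_eq (m : ℤ) (z : ℂ) (x : R4) :
    exp (-Real.pi * (x 0 : ℂ) ^ 2 + 4 * Real.pi * z * x 0 - 2 * Real.pi * z ^ 2) *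
    jacobiTheta₂_term m (Lz x - 2 * I * z) I = psT m z x := by
  rw [jacobiTheta₂_term, psT, ← exp_add, Lz_apply]
  congr 1
  linear_combination (2 * Real.pi * m * (x 0 : ℂ) + Real.pi * (m : ℂ) ^ 2
    - 4 * Real.pi * m * z) * I_mul_I

lemma hasSum_Psi (z : ℂ) (x : R4) : HasSum (fun m => psT m z x) (Psi (z, x)) := by
  have h := (hasSum_jacobiTheta₂_term (Lz x - 2 * I * z) (τ := I) (by simp)).mul_left
    (exp (-Real.pi * (x 0 : ℂ) ^ 2 + 4 * Real.pi * z * x 0 - 2 * Real.pi * z ^ 2))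
  simp only [psT_eq] at h
  rw [Psi]
  exact h

/-- translation by half integers -/
lemma psT_shift (m k l : ℤ) (z : ℂ) (x : R4) :
    psT m (z + ((l : ℂ) + k * I) / 2) x =
      exp (Real.pi * l ^ 2 + 4 * Real.pi * z * l - 2 * Real.pi * (z + ((l : ℂ) + k * I) / 2) ^ 2
        + 2 * Real.pi * z ^ 2) * exp (2 * Real.pi * I * (k * x 0 - l * x 1)) *
        psT (m - l) z x := by
  have h1 : exp (((k * m : ℤ) : ℂ) * (2 * Real.pi * I)) = 1 := exp_int_mul_two_pi_mul_I _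
  have h2 : psT m (z + ((l : ℂ) + k * I) / 2) x =
      exp (Real.pi * l ^ 2 + 4 * Real.pi * z * l - 2 * Real.pi * (z + ((l : ℂ) + k * I) / 2) ^ 2
        + 2 * Real.pi * z ^ 2) * exp (2 * Real.pi * I * (k * x 0 - l * x 1)) *
        psT (m - l) z x * exp (((k * m : ℤ) : ℂ) * (2 * Real.pi * I)) := by
    rw [psT, psT, ← exp_add, ← exp_add, ← exp_add]
    congr 1
    push_cast
    ring
  rw [h2, h1, mul_one]

lemma Psi_shift (k l : ℤ) (z : ℂ) (x : R4) :
    Psi (z + ((l : ℂ) + k * I) / 2, x) =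
      exp (Real.pi * l ^ 2 + 4 * Real.pi * z * l - 2 * Real.pi * (z + ((l : ℂ) + k * I) / 2) ^ 2
        + 2 * Real.pi * z ^ 2) * exp (2 * Real.pi * I * (k * x 0 - l * x 1)) * Psi (z, x) := by
  rw [← (hasSum_Psi _ x).tsum_eq, ← (hasSum_Psi z x).tsum_eq, ← tsum_mul_left]
  simp only [psT_shift]
  exact (Equiv.subRight l).tsum_eq (fun m => exp (Real.pi * l ^ 2 + 4 * Real.pi * z * l
    - 2 * Real.pi * (z + ((l : ℂ) + k * I) / 2) ^ 2
        + 2 * Real.pi * z ^ 2) * exp (2 * Real.pi * I * (k * x 0 - l * x 1)) * psT m z x)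

lemma contDiff_Psi : ContDiff ℝ ∞ Psi := by
  have h0 : ContDiff ℝ ∞ fun p : ℂ × R4 => ((p.2 0 : ℝ) : ℂ) :=
    ((ofRealCLM ∘L (ContinuousLinearMap.proj 0 : R4 →L[ℝ] ℝ)).contDiff).comp contDiff_snd
  have h1 : ContDiff ℝ ∞ fun p : ℂ × R4 => p.1 := contDiff_fst
  have h2 : ContDiff ℝ ∞ fun p : ℂ × R4 => Lz p.2 - 2 * I * p.1 :=
    (Lz.contDiff.comp contDiff_snd).sub (contDiff_const.mul h1)
  have h3 : ContDiff ℝ ∞ fun p : ℂ × R4 =>
      (-Real.pi * (p.2 0 : ℂ) ^ 2 + 4 * Real.pi * p.1 * p.2 0 - 2 * Real.pi * p.1 ^ 2) :=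
    ((contDiff_const.mul (h0.pow 2)).add ((contDiff_const.mul h1).mul h0)).sub
      (contDiff_const.mul (h1.pow 2))
  exact h3.cexp.mul (contDiff_jt.comp h2)

/-- creation operator in the variable `x` -/
def creX (F : ℂ × R4 → ℂ) (p : ℂ × R4) : ℂ :=
  -fderiv ℝ F p (0, e 0) + I * (fderiv ℝ F p (0, e 1) - I * ((2 * Real.pi * p.2 0 : ℝ) : ℂ) * F p)

/-- the `z` derivative is `creX` -/
def QQ (F : ℂ × R4 → ℂ) : Prop := ∀ p (w : ℂ), fderiv ℝ F p (w, 0) = w * creX F p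

lemma contDiff_creX {F : ℂ × R4 → ℂ} (h : ContDiff ℝ ∞ F) : ContDiff ℝ ∞ (creX F) := by
  have h0 : ContDiff ℝ ∞ fun p : ℂ × R4 => ((2 * Real.pi * p.2 0 : ℝ) : ℂ) :=
    ((ofRealCLM ∘L ((2 * Real.pi) • (ContinuousLinearMap.proj 0 : R4 →L[ℝ] ℝ))).contDiff).comp
      contDiff_snd
  exact (contDiff_fderiv_apply h _).neg.add (contDiff_const.mul
    ((contDiff_fderiv_apply h _).sub ((contDiff_const.mul h0).mul h)))

lemma fderiv_fderiv_comm {F : ℂ × R4 → ℂ} (h : ContDiff ℝ ∞ F) (p u v : ℂ × R4) :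
    fderiv ℝ (fun q => fderiv ℝ F q u) p v = fderiv ℝ (fun q => fderiv ℝ F q v) p u := by
  have h2 : DifferentiableAt ℝ (fderiv ℝ F) p :=
    ((h.fderiv_right (m := ∞) (by simp)).differentiable (by simp)).differentiableAt
  have h3 : ∀ v, fderiv ℝ (fun y => fderiv ℝ F y v) p = (fderiv ℝ (fderiv ℝ F) p).flip v := by
    intro v
    have := h2.hasFDerivAt.clm_apply (hasFDerivAt_const v p)
    rw [this.fderiv]
    ext w <;> simp
  rw [h3, h3]
  simp only [ContinuousLinearMap.flip_apply]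
  have h4 : IsSymmSndFDerivAt ℝ F p :=
    (h.contDiffAt).isSymmSndFDerivAt (by
      simp only [minSmoothness_of_isRCLikeNormedField]
      exact WithTop.coe_le_coe.2 (le_top : (2 : ℕ∞) ≤ ⊤))
  exact h4 v u

lemma fderiv_creX {F : ℂ × R4 → ℂ} (h : ContDiff ℝ ∞ F) (p v : ℂ × R4) :
    fderiv ℝ (creX F) p v = -fderiv ℝ (fun q => fderiv ℝ F q v) p (0, e 0) +
      I * (fderiv ℝ (fun q => fderiv ℝ F q v) p (0, e 1)
        - I * ((2 * Real.pi * p.2 0 : ℝ) : ℂ) * fderiv ℝ F p v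
        - I * ((2 * Real.pi * v.2 0 : ℝ) : ℂ) * F p) := by
  have h0 : HasFDerivAt (fun p : ℂ × R4 => ((2 * Real.pi * p.2 0 : ℝ) : ℂ))
      ((ofRealCLM ∘L ((2 * Real.pi) • (ContinuousLinearMap.proj 0 : R4 →L[ℝ] ℝ))) ∘L
        ContinuousLinearMap.snd ℝ ℂ R4) p :=
    ((ofRealCLM ∘L ((2 * Real.pi) • (ContinuousLinearMap.proj 0 : R4 →L[ℝ] ℝ))) ∘L
        ContinuousLinearMap.snd ℝ ℂ R4).hasFDerivAt
  have hF : HasFDerivAt F (fderiv ℝ F p) p := (h.differentiable (by simp) p).hasFDerivAt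
  have hD : ∀ u, HasFDerivAt (fun q => fderiv ℝ F q u) (fderiv ℝ (fun q => fderiv ℝ F q u) p) p :=
    fun u => ((contDiff_fderiv_apply h u).differentiable (by simp) p).hasFDerivAt
  have h1 := (hD (0, e 0)).fun_neg.fun_add (((hD (0, e 1)).fun_sub
    ((h0.const_mul I).fun_mul hF)).const_mul I)
  have h2 : fderiv ℝ (creX F) p = _ := h1.fderiv
  rw [h2, fderiv_fderiv_comm h p v, fderiv_fderiv_comm h p v]
  simp
  ring

lemma QQ_step {F : ℂ × R4 → ℂ} (h : ContDiff ℝ ∞ F) (hq : QQ F) : QQ (creX F) := by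
  intro p w
  rw [fderiv_creX h]
  have h1 : (fun q => fderiv ℝ F q (w, 0)) = fun q => w * creX F q := funext fun q => hq q w
  have hc : DifferentiableAt ℝ (creX F) p := (contDiff_creX h).differentiable (by simp) p
  rw [h1, fderiv_const_mul hc, hq p w]
  have h2 : creX (creX F) p = -fderiv ℝ (creX F) p (0, e 0) + I * (fderiv ℝ (creX F) p (0, e 1)
      - I * ((2 * Real.pi * p.2 0 : ℝ) : ℂ) * creX F p) := rfl
  rw [h2]
  simp
  ring

lemma QQ_Psi : QQ Psi := by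
  intro p w
  have h0 : HasFDerivAt (fun p : ℂ × R4 => ((p.2 0 : ℝ) : ℂ))
      ((ofRealCLM ∘L (ContinuousLinearMap.proj 0 : R4 →L[ℝ] ℝ)) ∘L
        ContinuousLinearMap.snd ℝ ℂ R4) p :=
    ((ofRealCLM ∘L (ContinuousLinearMap.proj 0 : R4 →L[ℝ] ℝ)) ∘L
        ContinuousLinearMap.snd ℝ ℂ R4).hasFDerivAt
  have h1 : HasFDerivAt (fun p : ℂ × R4 => p.1) (ContinuousLinearMap.fst ℝ ℂ R4) p :=
    (ContinuousLinearMap.fst ℝ ℂ R4).hasFDerivAt
  have hL : HasFDerivAt (fun p : ℂ × R4 => Lz p.2) (Lz ∘L ContinuousLinearMap.snd ℝ ℂ R4) p :=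
    (Lz ∘L ContinuousLinearMap.snd ℝ ℂ R4).hasFDerivAt
  have h2 := hL.fun_sub (h1.const_mul (2 * I))
  have h3 := ((((h0.pow 2).const_mul (-Real.pi : ℂ)).fun_add
    ((h1.const_mul (4 * Real.pi : ℂ)).fun_mul h0)).fun_sub
      ((h1.pow 2).const_mul (2 * Real.pi : ℂ))).cexp
  have h4 : HasFDerivAt (fun z => jacobiTheta₂ z I)
      ((ContinuousLinearMap.smulRight (1 : ℂ →L[ℂ] ℂ)
        (deriv (fun z => jacobiTheta₂ z I) (Lz p.2 - 2 * I * p.1))).restrictScalars ℝ)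
        (Lz p.2 - 2 * I * p.1) :=
    ((differentiable_jt _).hasDerivAt.hasFDerivAt).restrictScalars ℝ
  have h5 := h3.fun_mul (h4.comp p h2)
  have h6 : fderiv ℝ Psi p = _ := h5.fderiv
  rw [creX, h6]
  simp [Psi, Lz_apply, e_apply]
  linear_combination ((2 * Real.pi * (p.2 0) * w) * (exp (-(Real.pi * (p.2 0 : ℂ) ^ 2) +
    4 * Real.pi * p.1 * p.2 0 - 2 * Real.pi * p.1 ^ 2) *
    jacobiTheta₂ (-(p.2 1) + I * p.2 0 - 2 * I * p.1) I)) * I_mul_I

/-- the iterated creation operator on the generating function -/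
def Gl : ℕ → ℂ × R4 → ℂ
  | 0 => Psi
  | l + 1 => creX (Gl l)

lemma contDiff_Gl : ∀ l, ContDiff ℝ ∞ (Gl l)
  | 0 => contDiff_Psi
  | l + 1 => contDiff_creX (contDiff_Gl l)

lemma QQ_Gl : ∀ l, QQ (Gl l)
  | 0 => QQ_Psi
  | l + 1 => QQ_step (contDiff_Gl l) (QQ_Gl l)

lemma fderiv_slice {F : ℂ × R4 → ℂ} (h : ContDiff ℝ ∞ F) (z : ℂ) (x v : R4) :
    fderiv ℝ (fun x => F (z, x)) x v = fderiv ℝ F (z, x) (0, v) := by
  have h1 : HasFDerivAt F (fderiv ℝ F (z, x)) (z, x) := (h.differentiable (by simp) _).hasFDerivAt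
  have h2 : HasFDerivAt (fun x : R4 => (z, x)) (ContinuousLinearMap.inr ℝ ℂ R4) x :=
    hasFDerivAt_prodMk_right z x
  have h3 := h1.comp x h2
  have h4 : fderiv ℝ (fun x => F (z, x)) x = _ := h3.fderiv
  rw [h4]
  simp

lemma creX_slice {F : ℂ × R4 → ℂ} (h : ContDiff ℝ ∞ F) (z : ℂ) (x : R4) :
    creX F (z, x) = cre (fun x => F (z, x)) x := by
  rw [cre, nb_eq, nb_eq, fderiv_slice h, fderiv_slice h, A0c_zero, A0c_one, creX]
  simp

lemma Psi_zero (x : R4) : Psi (0, x) = theta x := by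
  rw [Psi, theta, Lz_apply]
  simp

lemma Gl_zero (l : ℕ) (x : R4) : Gl l (0, x) = th l x := by
  induction l generalizing x with
  | zero => exact Psi_zero x
  | succ l ih =>
    have h : (fun x => Gl l (0, x)) = th l := funext ih
    change creX (Gl l) (0, x) = cre (th l) x
    rw [creX_slice (contDiff_Gl l), h]

lemma hasDerivAt_Gl (l : ℕ) (z : ℂ) (x : R4) :
    HasDerivAt (fun z => Gl l (z, x)) (Gl (l + 1) (z, x)) z := by
  have h1 : HasFDerivAt (Gl l) (fderiv ℝ (Gl l) (z, x)) (z, x) :=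
    ((contDiff_Gl l).differentiable (by simp) _).hasFDerivAt
  have h2 : HasFDerivAt (fun z : ℂ => (z, x)) (ContinuousLinearMap.inl ℝ ℂ R4) z :=
    hasFDerivAt_prodMk_left z x
  have h3 : HasFDerivAt (fun z => Gl l (z, x)) _ z := h1.comp z h2
  rw [hasDerivAt_iff_hasFDerivAt]
  refine hasFDerivAt_of_restrictScalars ℝ h3 ?_
  ext w
  have := QQ_Gl l (z, x) w
  simp only [ContinuousLinearMap.coe_restrictScalars', ContinuousLinearMap.comp_apply,
    ContinuousLinearMap.inl_apply]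
  rw [this]
  simp [Gl]

lemma iteratedDeriv_Psi (l : ℕ) (x : R4) :
    iteratedDeriv l (fun z => Psi (z, x)) = fun z => Gl l (z, x) := by
  induction l with
  | zero => simp [Gl]
  | succ l ih =>
    rw [iteratedDeriv_succ, ih]
    funext z
    exact (hasDerivAt_Gl l z x).deriv

lemma differentiable_Psi (x : R4) : Differentiable ℂ fun z => Psi (z, x) := fun z =>
  (hasDerivAt_Gl 0 z x).differentiableAt

/-- Taylor expansion -/
lemma hasSum_th (z : ℂ) (x : R4) :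
    HasSum (fun l : ℕ => (l.factorial : ℂ)⁻¹ * z ^ l * th l x) (Psi (z, x)) := by
  have h := hasSum_taylorSeries_of_entire (differentiable_Psi x) 0 z
  simp only [iteratedDeriv_Psi, Gl_zero, sub_zero, smul_eq_mul] at h
  simpa only [mul_assoc] using h

/-- Cauchy estimates -/
lemma th_bound (R : ℝ) (hR : 0 < R) : ∃ M, 0 ≤ M ∧ ∀ l, ∀ x ∈ Icc (0 : R4) 1,
    ‖th l x‖ ≤ l.factorial * M / R ^ l := by
  have hK : IsCompact (closedBall (0 : ℂ) R ×ˢ Icc (0 : R4) 1) :=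
    (isCompact_closedBall 0 R).prod isCompact_Icc
  obtain ⟨M, hM⟩ := hK.exists_bound_of_continuousOn contDiff_Psi.continuous.continuousOn
  refine ⟨max M 0, le_max_right _ _, fun l x hx => ?_⟩
  have h := norm_iteratedDeriv_le_of_forall_mem_sphere_norm_le (c := 0) (C := max M 0) l hR
    (differentiable_Psi x).diffContOnCl (fun z hz =>
      (hM (z, x) ⟨sphere_subset_closedBall hz, hx⟩).trans (le_max_left _ _))
  rw [iteratedDeriv_Psi] at h
  simpa only [Gl_zero] using h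

instance : IsFiniteMeasure mQ := ⟨by
  rw [Measure.restrict_apply_univ]
  exact isCompact_Icc.measure_lt_top⟩

lemma memLp_integrable {g : R4 → ℂ} (hg : MemLp g 2 mQ) : Integrable g mQ :=
  hg.integrable (by norm_num)

lemma integrable_mul_cont {g : R4 → ℂ} (hg : MemLp g 2 mQ) {u : R4 → ℂ} (hu : Continuous u) :
    Integrable (fun x => g x * u x) mQ := by
  obtain ⟨C, hC⟩ := isCompact_Icc.exists_bound_of_continuousOn (s := Icc (0 : R4) 1)
    hu.continuousOn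
  have h := (memLp_integrable hg).bdd_mul (c := C) hu.aestronglyMeasurable
    (ae_restrict_of_forall_mem measurableSet_Icc hC)
  simpa only [mul_comm] using h

lemma memLp_mul_cont {g : R4 → ℂ} (hg : MemLp g 2 mQ) {u : R4 → ℂ} (hu : Continuous u) :
    MemLp (fun x => u x * g x) 2 mQ := by
  obtain ⟨C, hC⟩ := isCompact_Icc.exists_bound_of_continuousOn (s := Icc (0 : R4) 1)
    hu.continuousOn
  refine hg.of_le_mul (c := C) (hu.aestronglyMeasurable.mul hg.1) ?_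
  refine ae_restrict_of_forall_mem measurableSet_Icc fun x hx => ?_
  rw [norm_mul]
  exact mul_le_mul_of_nonneg_right (hC x hx) (norm_nonneg _)

/-- Step A: orthogonality to the basis implies orthogonality to all translates. -/
lemma int_Psi {g : R4 → ℂ} (hg : MemLp g 2 mQ)
    (h : ∀ i : Ix, ∫ x in Icc (0 : R4) 1, g x * bs i x = 0) (z : ℂ) (n : ℤ × ℤ) :
    ∫ x in Icc (0 : R4) 1, g x * (vx ((n.1 : ℝ), (n.2 : ℝ)) x * Psi (z, x)) = 0 := by
  have hth : ∀ l, ∫ x in Icc (0 : R4) 1, g x * (vx ((n.1 : ℝ), (n.2 : ℝ)) x * th l x) = 0 := by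
    intro l
    have h1 := h (l, n)
    have h2 : (fun x => g x * bs (l, n) x) = fun x => (((√(nn l))⁻¹ : ℝ) : ℂ) *
        (g x * (vx ((n.1 : ℝ), (n.2 : ℝ)) x * th l x)) := by
      funext x; rw [bs]; ring
    rw [h2, integral_const_mul, mul_eq_zero] at h1
    rcases h1 with h1 | h1
    · exact absurd h1 (by exact_mod_cast inv_ne_zero (sqrt_nn_ne l))
    · exact h1
  obtain ⟨M, hM0, hM⟩ := th_bound (2 * ‖z‖ + 1) (by positivity)
  set R : ℝ := 2 * ‖z‖ + 1 with hR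
  have hRpos : 0 < R := by positivity
  let F : ℕ → R4 → ℂ := fun l x => ((l.factorial : ℂ)⁻¹ * z ^ l) *
    (g x * (vx ((n.1 : ℝ), (n.2 : ℝ)) x * th l x))
  have hFint : ∀ l, Integrable (F l) mQ := fun l =>
    (integrable_mul_cont hg ((contDiff_vx _).continuous.mul
      (sec_th l).smooth.continuous)).const_mul _
  have hF0 : ∀ l, ∫ x in Icc (0 : R4) 1, F l x = 0 := by
    intro l
    rw [integral_const_mul, hth l, mul_zero]
  have hq : ‖z‖ / R < 1 := by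
    rw [div_lt_one hRpos]
    have := norm_nonneg z
    linarith
  have hbound : ∀ l, ∫ x in Icc (0 : R4) 1, ‖F l x‖ ≤
      (‖z‖ / R) ^ l * (M * ∫ x in Icc (0 : R4) 1, ‖g x‖) := by
    intro l
    rw [← integral_const_mul, ← integral_const_mul]
    refine setIntegral_mono_on (hFint l).norm
      (((memLp_integrable hg).norm.const_mul M).const_mul _) measurableSet_Icc fun x hx => ?_
    simp only [F, norm_mul, norm_inv, norm_pow, norm_vx, one_mul, norm_natCast]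
    have h1 := hM l x hx
    have h2 : (0 : ℝ) < l.factorial := by exact_mod_cast l.factorial_pos
    calc ((l.factorial : ℝ)⁻¹ * ‖z‖ ^ l) * (‖g x‖ * ‖th l x‖)
        ≤ ((l.factorial : ℝ)⁻¹ * ‖z‖ ^ l) * (‖g x‖ * (l.factorial * M / R ^ l)) := by
          gcongr
      _ = (‖z‖ / R) ^ l * (M * ‖g x‖) := by
          rw [div_pow]
          field_simp
  have hsum : Summable fun l => ∫ x in Icc (0 : R4) 1, ‖F l x‖ := by
    refine Summable.of_nonneg_of_le (fun l => integral_nonneg fun x => norm_nonneg _) hbound ?_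
    exact (summable_geometric_of_lt_one (by positivity) hq).mul_right _
  have h3 := hasSum_integral_of_summable_integral_norm hFint hsum
  simp only [hF0] at h3
  have h4 : ∫ x in Icc (0 : R4) 1, ∑' l, F l x = 0 := h3.unique hasSum_zero
  rw [← h4]
  congr 1
  funext x
  have h5 := ((hasSum_th z x).mul_left (g x * vx ((n.1 : ℝ), (n.2 : ℝ)) x)).tsum_eq
  rw [← mul_assoc, ← h5]
  congr 1
  funext l
  simp only [F]
  ring

/-- Step C. -/
lemma mul_Psi_zero {g : R4 → ℂ} (hg : MemLp g 2 mQ)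
    (h : ∀ i : Ix, ∫ x in Icc (0 : R4) 1, g x * bs i x = 0) (z : ℂ) :
    (fun x => Psi (z, x) * g x) =ᵐ[mQ] 0 := by
  have hc : Continuous fun x : R4 => Psi (z, x) :=
    contDiff_Psi.continuous.comp (Continuous.prodMk_right z)
  refine eq_zero_of_fourier (memLp_mul_cont hg hc) fun k => ?_
  have h1 := int_Psi hg h (z + (((-k 1 : ℤ) : ℂ) + (k 0 : ℤ) * I) / 2) (k 2, k 3)
  simp only [Psi_shift] at h1
  have hne := exp_ne_zero (Real.pi * ((-k 1 : ℤ) : ℂ) ^ 2 + 4 * Real.pi * z * ((-k 1 : ℤ) : ℂ)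
    - 2 * Real.pi * (z + (((-k 1 : ℤ) : ℂ) + (k 0 : ℤ) * I) / 2) ^ 2 + 2 * Real.pi * z ^ 2)
  set c := exp (Real.pi * ((-k 1 : ℤ) : ℂ) ^ 2 + 4 * Real.pi * z * ((-k 1 : ℤ) : ℂ)
    - 2 * Real.pi * (z + (((-k 1 : ℤ) : ℂ) + (k 0 : ℤ) * I) / 2) ^ 2 + 2 * Real.pi * z ^ 2) with hcdef
  have h2 : (fun x : R4 => g x * (vx (((k 2 : ℤ) : ℝ), ((k 3 : ℤ) : ℝ)) x *
      (c * exp (2 * Real.pi * I * ((k 0 : ℤ) * x 0 - ((-k 1 : ℤ) : ℂ) * x 1)) * Psi (z, x)))) =
      fun x => c * (exp ((2 * Real.pi * ∑ i, (k i : ℝ) * x i : ℝ) * I) * (Psi (z, x) * g x)) := by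
    funext x
    have h3 : exp ((2 * Real.pi * ∑ i, (k i : ℝ) * x i : ℝ) * I) =
        vx (((k 2 : ℤ) : ℝ), ((k 3 : ℤ) : ℝ)) x *
          exp (2 * Real.pi * I * ((k 0 : ℤ) * x 0 - ((-k 1 : ℤ) : ℂ) * x 1)) := by
      rw [vx, ← exp_add]
      congr 1
      rw [Fin.sum_univ_four]
      push_cast
      ring
    rw [h3]
    ring
  rw [h2, integral_const_mul, mul_eq_zero] at h1
  rcases h1 with h1 | h1
  · exact absurd h1 hne
  · exact h1

/-- **Completeness of the Landau basis.** -/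
theorem eq_zero_of_bs {g : R4 → ℂ} (hg : MemLp g 2 mQ)
    (h : ∀ i : Ix, ∫ x in Icc (0 : R4) 1, g x * bs i x = 0) : g =ᵐ[mQ] 0 := by
  have h1 : ∀ᵐ x ∂mQ, ∀ j : ℕ, Psi (TopologicalSpace.denseSeq ℂ j, x) * g x = 0 :=
    ae_all_iff.2 fun j => mul_Psi_zero hg h _
  filter_upwards [h1] with x hx
  by_contra hgx
  have h2 : ∀ j : ℕ, Psi (TopologicalSpace.denseSeq ℂ j, x) = 0 := fun j =>
    (mul_eq_zero.1 (hx j)).resolve_right hgx
  have hc : Continuous fun z : ℂ => Psi (z, x) :=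
    contDiff_Psi.continuous.comp (Continuous.prodMk_left x)
  have h3 : (fun z : ℂ => Psi (z, x)) = fun _ => 0 :=
    hc.ext_on (TopologicalSpace.denseRange_denseSeq ℂ) continuous_const (by
      rintro _ ⟨j, rfl⟩
      exact h2 j)
  have h4 := congrFun h3 ((x 0 + I * x 1) / 2)
  simp only [Psi, Lz_apply] at h4
  have h5 : (-(x 1 : ℂ) + I * x 0 - 2 * I * ((x 0 + I * x 1) / 2)) = 0 := by
    linear_combination -(x 1 : ℂ) * I_mul_I
  rw [h5] at h4
  have h6 : jacobiTheta₂ 0 I ≠ 0 := by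
    intro h7
    refine theta_zero_ne ?_
    rw [theta]
    simp [h7]
  exact (mul_ne_zero (exp_ne_zero _) h6) h4

end Vale.Agent.P247.H957
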