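import Vale.Agent.P247.H957.Fl4

/-!
# The Hilbert basis and the operators `J ξ`, `G ξ j` in coefficients
-/

open scoped ContDiff Topology ComplexConjugate ENNReal
open Set MeasureTheory Filter Metric Complex

noncomputable section

namespace Vale.Agent.P247.H957

open Vale.Agent.P247.H74 Vale.Agent.P247.H574

/-! ## Continuous functions as elements of `H` -/

lemma memLp_cont {φ : R4 → ℂ} (h : Continuous φ) : MemLp φ 2 mQ := by
  obtain ⟨C, hC⟩ := isCompact_Icc.exists_bound_of_continuousOn (s := Icc (0 : R4) 1) h.continuousOn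
  exact MemLp.of_bound h.aestronglyMeasurable C (ae_restrict_of_forall_mem measurableSet_Icc hC)

open Classical in
/-- the class of a function in `H` -/
def toH (φ : R4 → ℂ) : H := if h : MemLp φ 2 mQ then h.toLp φ else 0

lemma toH_rep' {φ : R4 → ℂ} (h : MemLp φ 2 mQ) : Rep (toH φ) φ := by
  rw [toH, dif_pos h]
  exact h.coeFn_toLp

lemma toH_rep {φ : R4 → ℂ} (h : Continuous φ) : Rep (toH φ) φ := toH_rep' (memLp_cont h)

lemma Rep.eq {w w' : H} {φ : R4 → ℂ} (h : Rep w φ) (h' : Rep w' φ) : w = w' :=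
  Lp.ext (h.trans h'.symm)

lemma Rep.add {w w' : H} {φ φ' : R4 → ℂ} (h : Rep w φ) (h' : Rep w' φ') :
    Rep (w + w') (fun x => φ x + φ' x) := by
  filter_upwards [Lp.coeFn_add w w', h, h'] with x h1 h2 h3
  rw [h1, Pi.add_apply, h2, h3]

lemma Rep.sub {w w' : H} {φ φ' : R4 → ℂ} (h : Rep w φ) (h' : Rep w' φ') :
    Rep (w - w') (fun x => φ x - φ' x) := by
  filter_upwards [Lp.coeFn_sub w w', h, h'] with x h1 h2 h3
  rw [h1, Pi.sub_apply, h2, h3]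

lemma Rep.smul {w : H} {φ : R4 → ℂ} (h : Rep w φ) (c : ℂ) : Rep (c • w) (fun x => c * φ x) := by
  filter_upwards [Lp.coeFn_smul c w, h] with x h1 h2
  rw [h1, Pi.smul_apply, h2, smul_eq_mul]

lemma Rep.congr {w : H} {φ ψ : R4 → ℂ} (h : Rep w φ) (h' : ∀ x, φ x = ψ x) : Rep w ψ := by
  rw [← funext h']; exact h

lemma Rep.zero : Rep 0 (fun _ => 0) := Lp.coeFn_zero ℂ 2 mQ

lemma Rep.inner {w w' : H} {φ φ' : R4 → ℂ} (h : Rep w φ) (h' : Rep w' φ') :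
    inner ℂ w w' = ip φ φ' := by
  rw [L2.inner_def, ip]
  refine integral_congr_ae ?_
  filter_upwards [h, h'] with x h1 h2
  rw [h1, h2, RCLike.inner_apply, mul_comm]

/-! ## The Hilbert basis -/

/-- the Landau basis in `H` -/
def bv (i : Ix) : H := toH (bs i)

lemma rep_bv (i : Ix) : Rep (bv i) (bs i) := toH_rep (sec_bs i).smooth.continuous

lemma orthonormal_bv : Orthonormal ℂ bv := by
  classical
  rw [orthonormal_iff_ite]
  intro i j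
  rw [(rep_bv i).inner (rep_bv j), ip_bs]

lemma span_bv : (Submodule.span ℂ (Set.range bv))ᗮ = ⊥ := by
  rw [Submodule.eq_bot_iff]
  intro f hf
  rw [Submodule.mem_orthogonal'] at hf
  have h1 : ∀ i : Ix, ∫ x in Icc (0 : R4) 1, conj (f x) * bs i x = 0 := by
    intro i
    have h2 := hf (bv i) (Submodule.subset_span ⟨i, rfl⟩)
    rw [L2.inner_def] at h2
    rw [← h2]
    refine integral_congr_ae ?_
    filter_upwards [rep_bv i] with x hx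
    rw [hx, RCLike.inner_apply, mul_comm]
  have hm : MemLp (fun x => conj (f x)) 2 mQ := by
    have h3 := (Lp.memLp f)
    refine ⟨continuous_conj.comp_aestronglyMeasurable h3.1, ?_⟩
    refine lt_of_eq_of_lt (eLpNorm_congr_norm_ae (Eventually.of_forall fun x => ?_)) h3.2
    simp
  have h4 := eq_zero_of_bs hm h1
  refine Lp.ext ?_
  filter_upwards [h4, Lp.coeFn_zero ℂ 2 mQ] with x hx h0
  rw [h0]
  have : conj (f x) = 0 := hx
  simpa using this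

/-- the Landau Hilbert basis -/
def bas : HilbertBasis Ix ℂ H := HilbertBasis.mkOfOrthogonalEqBot orthonormal_bv span_bv

lemma bas_eq : ⇑bas = bv := HilbertBasis.coe_mkOfOrthogonalEqBot _ _

lemma rep_bas (i : Ix) : Rep (bas i) (bs i) := by rw [bas_eq]; exact rep_bv i

/-- coefficients of a section -/
lemma repr_of_rep {w : H} {φ : R4 → ℂ} (h : Rep w φ) (i : Ix) : bas.repr w i = ip (bs i) φ := by
  rw [HilbertBasis.repr_apply_apply, (rep_bas i).inner h]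

/-! ## Weighted coordinate operators on `ℓ²` -/

/-- the sequence space -/
abbrev L2 : Type := lp (fun _ : Ix => ℂ) 2

/-- the coordinate expression of a weighted coordinate operator -/
def wf (f : Ix → Ix) (S : Set Ix) (w : Ix → ℂ) (x : Ix → ℂ) (i : Ix) : ℂ :=
  S.indicator (fun i => w i * x (f i)) i

lemma summable_wf {f : Ix → Ix} {S : Set Ix} (hf : InjOn f S) {w : Ix → ℂ} {C : ℝ}
    (hC : ∀ i, ‖w i‖ ≤ C) (x : L2) :
    Summable (fun i => ‖wf f S w x i‖ ^ 2) ∧ ∑' i, ‖wf f S w x i‖ ^ 2 ≤ C ^ 2 * ‖x‖ ^ 2 := by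
  have hx : Summable fun i => ‖x i‖ ^ 2 := by
    have := (lp.memℓp x).summable (by norm_num)
    simpa using this
  have hn : ∑' i, ‖x i‖ ^ 2 = ‖x‖ ^ 2 := by
    have := lp.norm_rpow_eq_tsum (p := 2) (by norm_num) x
    simpa using this.symm
  have hinj : Function.Injective (fun i : S => f i) := fun a b hab =>
    Subtype.ext (hf a.2 b.2 hab)
  have h1 : Summable fun i : S => ‖x (f i)‖ ^ 2 := hx.comp_injective hinj
  have h2 : Summable (S.indicator fun i => ‖x (f i)‖ ^ 2) := summable_subtype_iff_indicator.1 h1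
  have h3 : ∑' i, S.indicator (fun i => ‖x (f i)‖ ^ 2) i ≤ ‖x‖ ^ 2 := by
    rw [← tsum_subtype, ← hn]
    exact tsum_comp_le_tsum_of_inj hx (fun i => by positivity) hinj
  have h4 : ∀ i, ‖wf f S w x i‖ ^ 2 ≤ C ^ 2 * S.indicator (fun i => ‖x (f i)‖ ^ 2) i := by
    intro i
    by_cases hi : i ∈ S
    · simp only [wf, indicator_of_mem hi, norm_mul, mul_pow]
      have := hC i
      gcongr
    · simp [wf, indicator_of_notMem hi]
  have h5 : Summable (fun i => ‖wf f S w x i‖ ^ 2) :=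
    Summable.of_nonneg_of_le (fun i => by positivity) h4 (h2.mul_left _)
  refine ⟨h5, (h5.tsum_le_tsum h4 (h2.mul_left _)).trans ?_⟩
  rw [tsum_mul_left]
  exact mul_le_mul_of_nonneg_left h3 (by positivity)

lemma memℓp_wf {f : Ix → Ix} {S : Set Ix} (hf : InjOn f S) {w : Ix → ℂ} {C : ℝ}
    (hC : ∀ i, ‖w i‖ ≤ C) (x : L2) : Memℓp (wf f S w x) 2 :=
  memℓp_gen (by simpa using (summable_wf hf hC x).1)

lemma wf_add (f : Ix → Ix) (S : Set Ix) (w : Ix → ℂ) (x y : Ix → ℂ) (i : Ix) :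
    wf f S w (fun i => x i + y i) i = wf f S w x i + wf f S w y i := by
  by_cases hi : i ∈ S
  · simp [wf, indicator_of_mem hi, mul_add]
  · simp [wf, indicator_of_notMem hi]

lemma wf_smul (f : Ix → Ix) (S : Set Ix) (w : Ix → ℂ) (c : ℂ) (x : Ix → ℂ) (i : Ix) :
    wf f S w (fun i => c * x i) i = c * wf f S w x i := by
  by_cases hi : i ∈ S
  · simp only [wf, indicator_of_mem hi]; ring
  · simp [wf, indicator_of_notMem hi]

open Classical in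
/-- the weighted coordinate operator `x ↦ (1_S (i) w i x (f i))` on `ℓ²` -/
def wop (f : Ix → Ix) (S : Set Ix) (w : Ix → ℂ) : L2 →L[ℂ] L2 :=
  if h : InjOn f S ∧ ∃ C : ℝ, 0 ≤ C ∧ ∀ i, ‖w i‖ ≤ C then
    LinearMap.mkContinuous
      { toFun := fun x => ⟨wf f S w x, memℓp_wf h.1 h.2.choose_spec.2 x⟩
        map_add' := fun x y => by
          ext i
          exact wf_add f S w x y i
        map_smul' := fun c x => by
          ext i
          exact wf_smul f S w c x i } h.2.choose (fun x => by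
        have h1 := (summable_wf h.1 h.2.choose_spec.2 x).2
        have h2 : ‖(⟨wf f S w x, memℓp_wf h.1 h.2.choose_spec.2 x⟩ : L2)‖ ^ 2 =
            ∑' i, ‖wf f S w x i‖ ^ 2 := by
          have := lp.norm_rpow_eq_tsum (p := 2) (by norm_num)
            (⟨wf f S w x, memℓp_wf h.1 h.2.choose_spec.2 x⟩ : L2)
          simpa using this
        rw [← h2, ← mul_pow] at h1
        exact (pow_le_pow_iff_left₀ (norm_nonneg _)
          (mul_nonneg h.2.choose_spec.1 (norm_nonneg _)) (by norm_num)).1 h1)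
  else 0

lemma wop_apply {f : Ix → Ix} {S : Set Ix} (hf : InjOn f S) {w : Ix → ℂ} {C : ℝ}
    (hC : ∀ i, ‖w i‖ ≤ C) (x : L2) (i : Ix) : wop f S w x i = wf f S w x i := by
  have h : InjOn f S ∧ ∃ C : ℝ, 0 ≤ C ∧ ∀ i, ‖w i‖ ≤ C :=
    ⟨hf, max C 0, le_max_right _ _, fun i => (hC i).trans (le_max_left _ _)⟩
  rw [wop, dif_pos h]
  rfl

lemma norm_wop_le {f : Ix → Ix} {S : Set Ix} (hf : InjOn f S) {w : Ix → ℂ} {C : ℝ} (h0 : 0 ≤ C)
    (hC : ∀ i, ‖w i‖ ≤ C) : ‖wop f S w‖ ≤ C := by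
  refine ContinuousLinearMap.opNorm_le_bound _ h0 fun x => ?_
  have h1 := (summable_wf hf hC x).2
  have h2 : ‖wop f S w x‖ ^ 2 = ∑' i, ‖wf f S w x i‖ ^ 2 := by
    have := lp.norm_rpow_eq_tsum (p := 2) (by norm_num) (wop f S w x)
    simp only [wop_apply hf hC] at this
    simpa using this
  rw [← h2, ← mul_pow] at h1
  exact (pow_le_pow_iff_left₀ (norm_nonneg _) (mul_nonneg h0 (norm_nonneg _)) (by norm_num)).1 h1

lemma wop_sub {f : Ix → Ix} {S : Set Ix} (hf : InjOn f S) {w w' : Ix → ℂ} {C : ℝ}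
    (hC : ∀ i, ‖w i‖ ≤ C) (hC' : ∀ i, ‖w' i‖ ≤ C) :
    wop f S w - wop f S w' = wop f S (fun i => w i - w' i) := by
  have hC2 : ∀ i, ‖w i - w' i‖ ≤ C + C := fun i =>
    (norm_sub_le _ _).trans (add_le_add (hC i) (hC' i))
  ext x i
  simp only [sub_apply, lp.coeFn_sub, Pi.sub_apply, wop_apply hf hC,
    wop_apply hf hC', wop_apply hf hC2]
  by_cases hi : i ∈ S
  · simp only [wf, indicator_of_mem hi]; ring
  · simp [wf, indicator_of_notMem hi]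

/-! ## The operators -/

/-- eigenvalues of `∇*∇` -/
def lam (ξ : ℝ × ℝ) (i : Ix) : ℝ :=
  2 * Real.pi * (2 * i.1 + 1) + 4 * Real.pi ^ 2 * ((i.2.1 + ξ.1) ^ 2 + (i.2.2 + ξ.2) ^ 2)

lemma lam_pos (ξ : ℝ × ℝ) (i : Ix) : 0 < lam ξ i := by
  rw [lam]; positivity

/-- `(1 + λ)^(-1/2)` -/
def mu (ξ : ℝ × ℝ) (i : Ix) : ℝ := (√(1 + lam ξ i))⁻¹

lemma mu_pos (ξ : ℝ × ℝ) (i : Ix) : 0 < mu ξ i := by
  have := lam_pos ξ i
  rw [mu]; positivity

lemma mu_sq (ξ : ℝ × ℝ) (i : Ix) : mu ξ i ^ 2 * (1 + lam ξ i) = 1 := by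
  have := lam_pos ξ i
  rw [mu, inv_pow, Real.sq_sqrt (by positivity)]
  field_simp

lemma mu_le_one (ξ : ℝ × ℝ) (i : Ix) : mu ξ i ≤ 1 := by
  have h := lam_pos ξ i
  rw [mu]
  refine inv_le_one_of_one_le₀ ?_
  rw [Real.one_le_sqrt]
  linarith

/-- a product with `μ` is bounded if its square is bounded by a multiple of `1 + λ` -/
lemma mul_mu_le (ξ : ℝ × ℝ) (i : Ix) {a K : ℝ} (hK : 0 ≤ K) (h : a ^ 2 ≤ K ^ 2 * (1 + lam ξ i)) :
    |a * mu ξ i| ≤ K := by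
  rw [← sq_le_sq₀ (abs_nonneg _) hK, sq_abs, mul_pow]
  have h1 := mu_sq ξ i
  have h2 : 0 ≤ mu ξ i ^ 2 := by positivity
  calc a ^ 2 * mu ξ i ^ 2 ≤ K ^ 2 * (1 + lam ξ i) * mu ξ i ^ 2 := by gcongr
    _ = K ^ 2 := by rw [mul_assoc, mul_comm (1 + lam ξ i), h1, mul_one]

/-- level shifts -/
def up (i : Ix) : Ix := (i.1 + 1, i.2)
def dn (i : Ix) : Ix := (i.1 - 1, i.2)

lemma up_inj : InjOn up univ := by
  rintro ⟨j, n⟩ _ ⟨j', n'⟩ _ h
  simp only [up, Prod.mk.injEq] at h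
  ext <;> simp_all

lemma dn_inj : InjOn dn {i | 1 ≤ i.1} := by
  rintro ⟨j, n⟩ h1 ⟨j', n'⟩ h2 h
  simp only [dn, Prod.mk.injEq, mem_ofPred_eq] at h h1 h2
  ext
  · simp only; omega
  · exact congrArg Prod.fst h.2
  · exact congrArg Prod.snd h.2

lemma id_inj : InjOn (id : Ix → Ix) univ := injOn_id _

/-- weights -/
def wJ (ξ : ℝ × ℝ) (i : Ix) : ℂ := (mu ξ i : ℂ)
def wA (ξ : ℝ × ℝ) (i : Ix) : ℂ := ((√(4 * Real.pi * (i.1 + 1)) * mu ξ (up i) : ℝ) : ℂ)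
def wC (ξ : ℝ × ℝ) (i : Ix) : ℂ := ((√(4 * Real.pi * i.1) * mu ξ (dn i) : ℝ) : ℂ)
def w2 (ξ : ℝ × ℝ) (i : Ix) : ℂ := I * ((2 * Real.pi * (i.2.1 + ξ.1) * mu ξ i : ℝ) : ℂ)
def w3 (ξ : ℝ × ℝ) (i : Ix) : ℂ := I * ((2 * Real.pi * (i.2.2 + ξ.2) * mu ξ i : ℝ) : ℂ)

lemma wJ_le (ξ : ℝ × ℝ) (i : Ix) : ‖wJ ξ i‖ ≤ 1 := by
  rw [wJ, norm_real, Real.norm_eq_abs, abs_of_pos (mu_pos ξ i)]
  exact mu_le_one ξ i

lemma wA_le (ξ : ℝ × ℝ) (i : Ix) : ‖wA ξ i‖ ≤ 1 := by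
  rw [wA, norm_real, Real.norm_eq_abs]
  refine mul_mu_le ξ _ zero_le_one ?_
  rw [Real.sq_sqrt (by positivity), lam, up]
  push_cast
  have h1 : 0 ≤ 4 * Real.pi ^ 2 * (((i.2.1 : ℝ) + ξ.1) ^ 2 + ((i.2.2 : ℝ) + ξ.2) ^ 2) := by
    positivity
  have h2 := Real.pi_pos
  nlinarith

lemma wC_le (ξ : ℝ × ℝ) (i : Ix) (hi : 1 ≤ i.1) : ‖wC ξ i‖ ≤ 2 := by
  rw [wC, norm_real, Real.norm_eq_abs]
  refine mul_mu_le ξ _ zero_le_two ?_
  rw [Real.sq_sqrt (by positivity), lam, dn]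
  have h1 : 0 ≤ 4 * Real.pi ^ 2 * (((i.2.1 : ℝ) + ξ.1) ^ 2 + ((i.2.2 : ℝ) + ξ.2) ^ 2) := by
    positivity
  have h2 := Real.pi_pos
  have h3 : ((i.1 - 1 : ℕ) : ℝ) = (i.1 : ℝ) - 1 := by
    rw [Nat.cast_sub hi]; simp
  have h4 : (1 : ℝ) ≤ (i.1 : ℝ) := by exact_mod_cast hi
  simp only [h3]
  nlinarith

/-- the corrected weight (`0` on the lowest level) -/
def wC' (ξ : ℝ × ℝ) (i : Ix) : ℂ := if 1 ≤ i.1 then wC ξ i else 0

lemma wC'_le (ξ : ℝ × ℝ) (i : Ix) : ‖wC' ξ i‖ ≤ 2 := by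
  rw [wC']
  split_ifs with h
  · exact wC_le ξ i h
  · simp

lemma w2_le (ξ : ℝ × ℝ) (i : Ix) : ‖w2 ξ i‖ ≤ 1 := by
  rw [w2, norm_mul, norm_I, one_mul, norm_real, Real.norm_eq_abs]
  refine mul_mu_le ξ _ zero_le_one ?_
  rw [lam]
  have h1 : 0 ≤ 4 * Real.pi ^ 2 * ((i.2.2 : ℝ) + ξ.2) ^ 2 := by positivity
  have h2 : 0 ≤ 2 * Real.pi * (2 * (i.1 : ℝ) + 1) := by positivity
  nlinarith

lemma w3_le (ξ : ℝ × ℝ) (i : Ix) : ‖w3 ξ i‖ ≤ 1 := by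
  rw [w3, norm_mul, norm_I, one_mul, norm_real, Real.norm_eq_abs]
  refine mul_mu_le ξ _ zero_le_one ?_
  rw [lam]
  have h1 : 0 ≤ 4 * Real.pi ^ 2 * ((i.2.1 : ℝ) + ξ.1) ^ 2 := by positivity
  have h2 : 0 ≤ 2 * Real.pi * (2 * (i.1 : ℝ) + 1) := by positivity
  nlinarith

/-- transport to `H` -/
def tp (T : L2 →L[ℂ] L2) : H →L[ℂ] H :=
  (bas.repr.symm.toContinuousLinearEquiv : L2 →L[ℂ] H) ∘L T ∘L
    (bas.repr.toContinuousLinearEquiv : H →L[ℂ] L2)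

lemma repr_tp (T : L2 →L[ℂ] L2) (w : H) : bas.repr (tp T w) = T (bas.repr w) := by
  simp [tp]

lemma tp_sub (T T' : L2 →L[ℂ] L2) : tp (T - T') = tp T - tp T' := by
  ext1 w
  apply bas.repr.injective
  simp [repr_tp]

lemma norm_tp_le (T : L2 →L[ℂ] L2) : ‖tp T‖ ≤ ‖T‖ := by
  refine ContinuousLinearMap.opNorm_le_bound _ (norm_nonneg _) fun w => ?_
  rw [← bas.repr.norm_map, repr_tp, ← bas.repr.norm_map w]
  exact T.le_opNorm _

/-- `(1 + ∇*∇)^(-1/2)` -/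
def Jm (ξ : ℝ × ℝ) : H →L[ℂ] H := tp (wop id univ (wJ ξ))

/-- `a J` and `a* J` -/
def Am (ξ : ℝ × ℝ) : H →L[ℂ] H := tp (wop up univ (wA ξ))
def Cm (ξ : ℝ × ℝ) : H →L[ℂ] H := tp (wop dn {i | 1 ≤ i.1} (wC' ξ))

/-- `∇ⱼ J` -/
def Gm (ξ : ℝ × ℝ) : Fin 4 → H →L[ℂ] H :=
  ![(1 / 2 : ℂ) • (Am ξ - Cm ξ), (-(I / 2) : ℂ) • (Am ξ + Cm ξ), tp (wop id univ (w2 ξ)),
    tp (wop id univ (w3 ξ))]

lemma repr_Jm (ξ : ℝ × ℝ) (w : H) (i : Ix) : bas.repr (Jm ξ w) i = mu ξ i * bas.repr w i := by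
  rw [Jm, repr_tp, wop_apply id_inj (wJ_le ξ)]
  simp [wf, wJ]

lemma repr_Am (ξ : ℝ × ℝ) (w : H) (j : ℕ) (n : ℤ × ℤ) : bas.repr (Am ξ w) (j, n) =
    ((√(4 * Real.pi * (j + 1)) * mu ξ (j + 1, n) : ℝ) : ℂ) * bas.repr w (j + 1, n) := by
  rw [Am, repr_tp, wop_apply up_inj (wA_le ξ)]
  simp [wf, wA, up]

lemma repr_Cm_zero (ξ : ℝ × ℝ) (w : H) (n : ℤ × ℤ) : bas.repr (Cm ξ w) (0, n) = 0 := by
  rw [Cm, repr_tp, wop_apply dn_inj (wC'_le ξ)]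
  simp [wf]

lemma repr_Cm_succ (ξ : ℝ × ℝ) (w : H) (j : ℕ) (n : ℤ × ℤ) : bas.repr (Cm ξ w) (j + 1, n) =
    ((√(4 * Real.pi * (j + 1)) * mu ξ (j, n) : ℝ) : ℂ) * bas.repr w (j, n) := by
  rw [Cm, repr_tp, wop_apply dn_inj (wC'_le ξ)]
  have h : ((j + 1, n) : Ix) ∈ {i : Ix | 1 ≤ i.1} := Nat.le_add_left 1 j
  have h2 : dn (j + 1, n) = (j, n) := rfl
  have h3 : (((j + 1 : ℕ) : ℝ)) = (j : ℝ) + 1 := by push_cast; rfl
  rw [wf, indicator_of_mem h, wC', if_pos (show 1 ≤ ((j + 1, n) : Ix).1 from Nat.le_add_left 1 j),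
    wC, h2, h3]

lemma Gm_zero (ξ : ℝ × ℝ) : Gm ξ 0 = (1 / 2 : ℂ) • (Am ξ - Cm ξ) := rfl
lemma Gm_one (ξ : ℝ × ℝ) : Gm ξ 1 = (-(I / 2) : ℂ) • (Am ξ + Cm ξ) := rfl

lemma repr_Gm_two (ξ : ℝ × ℝ) (w : H) (i : Ix) : bas.repr (Gm ξ 2 w) i =
    I * ((2 * Real.pi * (i.2.1 + ξ.1) * mu ξ i : ℝ) : ℂ) * bas.repr w i := by
  have h : Gm ξ 2 = tp (wop id univ (w2 ξ)) := rfl
  rw [h, repr_tp, wop_apply id_inj (w2_le ξ)]
  simp [wf, w2]

lemma repr_Gm_three (ξ : ℝ × ℝ) (w : H) (i : Ix) : bas.repr (Gm ξ 3 w) i =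
    I * ((2 * Real.pi * (i.2.2 + ξ.2) * mu ξ i : ℝ) : ℂ) * bas.repr w i := by
  have h : Gm ξ 3 = tp (wop id univ (w3 ξ)) := rfl
  rw [h, repr_tp, wop_apply id_inj (w3_le ξ)]
  simp [wf, w3]

/-- `a J = G₀ + i G₁` and `a* J = -G₀ + i G₁` -/
lemma Am_eq (ξ : ℝ × ℝ) (w : H) : Gm ξ 0 w + I • Gm ξ 1 w = Am ξ w := by
  rw [Gm_zero, Gm_one]
  simp only [smul_apply, sub_apply,
    add_apply, smul_smul]
  have : I * -(I / 2) = (1 / 2 : ℂ) := by linear_combination (-1 / 2 : ℂ) * I_mul_I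
  rw [this]
  module

lemma Cm_eq (ξ : ℝ × ℝ) (w : H) : -Gm ξ 0 w + I • Gm ξ 1 w = Cm ξ w := by
  rw [Gm_zero, Gm_one]
  simp only [smul_apply, sub_apply,
    add_apply, smul_smul]
  have : I * -(I / 2) = (1 / 2 : ℂ) := by linear_combination (-1 / 2 : ℂ) * I_mul_I
  rw [this]
  module

end Vale.Agent.P247.H957
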