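import Vale.Agent.P247.H957.Fl5

/-!
# The operators `J ξ`, `G ξ j`: injectivity, norm identity, sections, density, periodicity
-/

open scoped ContDiff Topology ComplexConjugate ENNReal
open Set MeasureTheory Filter Metric Complex

noncomputable section

namespace Vale.Agent.P247.H957

open Vale.Agent.P247.H74 Vale.Agent.P247.H574

/-! ## Multiplication operators -/

lemma mulOp_exists {f : R4 → ℂ} (hf : Continuous f) :
    ∃ M : H →L[ℂ] H, ∀ w : H, M w =ᵐ[mQ] fun x => f x * w x := by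
  obtain ⟨C, hC⟩ := isCompact_Icc.exists_bound_of_continuousOn (s := Icc (0 : R4) 1)
    hf.continuousOn
  have hm : ∀ w : H, MemLp (fun x => f x * w x) 2 mQ := fun w => memLp_mul_cont (Lp.memLp w) hf
  refine ⟨LinearMap.mkContinuous
    { toFun := fun w => (hm w).toLp _
      map_add' := fun w w' => ?_
      map_smul' := fun c w => ?_ } C (fun w => ?_), fun w => (hm w).coeFn_toLp⟩
  · refine Lp.ext ?_
    filter_upwards [(hm (w + w')).coeFn_toLp, (hm w).coeFn_toLp, (hm w').coeFn_toLp,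
      Lp.coeFn_add w w', Lp.coeFn_add ((hm w).toLp _) ((hm w').toLp _)] with x h1 h2 h3 h4 h5
    rw [h1, h5, Pi.add_apply, h2, h3, h4, Pi.add_apply, mul_add]
  · refine Lp.ext ?_
    filter_upwards [(hm (c • w)).coeFn_toLp, (hm w).coeFn_toLp,
      Lp.coeFn_smul c w, Lp.coeFn_smul c ((hm w).toLp _)] with x h1 h2 h3 h4
    simp only [RingHom.id_apply]
    rw [h1, h4, Pi.smul_apply, h2, h3, Pi.smul_apply, smul_eq_mul, smul_eq_mul]
    ring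
  · refine Lp.norm_le_mul_norm_of_ae_le_mul ?_
    filter_upwards [(hm w).coeFn_toLp, ae_restrict_of_forall_mem measurableSet_Icc hC]
      with x h1 h2
    have h3 : ((hm w).toLp _ : R4 → ℂ) x = f x * w x := h1
    change ‖((hm w).toLp _ : R4 → ℂ) x‖ ≤ C * ‖w x‖
    rw [h3, norm_mul]
    exact mul_le_mul_of_nonneg_right h2 (norm_nonneg _)

lemma mulOp_coe {f : R4 → ℂ} (hf : Continuous f) (w : H) : Rep (mulOp f w) (fun x => f x * w x) := by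
  have h := mulOp_exists hf
  rw [mulOp, dif_pos h]
  exact h.choose_spec w

lemma rep_mul {f : R4 → ℂ} (hf : Continuous f) {w : H} {φ : R4 → ℂ} (h : Rep w φ) :
    Rep (mulOp f w) (fun x => f x * φ x) := by
  filter_upwards [mulOp_coe hf w, h] with x h1 h2
  rw [h1, h2]

/-! ## Coefficients -/

lemma ext_repr {w w' : H} (h : ∀ i, bas.repr w i = bas.repr w' i) : w = w' := by
  apply bas.repr.injective
  ext i
  exact h i

lemma norm_sq_repr (w : H) : Summable (fun i => ‖bas.repr w i‖ ^ 2) ∧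
    ‖w‖ ^ 2 = ∑' i, ‖bas.repr w i‖ ^ 2 := by
  constructor
  · have := (lp.memℓp (bas.repr w)).summable (by norm_num)
    simpa using this
  · have := lp.norm_rpow_eq_tsum (p := 2) (by norm_num) (bas.repr w)
    rw [bas.repr.norm_map] at this
    simpa using this

lemma Jm_injective (ξ : ℝ × ℝ) : Function.Injective (Jm ξ) := by
  intro w w' h
  refine ext_repr fun i => ?_
  have h1 : bas.repr (Jm ξ w) i = bas.repr (Jm ξ w') i := by rw [h]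
  rw [repr_Jm, repr_Jm] at h1
  have h2 : (mu ξ i : ℂ) ≠ 0 := by exact_mod_cast (mu_pos ξ i).ne'
  exact mul_left_cancel₀ h2 h1

/-! ## Sections -/

/-- `1 + ∇*∇` -/
def TT (ξ : ℝ × ℝ) (φ : R4 → ℂ) (x : R4) : ℂ :=
  φ x + ((1 / 2 : ℂ) * (ann (cre φ) x + cre (ann φ) x) + (-nb ξ 2 (nb ξ 2 φ) x + -nb ξ 3 (nb ξ 3 φ) x))

lemma Sec.TT {φ : R4 → ℂ} (h : Sec φ) (ξ : ℝ × ℝ) : Sec (TT ξ φ) :=
  h.add (((h.cre.ann.add h.ann.cre).const_mul _).add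
    (((h.nb ξ 2).nb ξ 2).neg.add ((h.nb ξ 3).nb ξ 3).neg))

lemma ip_neg_right (φ ψ : R4 → ℂ) : ip φ (fun x => -ψ x) = - ip φ ψ := by
  have := ip_mul_right (-1) φ ψ
  simpa using this

lemma ip_neg_left (φ ψ : R4 → ℂ) : ip (fun x => -φ x) ψ = - ip φ ψ := by
  have := ip_mul_left (-1) φ ψ
  simpa using this

lemma ip_TT {φ ψ : R4 → ℂ} (h : Sec φ) (h' : Sec ψ) (ξ : ℝ × ℝ) :
    ip φ (TT ξ ψ) = ip (TT ξ φ) ψ := by
  have e1 : ip φ (TT ξ ψ) = ip φ ψ + ((1 / 2 : ℂ) * (ip φ (ann (cre ψ)) + ip φ (cre (ann ψ))) +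
      (- ip φ (nb ξ 2 (nb ξ 2 ψ)) + - ip φ (nb ξ 3 (nb ξ 3 ψ)))) := by
    have a1 := ip_add_right h h' (((h'.cre.ann.add h'.ann.cre).const_mul (1 / 2)).add
      (((h'.nb ξ 2).nb ξ 2).neg.add ((h'.nb ξ 3).nb ξ 3).neg))
    have a2 := ip_add_right h ((h'.cre.ann.add h'.ann.cre).const_mul (1 / 2))
      (((h'.nb ξ 2).nb ξ 2).neg.add ((h'.nb ξ 3).nb ξ 3).neg)
    have a3 := ip_mul_right (1 / 2) φ (fun x => ann (cre ψ) x + cre (ann ψ) x)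
    have a4 := ip_add_right h h'.cre.ann h'.ann.cre
    have a5 := ip_add_right h ((h'.nb ξ 2).nb ξ 2).neg ((h'.nb ξ 3).nb ξ 3).neg
    rw [ip_neg_right, ip_neg_right] at a5
    exact a1.trans (by rw [a2, a3, a4, a5])
  have e2 : ip (TT ξ φ) ψ = ip φ ψ + ((1 / 2 : ℂ) * (ip (ann (cre φ)) ψ + ip (cre (ann φ)) ψ) +
      (- ip (nb ξ 2 (nb ξ 2 φ)) ψ + - ip (nb ξ 3 (nb ξ 3 φ)) ψ)) := by
    have a1 := ip_add_left h (((h.cre.ann.add h.ann.cre).const_mul (1 / 2)).add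
      (((h.nb ξ 2).nb ξ 2).neg.add ((h.nb ξ 3).nb ξ 3).neg)) h'
    have a2 := ip_add_left ((h.cre.ann.add h.ann.cre).const_mul (1 / 2))
      (((h.nb ξ 2).nb ξ 2).neg.add ((h.nb ξ 3).nb ξ 3).neg) h'
    have a3 := ip_mul_left (1 / 2) (fun x => ann (cre φ) x + cre (ann φ) x) ψ
    have a4 := ip_add_left h.cre.ann h.ann.cre h'
    have a5 := ip_add_left ((h.nb ξ 2).nb ξ 2).neg ((h.nb ξ 3).nb ξ 3).neg h'
    rw [ip_neg_left, ip_neg_left] at a5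
    have a6 : conj (1 / 2 : ℂ) = 1 / 2 := by simp [map_ofNat]
    rw [a6] at a3
    exact a1.trans (by rw [a2, a3, a4, a5])
  have b1 : ip φ (ann (cre ψ)) = ip (ann (cre φ)) ψ := by
    rw [← ip_cre h h'.cre, ← ip_ann h.cre h']
  have b2 : ip φ (cre (ann ψ)) = ip (cre (ann φ)) ψ := by
    rw [← ip_ann h h'.ann, ← ip_cre h.ann h']
  have b3 : ∀ j, ip φ (nb ξ j (nb ξ j ψ)) = ip (nb ξ j (nb ξ j φ)) ψ := by
    intro j
    rw [ip_nb (h.nb ξ j) h' ξ j, ip_nb h (h'.nb ξ j) ξ j, neg_neg]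
  rw [e1, e2, b1, b2, b3, b3]

lemma ann_congr {φ ψ : R4 → ℂ} (h : ∀ x, φ x = ψ x) (x : R4) : ann φ x = ann ψ x := by
  rw [funext h]

lemma cre_congr {φ ψ : R4 → ℂ} (h : ∀ x, φ x = ψ x) (x : R4) : cre φ x = cre ψ x := by
  rw [funext h]

lemma cre_ann_bs (i : Ix) (x : R4) : cre (ann (bs i)) x = (4 * Real.pi * i.1) * bs i x := by
  obtain ⟨j, n⟩ := i
  cases j with
  | zero =>
    rw [cre_congr (ann_bs_zero n), cre_zero]
    simp
  | succ j =>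
    rw [cre_congr (ann_bs_succ j n), cre_mul_const _ (sec_bs (j, n)).smooth, cre_bs_eq, ← mul_assoc,
      ← ofReal_mul, Real.mul_self_sqrt (by positivity)]
    push_cast
    ring

lemma TT_bs (ξ : ℝ × ℝ) (i : Ix) (x : R4) : TT ξ (bs i) x = ((1 + lam ξ i : ℝ) : ℂ) * bs i x := by
  have h2 : nb ξ 2 (nb ξ 2 (bs i)) x = (2 * Real.pi * I * (i.2.1 + ξ.1)) ^ 2 * bs i x := by
    rw [nb_congr (nb2_bs ξ i), nb_const_mul ξ 2 _ (sec_bs i).smooth, nb2_bs]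
    ring
  have h3 : nb ξ 3 (nb ξ 3 (bs i)) x = (2 * Real.pi * I * (i.2.2 + ξ.2)) ^ 2 * bs i x := by
    rw [nb_congr (nb3_bs ξ i), nb_const_mul ξ 3 _ (sec_bs i).smooth, nb3_bs]
    ring
  rw [TT, ann_cre (sec_bs i).smooth, cre_ann_bs, h2, h3, lam]
  push_cast
  linear_combination (-(2 * Real.pi * (i.2.1 + ξ.1)) ^ 2 * bs i x
    - (2 * Real.pi * (i.2.2 + ξ.2)) ^ 2 * bs i x) * I_mul_I

lemma ip_bs_TT {φ : R4 → ℂ} (h : Sec φ) (ξ : ℝ × ℝ) (i : Ix) :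
    ip (bs i) (TT ξ φ) = ((1 + lam ξ i : ℝ) : ℂ) * ip (bs i) φ := by
  rw [ip_TT (sec_bs i) h, funext (TT_bs ξ i), ip_mul_left, conj_ofReal]

/-- the preimage of a section under `J` -/
def pre (ξ : ℝ × ℝ) (φ : R4 → ℂ) : H := Jm ξ (toH (TT ξ φ))

lemma rep_toH {φ : R4 → ℂ} (h : Sec φ) : Rep (toH φ) φ := toH_rep h.smooth.continuous

lemma repr_pre {φ : R4 → ℂ} (h : Sec φ) (ξ : ℝ × ℝ) (i : Ix) :
    bas.repr (pre ξ φ) i = ((mu ξ i * (1 + lam ξ i) : ℝ) : ℂ) * ip (bs i) φ := by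
  rw [pre, repr_Jm, repr_of_rep (rep_toH (h.TT ξ)), ip_bs_TT h]
  push_cast
  ring

lemma mu_mu (ξ : ℝ × ℝ) (i : Ix) (z : ℂ) :
    (mu ξ i : ℂ) * (((mu ξ i * (1 + lam ξ i) : ℝ) : ℂ) * z) = z := by
  have h := mu_sq ξ i
  have h2 : (mu ξ i : ℂ) * ((mu ξ i * (1 + lam ξ i) : ℝ) : ℂ) = 1 := by
    rw [← ofReal_mul, ← mul_assoc, ← sq, h]; simp
  rw [← mul_assoc, h2, one_mul]

lemma Jm_pre {φ : R4 → ℂ} (h : Sec φ) (ξ : ℝ × ℝ) : Jm ξ (pre ξ φ) = toH φ := by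
  refine ext_repr fun i => ?_
  rw [repr_Jm, repr_pre h, mu_mu, repr_of_rep (rep_toH h)]

lemma Am_pre {φ : R4 → ℂ} (h : Sec φ) (ξ : ℝ × ℝ) : Am ξ (pre ξ φ) = toH (ann φ) := by
  refine ext_repr fun i => ?_
  obtain ⟨j, n⟩ := i
  rw [repr_Am, repr_pre h, repr_of_rep (rep_toH h.ann), ← ip_cre (sec_bs (j, n)) h,
    funext (cre_bs_eq j n), ip_mul_left, conj_ofReal, ofReal_mul, mul_assoc, mu_mu]

lemma Cm_pre {φ : R4 → ℂ} (h : Sec φ) (ξ : ℝ × ℝ) : Cm ξ (pre ξ φ) = toH (cre φ) := by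
  refine ext_repr fun i => ?_
  obtain ⟨j, n⟩ := i
  cases j with
  | zero =>
    rw [repr_Cm_zero, repr_of_rep (rep_toH h.cre), ← ip_ann (sec_bs (0, n)) h,
      funext (ann_bs_zero n), ip_zero_left]
  | succ j =>
    rw [repr_Cm_succ, repr_pre h, repr_of_rep (rep_toH h.cre), ← ip_ann (sec_bs (j + 1, n)) h,
      funext (ann_bs_succ j n), ip_mul_left, conj_ofReal, ofReal_mul, mul_assoc, mu_mu]

lemma Gm2_pre {φ : R4 → ℂ} (h : Sec φ) (ξ : ℝ × ℝ) : Gm ξ 2 (pre ξ φ) = toH (nb ξ 2 φ) := by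
  refine ext_repr fun i => ?_
  have h1 := ip_nb (sec_bs i) h ξ 2
  rw [funext (nb2_bs ξ i), ip_mul_left] at h1
  have h2 : conj (2 * Real.pi * I * (i.2.1 + ξ.1) : ℂ) = -(I * ((2 * Real.pi * (i.2.1 + ξ.1) : ℝ) : ℂ)) := by
    simp only [map_mul, map_add, conj_I, conj_ofReal, map_ofNat, map_intCast]
    push_cast
    ring
  rw [h2] at h1
  rw [repr_Gm_two, repr_pre h, repr_of_rep (rep_toH (h.nb ξ 2)), ofReal_mul, mul_assoc, mul_assoc,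
    mu_mu]
  linear_combination -h1

lemma Gm3_pre {φ : R4 → ℂ} (h : Sec φ) (ξ : ℝ × ℝ) : Gm ξ 3 (pre ξ φ) = toH (nb ξ 3 φ) := by
  refine ext_repr fun i => ?_
  have h1 := ip_nb (sec_bs i) h ξ 3
  rw [funext (nb3_bs ξ i), ip_mul_left] at h1
  have h2 : conj (2 * Real.pi * I * (i.2.2 + ξ.2) : ℂ) = -(I * ((2 * Real.pi * (i.2.2 + ξ.2) : ℝ) : ℂ)) := by
    simp only [map_mul, map_add, conj_I, conj_ofReal, map_ofNat, map_intCast]
    push_cast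
    ring
  rw [h2] at h1
  rw [repr_Gm_three, repr_pre h, repr_of_rep (rep_toH (h.nb ξ 3)), ofReal_mul, mul_assoc, mul_assoc,
    mu_mu]
  linear_combination -h1

lemma Gm_pre {φ : R4 → ℂ} (h : Sec φ) (ξ : ℝ × ℝ) (j : Fin 4) :
    Rep (Gm ξ j (pre ξ φ)) (nb ξ j φ) := by
  have hA := rep_toH h.ann
  have hC := rep_toH h.cre
  fin_cases j
  · change Rep (Gm ξ 0 (pre ξ φ)) (nb ξ 0 φ)
    have e1 : Gm ξ 0 (pre ξ φ) = (1 / 2 : ℂ) • (toH (ann φ) - toH (cre φ)) := by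
      rw [Gm_zero, smul_apply, sub_apply, Am_pre h, Cm_pre h]
    rw [e1, nb_zero]
    refine ((hA.sub hC).smul (1 / 2)).congr fun x => ?_
    rw [ann, cre]; ring
  · change Rep (Gm ξ 1 (pre ξ φ)) (nb ξ 1 φ)
    have e1 : Gm ξ 1 (pre ξ φ) = (-(I / 2) : ℂ) • (toH (ann φ) + toH (cre φ)) := by
      rw [Gm_one, smul_apply, add_apply, Am_pre h, Cm_pre h]
    rw [e1, nb_one]
    refine ((hA.add hC).smul (-(I / 2))).congr fun x => ?_
    rw [ann, cre]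
    linear_combination (-nb 0 1 φ x) * I_mul_I
  · change Rep (Gm ξ 2 (pre ξ φ)) (nb ξ 2 φ)
    rw [Gm2_pre h]; exact rep_toH (h.nb ξ 2)
  · change Rep (Gm ξ 3 (pre ξ φ)) (nb ξ 3 φ)
    rw [Gm3_pre h]; exact rep_toH (h.nb ξ 3)

/-- every `w` with `J w` a smooth section is `pre` -/
lemma eq_pre {w : H} {ξ : ℝ × ℝ} {φ : R4 → ℂ} (h : Sec φ) (hw : Rep (Jm ξ w) φ) : w = pre ξ φ := by
  apply Jm_injective ξ
  rw [Jm_pre h]
  exact hw.eq (rep_toH h)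

theorem Jm_sec (ξ : ℝ × ℝ) (φ : R4 → ℂ) (h : Sec φ) :
    ∃ w : H, Rep (Jm ξ w) φ ∧ ∀ j, Rep (Gm ξ j w) (nb ξ j φ) :=
  ⟨pre ξ φ, by rw [Jm_pre h]; exact rep_toH h, fun j => Gm_pre h ξ j⟩

lemma dense_span_bas : Dense (Submodule.span ℂ (Set.range bas) : Set H) := by
  rw [dense_iff_closure_eq, ← Submodule.topologicalClosure_coe, bas.dense_span]
  rfl

/-- the submodule of `w` with `J w` a smooth section -/
def SM (ξ : ℝ × ℝ) : Submodule ℂ H where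
  carrier := {w | ∃ φ, Sec φ ∧ Rep (Jm ξ w) φ}
  add_mem' := by
    rintro w w' ⟨φ, h, hr⟩ ⟨φ', h', hr'⟩
    refine ⟨fun x => φ x + φ' x, h.add h', ?_⟩
    rw [map_add]; exact hr.add hr'
  zero_mem' := ⟨fun _ => 0, Sec.zero, by rw [map_zero]; exact Rep.zero⟩
  smul_mem' := by
    rintro c w ⟨φ, h, hr⟩
    refine ⟨fun x => c * φ x, h.const_mul c, ?_⟩
    rw [map_smul]; exact hr.smul c

lemma repr_bas (i i' : Ix) : bas.repr (bas i) i' = if i' = i then 1 else 0 := by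
  rw [repr_of_rep (rep_bas i), ip_bs]

lemma Jm_bas (ξ : ℝ × ℝ) (i : Ix) : Jm ξ (bas i) = (mu ξ i : ℂ) • bas i := by
  refine ext_repr fun i' => ?_
  rw [repr_Jm, map_smul]
  simp only [lp.coeFn_smul, Pi.smul_apply, smul_eq_mul, repr_bas]
  split_ifs with h
  · rw [h]
  · simp

lemma dense_SM (ξ : ℝ × ℝ) : Dense (SM ξ : Set H) := by
  have h1 : Submodule.span ℂ (Set.range bas) ≤ SM ξ := by
    rw [Submodule.span_le]
    rintro _ ⟨i, rfl⟩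
    refine ⟨fun x => (mu ξ i : ℂ) * bs i x, (sec_bs i).const_mul _, ?_⟩
    rw [Jm_bas]
    exact (rep_bas i).smul _
  exact dense_span_bas.mono h1

theorem Jm_dense (ξ : ℝ × ℝ) : Dense {w : H | ∃ φ, Sec φ ∧ Rep (Jm ξ w) φ ∧
    ∀ j, Rep (Gm ξ j w) (nb ξ j φ)} := by
  refine (dense_SM ξ).mono ?_
  rintro w ⟨φ, h, hr⟩
  refine ⟨φ, h, hr, fun j => ?_⟩
  rw [eq_pre h hr]
  exact Gm_pre h ξ j

/-! ## Periodicity -/

lemma mulOp_vx_bas (a b : ℤ) (i : Ix) : mulOp (vx ((a : ℝ), (b : ℝ))) (bas i) =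
    bas (i.1, i.2.1 + a, i.2.2 + b) := by
  refine (rep_mul (contDiff_vx _).continuous (rep_bas i)).eq ((rep_bas _).congr fun x => ?_)
  rw [bs, bs]
  have h : (((i.2.1 + a : ℤ) : ℝ), ((i.2.2 + b : ℤ) : ℝ)) =
      (((a : ℤ) : ℝ), ((b : ℤ) : ℝ)) + ((i.2.1 : ℝ), (i.2.2 : ℝ)) := by
    ext <;> simp [add_comm]
  simp only [h, vx_add]
  ring

lemma ext_bas {T T' : H →L[ℂ] H} (h : ∀ i, T (bas i) = T' (bas i)) : T = T' := by
  refine ContinuousLinearMap.ext_on dense_span_bas ?_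
  rintro _ ⟨i, rfl⟩
  exact h i

theorem Jm_per (ξ : ℝ × ℝ) (m n : ℤ) : mulOp (vx (m, n)) ∘L Jm (ξ + ((m : ℝ), (n : ℝ))) =
    Jm ξ ∘L mulOp (vx (m, n)) := by
  refine ext_bas fun i => ?_
  simp only [ContinuousLinearMap.comp_apply]
  rw [mulOp_vx_bas, Jm_bas, Jm_bas, map_smul, mulOp_vx_bas]
  congr 2
  simp only [mu, lam, Prod.fst_add, Prod.snd_add]
  push_cast
  ring_nf

theorem Gm_per (ξ : ℝ × ℝ) (m n : ℤ) (j : Fin 4) :
    mulOp (vx (m, n)) ∘L Gm (ξ + ((m : ℝ), (n : ℝ))) j = Gm ξ j ∘L mulOp (vx (m, n)) := by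
  refine DFunLike.coe_injective ?_
  refine Continuous.ext_on (dense_SM (ξ + ((m : ℝ), (n : ℝ)))) (ContinuousLinearMap.continuous _)
    (ContinuousLinearMap.continuous _) ?_
  rintro w ⟨φ, h, hr⟩
  have hv := h.vx (m, n)
  have h1 : Rep (mulOp (vx ((m : ℝ), (n : ℝ))) (Jm (ξ + ((m : ℝ), (n : ℝ))) w))
      (fun x => vx ((m : ℝ), (n : ℝ)) x * φ x) := rep_mul (contDiff_vx _).continuous hr
  have h2 : mulOp (vx ((m : ℝ), (n : ℝ))) (Jm (ξ + ((m : ℝ), (n : ℝ))) w) =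
      Jm ξ (mulOp (vx ((m : ℝ), (n : ℝ))) w) := by
    have := congrArg (fun T : H →L[ℂ] H => T w) (Jm_per ξ m n)
    simpa using this
  rw [h2] at h1
  have h3 := eq_pre hv h1
  have h4 : Rep (Gm ξ j (mulOp (vx ((m : ℝ), (n : ℝ))) w))
      (nb ξ j (fun x => vx ((m : ℝ), (n : ℝ)) x * φ x)) := by
    rw [h3]; exact Gm_pre hv ξ j
  have h5 : Rep (Gm (ξ + ((m : ℝ), (n : ℝ))) j w) (nb (ξ + ((m : ℝ), (n : ℝ))) j φ) := by
    rw [eq_pre h hr]; exact Gm_pre h _ j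
  have h6 : Rep (mulOp (vx ((m : ℝ), (n : ℝ))) (Gm (ξ + ((m : ℝ), (n : ℝ))) j w))
      (nb ξ j (fun x => vx ((m : ℝ), (n : ℝ)) x * φ x)) :=
    (rep_mul (contDiff_vx _).continuous h5).congr fun x => (nb_vx ξ _ j h.smooth x).symm
  exact h6.eq h4

/-! ## The norm identity -/

lemma tsum_up {f : Ix → ℝ} (hf : ∀ n, f (0, n) = 0) : ∑' i, f (up i) = ∑' i, f i := by
  have hinj : Function.Injective up := fun a b h => up_inj (mem_univ a) (mem_univ b) h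
  refine hinj.tsum_eq fun i hi => ?_
  obtain ⟨j, n⟩ := i
  cases j with
  | zero => exact absurd (hf n) hi
  | succ j => exact ⟨(j, n), rfl⟩

lemma norm_Am (ξ : ℝ × ℝ) (w : H) : ‖Am ξ w‖ ^ 2 =
    ∑' i : Ix, 4 * Real.pi * i.1 * (mu ξ i ^ 2 * ‖bas.repr w i‖ ^ 2) := by
  rw [(norm_sq_repr _).2, ← tsum_up (f := fun i : Ix =>
    4 * Real.pi * i.1 * (mu ξ i ^ 2 * ‖bas.repr w i‖ ^ 2)) (by intro n; simp)]
  refine tsum_congr fun i => ?_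
  obtain ⟨j, n⟩ := i
  rw [repr_Am, norm_mul, norm_real, Real.norm_eq_abs, mul_pow, sq_abs, mul_pow,
    Real.sq_sqrt (by positivity)]
  simp only [up]
  push_cast
  ring

lemma norm_Cm (ξ : ℝ × ℝ) (w : H) : ‖Cm ξ w‖ ^ 2 =
    ∑' i : Ix, 4 * Real.pi * (i.1 + 1) * (mu ξ i ^ 2 * ‖bas.repr w i‖ ^ 2) := by
  rw [(norm_sq_repr _).2, ← tsum_up (f := fun i : Ix => ‖bas.repr (Cm ξ w) i‖ ^ 2) (by
    intro n; simp [repr_Cm_zero])]
  refine tsum_congr fun i => ?_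
  obtain ⟨j, n⟩ := i
  have h := repr_Cm_succ ξ w j n
  simp only [up]
  rw [h, norm_mul, norm_real, Real.norm_eq_abs, mul_pow, sq_abs, mul_pow,
    Real.sq_sqrt (by positivity)]
  ring

lemma summable_mu (ξ : ℝ × ℝ) (w : H) {c : Ix → ℝ} (h0 : ∀ i, 0 ≤ c i) {K : ℝ}
    (h : ∀ i, c i ≤ K * (1 + lam ξ i)) :
    Summable fun i : Ix => c i * (mu ξ i ^ 2 * ‖bas.repr w i‖ ^ 2) := by
  refine Summable.of_nonneg_of_le (fun i => by have := h0 i; positivity) (fun i => ?_)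
    ((norm_sq_repr w).1.mul_left K)
  have h1 := mu_sq ξ i
  have h2 : 0 ≤ mu ξ i ^ 2 * ‖bas.repr w i‖ ^ 2 := by positivity
  calc c i * (mu ξ i ^ 2 * ‖bas.repr w i‖ ^ 2)
      ≤ K * (1 + lam ξ i) * (mu ξ i ^ 2 * ‖bas.repr w i‖ ^ 2) := by
        exact mul_le_mul_of_nonneg_right (h i) h2
    _ = K * ‖bas.repr w i‖ ^ 2 * (mu ξ i ^ 2 * (1 + lam ξ i)) := by ring
    _ = K * ‖bas.repr w i‖ ^ 2 := by rw [h1, mul_one]

theorem Jm_norm (ξ : ℝ × ℝ) (w : H) : ‖w‖ ^ 2 = ‖Jm ξ w‖ ^ 2 + ∑ j, ‖Gm ξ j w‖ ^ 2 := by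
  have hJ : ‖Jm ξ w‖ ^ 2 = ∑' i : Ix, 1 * (mu ξ i ^ 2 * ‖bas.repr w i‖ ^ 2) := by
    rw [(norm_sq_repr _).2]
    refine tsum_congr fun i => ?_
    rw [repr_Jm, norm_mul, norm_real, Real.norm_eq_abs, mul_pow, sq_abs, one_mul]
  have h2 : ‖Gm ξ 2 w‖ ^ 2 = ∑' i : Ix, (2 * Real.pi * (i.2.1 + ξ.1)) ^ 2 *
      (mu ξ i ^ 2 * ‖bas.repr w i‖ ^ 2) := by
    rw [(norm_sq_repr _).2]
    refine tsum_congr fun i => ?_
    rw [repr_Gm_two, norm_mul, norm_mul, norm_I, norm_real, Real.norm_eq_abs, one_mul, mul_pow,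
      sq_abs]
    ring
  have h3 : ‖Gm ξ 3 w‖ ^ 2 = ∑' i : Ix, (2 * Real.pi * (i.2.2 + ξ.2)) ^ 2 *
      (mu ξ i ^ 2 * ‖bas.repr w i‖ ^ 2) := by
    rw [(norm_sq_repr _).2]
    refine tsum_congr fun i => ?_
    rw [repr_Gm_three, norm_mul, norm_mul, norm_I, norm_real, Real.norm_eq_abs, one_mul, mul_pow,
      sq_abs]
    ring
  have h01 : ‖Gm ξ 0 w‖ ^ 2 + ‖Gm ξ 1 w‖ ^ 2 = (‖Am ξ w‖ ^ 2 + ‖Cm ξ w‖ ^ 2) / 2 := by
    have hp := parallelogram_law_with_norm ℂ (Am ξ w) (Cm ξ w)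
    rw [Gm_zero, Gm_one, smul_apply, smul_apply, sub_apply, add_apply, norm_smul, norm_smul]
    have e1 : ‖(1 / 2 : ℂ)‖ = 1 / 2 := by simp
    have e2 : ‖(-(I / 2) : ℂ)‖ = 1 / 2 := by simp
    rw [e1, e2]
    linarith
  have hpi := Real.pi_pos
  have s1 : Summable fun i : Ix => 1 * (mu ξ i ^ 2 * ‖bas.repr w i‖ ^ 2) :=
    summable_mu ξ w (K := 1) (fun i => zero_le_one) fun i => by
      have := lam_pos ξ i; linarith
  have s2 : Summable fun i : Ix => (2 * Real.pi * (i.2.1 + ξ.1)) ^ 2 *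
      (mu ξ i ^ 2 * ‖bas.repr w i‖ ^ 2) :=
    summable_mu ξ w (K := 1) (fun i => by positivity) fun i => by
      rw [lam]
      have : 0 ≤ 2 * Real.pi * (2 * (i.1 : ℝ) + 1) := by positivity
      have : 0 ≤ 4 * Real.pi ^ 2 * ((i.2.2 : ℝ) + ξ.2) ^ 2 := by positivity
      nlinarith
  have s3 : Summable fun i : Ix => (2 * Real.pi * (i.2.2 + ξ.2)) ^ 2 *
      (mu ξ i ^ 2 * ‖bas.repr w i‖ ^ 2) :=
    summable_mu ξ w (K := 1) (fun i => by positivity) fun i => by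
      rw [lam]
      have : 0 ≤ 2 * Real.pi * (2 * (i.1 : ℝ) + 1) := by positivity
      have : 0 ≤ 4 * Real.pi ^ 2 * ((i.2.1 : ℝ) + ξ.1) ^ 2 := by positivity
      nlinarith
  have sA : Summable fun i : Ix => 4 * Real.pi * i.1 * (mu ξ i ^ 2 * ‖bas.repr w i‖ ^ 2) :=
    summable_mu ξ w (K := 1) (fun i => by positivity) fun i => by
      rw [lam]
      have : 0 ≤ 4 * Real.pi ^ 2 * (((i.2.1 : ℝ) + ξ.1) ^ 2 + ((i.2.2 : ℝ) + ξ.2) ^ 2) := by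
        positivity
      nlinarith
  have sC : Summable fun i : Ix => 4 * Real.pi * (i.1 + 1) *
      (mu ξ i ^ 2 * ‖bas.repr w i‖ ^ 2) :=
    summable_mu ξ w (K := 2) (fun i => by positivity) fun i => by
      rw [lam]
      have : 0 ≤ 4 * Real.pi ^ 2 * (((i.2.1 : ℝ) + ξ.1) ^ 2 + ((i.2.2 : ℝ) + ξ.2) ^ 2) := by
        positivity
      have : 0 ≤ Real.pi * (i.1 : ℝ) := by positivity
      nlinarith
  rw [Fin.sum_univ_four, h01, norm_Am, norm_Cm, hJ, h2, h3, (norm_sq_repr w).2,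
    ← sA.tsum_add sC, ← tsum_div_const]
  rw [← (((sA.add sC).div_const 2)).tsum_add s2, ← ((((sA.add sC).div_const 2)).add s2).tsum_add s3,
    ← s1.tsum_add (((((sA.add sC).div_const 2)).add s2).add s3)]
  refine tsum_congr fun i => ?_
  have h := mu_sq ξ i
  rw [lam] at h
  linear_combination (-‖bas.repr w i‖ ^ 2) * h

end Vale.Agent.P247.H957
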