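import Vale.Agent.P247.H957.Mono1

/-! P247, package MONO (helper957), part 2: orbits of the rotation and the counting formula. -/

open scoped ContDiff Topology
open Set MeasureTheory Filter Metric

namespace Vale.Agent.P247.H957.Mono

open Vale.Agent.P247.H74 Vale.Agent.P247.H574

namespace Pre

variable {N : ℕ} {m A : ℂ × ℂ → ℂ} {Y : ℂ → Fin N → ℂ} {q : ℕ} {r : ℝ} {y : Fin N → ℂ → ℂ}

theorem E_refl (i : Fin N) : E q r y i 0 i := fun t _ => by simp

theorem E_trans (h : Pre N m A Y q r y) {i j l : Fin N} {a b : ℕ} (h1 : E q r y i a j)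
    (h2 : E q r y j b l) : E q r y i (a + b) l := fun t ht => by
  rw [pow_add, mul_assoc, h1 _ (h.rot_mem b ht), h2 t ht]

theorem E_period (h : Pre N m A Y q r y) (i : Fin N) (c : ℕ) : E q r y i (q * c) i :=
  fun t _ => by rw [pow_mul, om_pow h.q1, one_pow, one_mul]

theorem E_symm (h : Pre N m A Y q r y) {i j : Fin N} {n : ℕ} (h1 : E q r y i n j) :
    E q r y j ((q - 1) * n) i := fun t ht => by
  have h2 := h1 _ (h.rot_mem ((q - 1) * n) ht)
  rw [← h2]
  congr 1
  have := h.rot_inv n t
  rw [← mul_assoc, mul_comm (om q ^ n), mul_assoc, this]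

theorem E_cancel (h : Pre N m A Y q r y) {i j l : Fin N} {a b : ℕ} (h1 : E q r y i a j)
    (h2 : E q r y i (a + b) l) : E q r y j b l := by
  have h3 : E q r y j ((q - 1) * a + (a + b)) l := h.E_trans (h.E_symm h1) h2
  intro t ht
  have h4 := h3 t ht
  rw [← h4]
  congr 1
  have : (q - 1) * a + (a + b) = q * a + b := by
    have := h.q1
    calc (q - 1) * a + (a + b) = (q - 1 + 1) * a + b := by ring
      _ = q * a + b := by rw [Nat.sub_add_cancel this]
  rw [this, pow_add, pow_mul, om_pow h.q1, one_pow, one_mul]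

theorem E_val {i : Fin N} {n : ℕ} {j l : Fin N}
    (h1 : E q r y i n j) (h2 : E q r y i n l) : E q r y j 0 l := fun t ht => by
  rw [pow_zero, one_mul, ← h1 t ht, h2 t ht]

/-- a single value determines the relation -/
theorem E_of_val (h : Pre N m A Y q r y) {i j : Fin N} {n : ℕ} {t : ℂ}
    (ht : t ∈ ball (0 : ℂ) r) (h0 : t ≠ 0) (h1 : y i (om q ^ n * t) = y j t) :
    E q r y i n j := by
  obtain ⟨l, hl⟩ := h.exists_E i n
  have h2 : y l t = y j t := by rw [← hl t ht, h1]
  rcases h.sep l j with h3 | h3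
  · intro s hs
    rw [hl s hs, h3 s hs]
  · exact absurd h2 (h3 t ht h0)

/-- the setoid of orbits -/
def st (h : Pre N m A Y q r y) : Setoid (Fin N) where
  r i j := ∃ n, E q r y i n j
  iseqv :=
    { refl := fun i => ⟨0, E_refl i⟩
      symm := fun ⟨_, hn⟩ => ⟨_, h.E_symm hn⟩
      trans := fun ⟨_, h1⟩ ⟨_, h2⟩ => ⟨_, h.E_trans h1 h2⟩ }

theorem exists_reps (h : Pre N m A Y q r y) : ∃ (L : ℕ) (ρ : Fin L → Fin N),
    (∀ i, ∃ l n, E q r y (ρ l) n i) ∧ (∀ l l' n, E q r y (ρ l) n (ρ l') → l = l') := by
  classical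
  let s := h.st
  let e := (Fintype.equivFin (Quotient s)).symm
  refine ⟨Fintype.card (Quotient s), fun l => (e l).out, fun i => ?_, fun l l' n hn => ?_⟩
  · have : Quotient.mk s (Quotient.mk s i).out = Quotient.mk s i := Quotient.out_eq _
    obtain ⟨n, hn⟩ := Quotient.exact this
    refine ⟨e.symm (Quotient.mk s i), n, ?_⟩
    change E q r y (e (e.symm (Quotient.mk s i))).out n i
    rw [Equiv.apply_symm_apply]
    exact hn
  · have : Quotient.mk s (e l).out = Quotient.mk s (e l').out := Quotient.sound ⟨n, hn⟩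
    rw [Quotient.out_eq, Quotient.out_eq] at this
    exact e.injective this

/-- the period of a branch -/
theorem exists_per (h : Pre N m A Y q r y) (i : Fin N) : ∃ k, 1 ≤ k ∧ k ∣ q ∧ E q r y i k i ∧
    ∀ n, E q r y i n i → k ∣ n := by
  classical
  have hex : ∃ k, 1 ≤ k ∧ E q r y i k i := ⟨q, h.q1, by simpa using h.E_period i 1⟩
  let k := Nat.find hex
  have hk : 1 ≤ k ∧ E q r y i k i := Nat.find_spec hex
  have hmul : ∀ a, E q r y i (k * a) i := fun a => by
    induction a with
    | zero => exact E_refl i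
    | succ a ih => exact h.E_trans ih hk.2
  have hdiv : ∀ n, E q r y i n i → k ∣ n := fun n hn => by
    have h1 : E q r y i (n % k) i := by
      refine h.E_cancel (hmul (n / k)) ?_
      rwa [Nat.div_add_mod]
    by_contra hcon
    have h2 : 1 ≤ n % k := Nat.pos_of_ne_zero fun h0 => hcon (Nat.dvd_of_mod_eq_zero h0)
    exact absurd (Nat.mod_lt n (by omega : 0 < k)) (not_lt.2 (Nat.find_min' hex ⟨h2, h1⟩))
  exact ⟨k, hk.1, hdiv q (by simpa using h.E_period i 1), hk.2, hdiv⟩

/-- multiplicities are preserved by the rotation -/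
theorem mult_eq (h : Pre N m A Y q r y) [∀ i n j, Decidable (E q r y i n j)]
    {i : Fin N} (n : ℕ) :
    (Finset.univ.filter fun j => E q r y i n j).card =
      (Finset.univ.filter fun j => E q r y i 0 j).card := by
  classical
  -- a good point
  obtain ⟨t, ht, h0, hg⟩ : ∃ t ∈ ball (0 : ℂ) r, t ≠ 0 ∧ ∀ g : ℂ → ℝ,
      ∑ i, g (y i (om q ^ n * t)) = ∑ i, g (y i t) := by
    by_contra hcon
    push Not at hcon
    have hpos : 0 < volume (ball (0 : ℂ) r \ {0}) := by
      refine (isOpen_ball.sdiff isClosed_singleton).measure_pos volume ⟨(r / 2 : ℝ), ?_, ?_⟩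
      · have := h.r0
        rw [mem_ball_zero_iff, Complex.norm_real, Real.norm_of_nonneg (by linarith)]
        linarith
      · have := h.r0
        simp only [mem_singleton_iff, Complex.ofReal_eq_zero]
        linarith
    refine hpos.ne' (measure_mono_null ?_ (h.ae_sum n))
    rintro s ⟨hs, hs0⟩ hcc
    obtain ⟨g, hg⟩ := hcon s hs hs0
    exact hg (hcc hs g)
  have hg1 := hg fun v => if v = y i (om q ^ n * t) then 1 else 0
  have hr : om q ^ n * t ≠ 0 := mul_ne_zero (pow_ne_zero _ (by
    have := norm_om h.q1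
    intro h'; rw [h', norm_zero] at this; exact zero_ne_one this)) h0
  have e1 : (Finset.univ.filter fun j => E q r y i n j) =
      Finset.univ.filter fun j => y j t = y i (om q ^ n * t) := by
    ext j
    simp only [Finset.mem_filter, Finset.mem_univ, true_and]
    exact ⟨fun h1 => (h1 t ht).symm, fun h1 => h.E_of_val ht h0 h1.symm⟩
  have e2 : (Finset.univ.filter fun j => E q r y i 0 j) =
      Finset.univ.filter fun j => y j (om q ^ n * t) = y i (om q ^ n * t) := by
    ext j
    simp only [Finset.mem_filter, Finset.mem_univ, true_and]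
    constructor
    · intro h1
      have := h1 _ (h.rot_mem n ht)
      rw [pow_zero, one_mul] at this
      exact this.symm
    · intro h1
      refine h.E_of_val (h.rot_mem n ht) hr ?_
      rw [pow_zero, one_mul]
      exact h1.symm
  rw [e1, e2]
  have : ((Finset.univ.filter fun j => y j (om q ^ n * t) = y i (om q ^ n * t)).card : ℝ) =
      ((Finset.univ.filter fun j => y j t = y i (om q ^ n * t)).card : ℝ) := by
    rw [Finset.sum_boole, Finset.sum_boole] at hg1
    exact hg1
  exact_mod_cast this.symm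

/-- the counting formula -/
theorem exists_orbits (h : Pre N m A Y q r y) : ∃ (L : ℕ) (ρ : Fin L → Fin N) (k μ : Fin L → ℕ),
    (∀ l, 1 ≤ k l ∧ 1 ≤ μ l) ∧ (∀ l, k l ∣ q) ∧ (∀ l, E q r y (ρ l) (k l) (ρ l)) ∧
    (∀ l n, E q r y (ρ l) n (ρ l) → k l ∣ n) ∧
    (∀ l l' n, E q r y (ρ l) n (ρ l') → l = l') ∧
    (∀ t ∈ ball (0 : ℂ) r, ∀ g : ℂ → ℝ, ∑ i, g (y i t) =
      ∑ l, (μ l : ℝ) * ∑ j ∈ Finset.range (k l), g (y (ρ l) (om q ^ j * t))) := by
  classical
  obtain ⟨L, ρ, h1, h2⟩ := h.exists_reps
  choose k hk using fun l => h.exists_per (ρ l)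
  refine ⟨L, ρ, k, fun l => (Finset.univ.filter fun j => E q r y (ρ l) 0 j).card,
    fun l => ⟨(hk l).1, ?_⟩, fun l => (hk l).2.1, fun l => (hk l).2.2.1,
    fun l => (hk l).2.2.2, h2, ?_⟩
  · exact Finset.card_pos.2 ⟨ρ l, by simp [E_refl]⟩
  intro t ht g
  -- exactly one (l, j) for each i
  have key : ∀ i, ∑ l, ∑ j ∈ Finset.range (k l), (if E q r y (ρ l) j i then (1 : ℝ) else 0) = 1 := by
    intro i
    obtain ⟨l, n, hn⟩ := h1 i
    have hj : E q r y (ρ l) (n % k l) i := by
      have hmul : ∀ a, E q r y (ρ l) (k l * a) (ρ l) := fun a => by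
        induction a with
        | zero => exact E_refl _
        | succ a ih => exact h.E_trans ih (hk l).2.2.1
      refine h.E_cancel (hmul (n / k l)) ?_
      rwa [Nat.div_add_mod]
    rw [Finset.sum_eq_single l, Finset.sum_eq_single (n % k l), if_pos hj]
    · intro j hjr hne
      rw [if_neg]
      intro hjj
      apply hne
      -- two exponents with the same value differ by a multiple of k
      have hlt : n % k l < k l := Nat.mod_lt _ (by have := (hk l).1; omega)
      have hjr' := Finset.mem_range.1 hjr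
      rcases le_total j (n % k l) with hle | hle
      · have h3 : E q r y i (n % k l - j) i := by
          refine h.E_cancel hjj ?_
          rwa [Nat.add_sub_cancel' hle]
        -- transport to ρ l
        have h4 : E q r y (ρ l) (j + ((n % k l - j) + (q - 1) * j)) (ρ l) :=
          h.E_trans hjj (h.E_trans h3 (h.E_symm hjj))
        have h5 := (hk l).2.2.2 _ h4
        have h6 : j + ((n % k l - j) + (q - 1) * j) = q * j + (n % k l - j) := by
          have := h.q1
          calc j + ((n % k l - j) + (q - 1) * j) = (q - 1 + 1) * j + (n % k l - j) := by ring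
            _ = _ := by rw [Nat.sub_add_cancel this]
        rw [h6] at h5
        have h7 : k l ∣ n % k l - j :=
          (Nat.dvd_add_right (Dvd.dvd.mul_right (hk l).2.1 j)).1 h5
        have := Nat.eq_zero_of_dvd_of_lt h7 (by omega)
        omega
      · have h3 : E q r y i (j - n % k l) i := by
          refine h.E_cancel hj ?_
          rwa [Nat.add_sub_cancel' hle]
        have h4 : E q r y (ρ l) (n % k l + ((j - n % k l) + (q - 1) * (n % k l))) (ρ l) :=
          h.E_trans hj (h.E_trans h3 (h.E_symm hj))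
        have h5 := (hk l).2.2.2 _ h4
        have h6 : n % k l + ((j - n % k l) + (q - 1) * (n % k l)) =
            q * (n % k l) + (j - n % k l) := by
          have := h.q1
          calc n % k l + ((j - n % k l) + (q - 1) * (n % k l)) =
              (q - 1 + 1) * (n % k l) + (j - n % k l) := by ring
            _ = _ := by rw [Nat.sub_add_cancel this]
        rw [h6] at h5
        have h7 : k l ∣ j - n % k l :=
          (Nat.dvd_add_right (Dvd.dvd.mul_right (hk l).2.1 _)).1 h5
        have := Nat.eq_zero_of_dvd_of_lt h7 (by omega)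
        omega
    · intro hnot
      exact absurd (Finset.mem_range.2 (Nat.mod_lt _ (by have := (hk l).1; omega))) hnot
    · intro l' _ hne
      refine Finset.sum_eq_zero fun j _ => if_neg fun hjj => hne ?_
      exact h2 l' l _ (h.E_trans hjj (h.E_symm hn))
    · intro hnot
      exact absurd (Finset.mem_univ _) hnot
  calc ∑ i, g (y i t) = ∑ i, (∑ l, ∑ j ∈ Finset.range (k l),
        (if E q r y (ρ l) j i then (1 : ℝ) else 0)) * g (y i t) := by
        simp only [key, one_mul]
    _ = ∑ l, ∑ j ∈ Finset.range (k l), ∑ i, (if E q r y (ρ l) j i then (1 : ℝ) else 0) *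
        g (y i t) := by
        simp only [Finset.sum_mul]
        rw [Finset.sum_comm]
        refine Finset.sum_congr rfl fun l _ => ?_
        rw [Finset.sum_comm]
    _ = ∑ l, ∑ j ∈ Finset.range (k l), ∑ i, (if E q r y (ρ l) j i then (1 : ℝ) else 0) *
        g (y (ρ l) (om q ^ j * t)) := by
        refine Finset.sum_congr rfl fun l _ => Finset.sum_congr rfl fun j _ =>
          Finset.sum_congr rfl fun i _ => ?_
        split_ifs with hE
        · rw [hE t ht]
        · simp
    _ = _ := by
        refine Finset.sum_congr rfl fun l _ => ?_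
        rw [Finset.mul_sum]
        refine Finset.sum_congr rfl fun j _ => ?_
        rw [← Finset.sum_mul, Finset.sum_boole, h.mult_eq]

theorem count (h : Pre N m A Y q r y) {L : ℕ} {ρ : Fin L → Fin N} {k μ : Fin L → ℕ}
    (hs : ∀ t ∈ ball (0 : ℂ) r, ∀ g : ℂ → ℝ, ∑ i, g (y i t) =
      ∑ l, (μ l : ℝ) * ∑ j ∈ Finset.range (k l), g (y (ρ l) (om q ^ j * t))) :
    N = ∑ l, k l * μ l := by
  have h1 := hs 0 (mem_ball_self h.r0) fun _ => 1
  simp only [Finset.sum_const, Finset.card_univ, Fintype.card_fin, nsmul_eq_mul, mul_one,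
    Finset.card_range] at h1
  have h2 : (N : ℝ) = ((∑ l, k l * μ l : ℕ) : ℝ) := by
    rw [h1]; push_cast
    exact Finset.sum_congr rfl fun l _ => mul_comm _ _
  exact_mod_cast h2

end Pre

end Vale.Agent.P247.H957.Mono
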