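import Vale.Agent.P247.H957.Mono2

/-! P247, package MONO (helper957), part 3: the branch `W (t ^ p) = y t`. -/

open scoped ContDiff Topology
open Set MeasureTheory Filter Metric

namespace Vale.Agent.P247.H957.Mono

open Vale.Agent.P247.H74 Vale.Agent.P247.H574

/-- a local root -/
theorem exists_root {p : ℕ} (hp : 1 ≤ p) {r : ℝ} {t0 : ℂ} (ht : t0 ∈ ball (0 : ℂ) r)
    (h0 : t0 ≠ 0) : ∃ τ : ℂ → ℂ, τ (t0 ^ p) = t0 ∧
      HasDerivAt τ (1 / (p * t0 ^ (p - 1))) (t0 ^ p) ∧ ContDiffAt ℝ ∞ τ (t0 ^ p) ∧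
      ∀ᶠ s in 𝓝 (t0 ^ p), τ s ∈ ball (0 : ℂ) r ∧ τ s ^ p = s := by
  have hs0 : t0 ^ p ≠ 0 := pow_ne_zero _ h0
  have hp0 : (p : ℂ) ≠ 0 := Nat.cast_ne_zero.2 (by omega)
  let τ : ℂ → ℂ := fun s => t0 * Complex.exp (Complex.log (s / t0 ^ p) / p)
  have hone : t0 ^ p / t0 ^ p = 1 := div_self hs0
  have hv : τ (t0 ^ p) = t0 := by simp only [τ, hone]; simp
  have hsl : t0 ^ p / t0 ^ p ∈ Complex.slitPlane := by rw [hone]; exact Complex.one_mem_slitPlane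
  have hd : HasDerivAt τ (1 / (p * t0 ^ (p - 1))) (t0 ^ p) := by
    have h1 : HasDerivAt (fun s : ℂ => s / t0 ^ p) (1 / t0 ^ p) (t0 ^ p) :=
      (hasDerivAt_id _).div_const _
    have h2 := ((h1.clog hsl).div_const (p : ℂ)).cexp.const_mul t0
    refine h2.congr_deriv ?_
    rw [hone, Complex.log_one]
    simp only [zero_div, Complex.exp_zero, div_one, one_mul]
    have : t0 ^ p = t0 * t0 ^ (p - 1) := by
      rw [← pow_succ', Nat.sub_add_cancel hp]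
    rw [this]
    have h3 : t0 ^ (p - 1) ≠ 0 := pow_ne_zero _ h0
    field_simp
  have hc : ContDiffAt ℂ ∞ τ (t0 ^ p) := by
    refine contDiffAt_const.mul (ContDiffAt.cexp (ContDiffAt.div_const ?_ _))
    exact ContDiffAt.comp (g := Complex.log) (f := fun s : ℂ => s / t0 ^ p) (t0 ^ p)
      (Complex.contDiffAt_log hsl) (contDiffAt_id.div_const _)
  refine ⟨τ, hv, hd, hc.restrict_scalars ℝ, ?_⟩
  have e1 : ∀ᶠ s in 𝓝 (t0 ^ p), τ s ∈ ball (0 : ℂ) r :=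
    hd.continuousAt.eventually_mem (by rw [hv]; exact isOpen_ball.mem_nhds ht)
  have e2 : ∀ᶠ s in 𝓝 (t0 ^ p), s ≠ 0 := isOpen_ne.mem_nhds hs0
  filter_upwards [e1, e2] with s h1 h2
  refine ⟨h1, ?_⟩
  simp only [τ]
  rw [mul_pow, ← Complex.exp_nat_mul, mul_div_cancel₀ _ hp0,
    Complex.exp_log (div_ne_zero h2 hs0), mul_div_cancel₀ _ hs0]

/-- a real linear map of `ℂ` -/
theorem lin (L : ℂ →L[ℝ] ℂ) (w : ℂ) :
    L w = (1 / 2 : ℂ) * (L 1 - Complex.I * L Complex.I) * w +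
      (1 / 2 : ℂ) * (L 1 + Complex.I * L Complex.I) * (starRingEnd ℂ) w := by
  have h1 : L w = (w.re : ℂ) * L 1 + (w.im : ℂ) * L Complex.I := by
    conv_lhs => rw [show w = (w.re : ℝ) • (1 : ℂ) + (w.im : ℝ) • Complex.I by
      apply Complex.ext <;> simp]
    rw [map_add, map_smul, map_smul, Complex.real_smul, Complex.real_smul]
  rw [h1]
  have h2 : (starRingEnd ℂ) w = (w.re : ℂ) - w.im * Complex.I := by
    apply Complex.ext <;> simp
  have h3 : w = (w.re : ℂ) + w.im * Complex.I := (Complex.re_add_im w).symm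
  rw [h2]
  conv_rhs => rw [h3]
  simp only [Complex.add_re, Complex.ofReal_re, Complex.mul_re, Complex.I_re, mul_zero,
    Complex.ofReal_im, Complex.I_im, mul_one, sub_self, add_zero, Complex.add_im, Complex.mul_im,
    zero_add]
  linear_combination ((w.im : ℂ) * L Complex.I) * Complex.I_sq

namespace Pre

variable {N : ℕ} {m A : ℂ × ℂ → ℂ} {Y : ℂ → Fin N → ℂ} {q : ℕ} {r : ℝ} {y : Fin N → ℂ → ℂ}

theorem om_mul {k p : ℕ} (hk : 1 ≤ k) : om (k * p) ^ k = om p := by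
  rw [om, om, ← Complex.exp_nat_mul]
  congr 1
  have : (k : ℂ) ≠ 0 := Nat.cast_ne_zero.2 (by omega)
  push_cast
  by_cases hp : (p : ℂ) = 0
  · simp [hp]
  · field_simp

/-- the branch in the variable `s = t ^ p` -/
noncomputable def Wf (y : Fin N → ℂ → ℂ) (i : Fin N) (p : ℕ) (s : ℂ) : ℂ :=
  y i (s ^ ((p : ℂ)⁻¹))

theorem E_mul (h : Pre N m A Y q r y) {i : Fin N} {k : ℕ} (hE : E q r y i k i) (a : ℕ) :
    E q r y i (k * a) i := by
  induction a with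
  | zero => exact E_refl i
  | succ a ih => exact h.E_trans ih hE

theorem W_pow (h : Pre N m A Y q r y) {i : Fin N} {k p : ℕ} (hk : 1 ≤ k) (hq : q = k * p)
    (hE : E q r y i k i) {t : ℂ} (ht : t ∈ ball (0 : ℂ) r) : Wf y i p (t ^ p) = y i t := by
  have hp : 1 ≤ p := by
    rcases Nat.eq_zero_or_pos p with h0 | h0
    · have := h.q1; subst h0; omega
    · exact h0
  have h1 : ((t ^ p) ^ ((p : ℂ)⁻¹)) ^ p = t ^ p := Complex.cpow_nat_inv_pow _ (by omega)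
  obtain ⟨n, -, hn⟩ := exists_om hp h1
  rw [Wf, hn, ← om_mul (p := p) hk, ← hq, ← pow_mul]
  exact h.E_mul hE n t ht

theorem root_mem {k p : ℕ} (hp : 1 ≤ p) (hr : 0 < r) {s : ℂ}
    (hs : ‖s‖ ^ k < r ^ (k * p)) : ∃ t ∈ ball (0 : ℂ) r, t ^ p = s := by
  refine ⟨s ^ ((p : ℂ)⁻¹), ?_, Complex.cpow_nat_inv_pow _ (by omega)⟩
  rw [mem_ball_zero_iff]
  refine lt_of_pow_lt_pow_left₀ (k * p) hr.le ?_
  calc ‖s ^ ((p : ℂ)⁻¹)‖ ^ (k * p) = ‖(s ^ ((p : ℂ)⁻¹)) ^ p‖ ^ k := by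
        rw [norm_pow, ← pow_mul, mul_comm]
    _ = ‖s‖ ^ k := by rw [Complex.cpow_nat_inv_pow _ (by omega)]
    _ < _ := hs

/-- local form of the branch -/
theorem W_local (h : Pre N m A Y q r y) {i : Fin N} {k p : ℕ} (hk : 1 ≤ k) (hq : q = k * p)
    (hE : E q r y i k i) {t : ℂ} (ht : t ∈ ball (0 : ℂ) r) (h0 : t ≠ 0) :
    ContDiffAt ℝ ∞ (Wf y i p) (t ^ p) ∧
    ∀ v, fderiv ℝ (Wf y i p) (t ^ p) v = fderiv ℝ (y i) t (1 / (p * t ^ (p - 1)) * v) := by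
  have hp : 1 ≤ p := by
    rcases Nat.eq_zero_or_pos p with h0 | h0
    · have := h.q1; subst h0; omega
    · exact h0
  obtain ⟨τ, h1, h2, h3, h4⟩ := exists_root hp ht h0
  have hev : Wf y i p =ᶠ[𝓝 (t ^ p)] fun s => y i (τ s) := by
    filter_upwards [h4] with s hs
    conv_lhs => rw [← hs.2]
    exact h.W_pow hk hq hE hs.1
  have hyc : ContDiffAt ℝ ∞ (y i) t :=
    (h.smooth i).contDiffAt ((isOpen_ball.sdiff isClosed_singleton).mem_nhds ⟨ht, h0⟩)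
  refine ⟨?_, fun v => ?_⟩
  · refine ContDiffAt.congr_of_eventuallyEq ?_ hev
    have : ContDiffAt ℝ ∞ (y i) (τ (t ^ p)) := by rw [h1]; exact hyc
    exact this.comp _ h3
  · rw [hev.fderiv_eq]
    have h5 : HasFDerivAt (y i) (fderiv ℝ (y i) t) (τ (t ^ p)) := by
      rw [h1]; exact (hyc.differentiableAt (by simp)).hasFDerivAt
    have h6 := h5.comp (t ^ p) (h2.hasFDerivAt.restrictScalars ℝ)
    have h7 : fderiv ℝ (fun s => y i (τ s)) (t ^ p) = _ := h6.fderiv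
    rw [h7]
    simp [mul_comm]

end Pre

end Vale.Agent.P247.H957.Mono
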