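import Vale.Agent.P247.H957.Mono3

/-! P247, package MONO (helper957), part 4: bounds, equation, injectivity. -/

open scoped ContDiff Topology
open Set MeasureTheory Filter Metric

namespace Vale.Agent.P247.H957.Mono

open Vale.Agent.P247.H74 Vale.Agent.P247.H574

namespace Pre

variable {N : ℕ} {m A : ℂ × ℂ → ℂ} {Y : ℂ → Fin N → ℂ} {q : ℕ} {r : ℝ} {y : Fin N → ℂ → ℂ}

theorem p1 (h : Pre N m A Y q r y) {k p : ℕ} (hq : q = k * p) : 1 ≤ p := by
  rcases Nat.eq_zero_or_pos p with h0 | h0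
  · have := h.q1; subst h0; omega
  · exact h0

theorem W_bd (h : Pre N m A Y q r y) (hr1 : r ≤ 1) {i : Fin N} {k p : ℕ} (hk : 1 ≤ k)
    (hq : q = k * p) (hE : E q r y i k i) {C γ : ℝ} (hγ : 0 < γ) {t : ℂ}
    (ht : t ∈ ball (0 : ℂ) r) (h0 : t ≠ 0)
    (h1 : ‖y i t - y i 0‖ ≤ C * ‖t‖ ^ γ) (h2 : ‖fderiv ℝ (y i) t‖ ≤ C * ‖t‖ ^ (γ - 1)) :
    ‖Wf y i p (t ^ p) - Wf y i p 0‖ ≤ C * ‖t ^ p‖ ^ (γ / q) ∧
      ‖fderiv ℝ (Wf y i p) (t ^ p)‖ ≤ C * ‖t ^ p‖ ^ (γ / q - 1) := by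
  have hp := h.p1 hq
  have hT : 0 < ‖t‖ := norm_pos_iff.2 h0
  have hT1 : ‖t‖ ≤ 1 := ((mem_ball_zero_iff.1 ht).trans_le hr1).le
  have hC : 0 ≤ C := by
    have := (norm_nonneg _).trans h1
    exact nonneg_of_mul_nonneg_left this (Real.rpow_pos_of_pos hT _)
  have hk0 : (0 : ℝ) < k := Nat.cast_pos.2 (by omega)
  have hp0 : (0 : ℝ) < p := Nat.cast_pos.2 (by omega)
  have hp1' : (1 : ℝ) ≤ p := Nat.one_le_cast.2 hp
  have hk1' : (1 : ℝ) ≤ k := Nat.one_le_cast.2 hk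
  have e1 : ∀ a : ℝ, ‖t ^ p‖ ^ a = ‖t‖ ^ (p * a) := fun a => by
    rw [norm_pow, Real.rpow_mul hT.le, Real.rpow_natCast]
  have e2 : (p : ℝ) * (γ / q) = γ / k := by
    rw [hq]; push_cast; field_simp
  have e3 : (p : ℝ) * (γ / q - 1) = γ / k - p := by rw [mul_sub, e2, mul_one]
  have hle : γ / k ≤ γ := div_le_self hγ.le hk1'
  constructor
  · have hz : Wf y i p 0 = y i 0 := by
      have := h.W_pow hk hq hE (mem_ball_self h.r0)
      rwa [zero_pow (by omega)] at this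
    rw [h.W_pow hk hq hE ht, hz, e1, e2]
    exact h1.trans (mul_le_mul_of_nonneg_left
      (Real.rpow_le_rpow_of_exponent_ge hT hT1 hle) hC)
  · rw [e1, e3]
    refine ContinuousLinearMap.opNorm_le_bound _ (by positivity) fun v => ?_
    rw [(h.W_local hk hq hE ht h0).2 v]
    calc ‖fderiv ℝ (y i) t (1 / (p * t ^ (p - 1)) * v)‖
        ≤ ‖fderiv ℝ (y i) t‖ * ‖1 / (p * t ^ (p - 1)) * v‖ := ContinuousLinearMap.le_opNorm _ _
      _ ≤ (C * ‖t‖ ^ (γ - 1)) * (‖t‖ ^ (1 - (p : ℝ)) * ‖v‖) := by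
          refine mul_le_mul h2 ?_ (norm_nonneg _) (by positivity)
          rw [norm_mul]
          refine mul_le_mul_of_nonneg_right ?_ (norm_nonneg _)
          rw [norm_div, norm_one, norm_mul, norm_pow, Complex.norm_natCast]
          have e4 : ‖t‖ ^ (1 - (p : ℝ)) = 1 / ‖t‖ ^ (p - 1) := by
            rw [show (1 : ℝ) - p = -((p - 1 : ℕ) : ℝ) by
              rw [Nat.cast_sub hp]; push_cast; ring, Real.rpow_neg hT.le, Real.rpow_natCast,
              one_div]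
          rw [e4]
          refine one_div_le_one_div_of_le (pow_pos hT _) ?_
          exact le_mul_of_one_le_left (pow_pos hT _).le hp1'
      _ = C * ‖t‖ ^ (γ - p) * ‖v‖ := by
          rw [show γ - p = (γ - 1) + (1 - (p : ℝ)) by ring, Real.rpow_add hT]
          ring
      _ ≤ C * ‖t‖ ^ (γ / k - p) * ‖v‖ := by
          refine mul_le_mul_of_nonneg_right (mul_le_mul_of_nonneg_left ?_ hC) (norm_nonneg _)
          exact Real.rpow_le_rpow_of_exponent_ge hT hT1 (by linarith)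

theorem W_eq (h : Pre N m A Y q r y) {i : Fin N} {k p : ℕ} (hk : 1 ≤ k)
    (hq : q = k * p) (hE : E q r y i k i) {t : ℂ} (ht : t ∈ ball (0 : ℂ) r) (h0 : t ≠ 0) :
    dbar (Wf y i p) (t ^ p) = m ((t ^ p) ^ k, Wf y i p (t ^ p)) *
      ((starRingEnd ℂ) (t ^ p) / t ^ p) ^ (k - 1) *
        ((1 / 2 : ℂ) * (fderiv ℝ (Wf y i p) (t ^ p) 1 -
          Complex.I * fderiv ℝ (Wf y i p) (t ^ p) Complex.I)) +
        A ((t ^ p) ^ k, Wf y i p (t ^ p)) * k * (starRingEnd ℂ) (t ^ p) ^ (k - 1) := by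
  have hp := h.p1 hq
  have heq := h.eq i t ht h0
  have hd := (h.W_local hk hq hE ht h0).2
  rw [h.W_pow hk hq hE ht, ← pow_mul, mul_comm p k, ← hq]
  simp only [dbar, smul_eq_mul] at heq ⊢
  rw [hd 1, hd Complex.I, mul_one, lin (fderiv ℝ (y i) t) (1 / (p * t ^ (p - 1))),
    lin (fderiv ℝ (y i) t) (1 / (p * t ^ (p - 1)) * Complex.I)]
  set a := (1 / 2 : ℂ) * (fderiv ℝ (y i) t 1 - Complex.I * fderiv ℝ (y i) t Complex.I) with ha
  set b := (1 / 2 : ℂ) * (fderiv ℝ (y i) t 1 + Complex.I * fderiv ℝ (y i) t Complex.I) with hb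
  set c : ℂ := 1 / (p * t ^ (p - 1)) with hc
  rw [map_mul (starRingEnd ℂ) c Complex.I, Complex.conj_I]
  have e1 : (1 / 2 : ℂ) * (a * c + b * (starRingEnd ℂ) c +
      Complex.I * (a * (c * Complex.I) + b * ((starRingEnd ℂ) c * -Complex.I))) =
      b * (starRingEnd ℂ) c := by
    linear_combination (1 / 2 : ℂ) * (a * c - b * (starRingEnd ℂ) c) * Complex.I_sq
  have e2 : (1 / 2 : ℂ) * (a * c + b * (starRingEnd ℂ) c -
      Complex.I * (a * (c * Complex.I) + b * ((starRingEnd ℂ) c * -Complex.I))) =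
      a * c := by
    linear_combination -(1 / 2 : ℂ) * (a * c - b * (starRingEnd ℂ) c) * Complex.I_sq
  rw [e1, e2, heq]
  have hcb : (starRingEnd ℂ) t ≠ 0 := (map_ne_zero _).2 h0
  have hp0 : (p : ℂ) ≠ 0 := Nat.cast_ne_zero.2 (by omega)
  have hconj : (starRingEnd ℂ) c = 1 / (p * (starRingEnd ℂ) t ^ (p - 1)) := by
    rw [hc]; simp
  have hpow : ∀ w : ℂ, w ≠ 0 → w ^ (q - 1) / w ^ (p - 1) = (w ^ p) ^ (k - 1) := fun w hw => by
    rw [div_eq_iff (pow_ne_zero _ hw), ← pow_mul, ← pow_add]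
    congr 1
    have : q - 1 = p * (k - 1) + (p - 1) := by
      obtain ⟨k', rfl⟩ : ∃ k', k = k' + 1 := ⟨k - 1, by omega⟩
      obtain ⟨p', rfl⟩ : ∃ p', p = p' + 1 := ⟨p - 1, by omega⟩
      rw [hq]
      simp only [Nat.add_sub_cancel]
      have : (k' + 1) * (p' + 1) = ((p' + 1) * k' + p') + 1 := by ring
      rw [this, Nat.add_sub_cancel]
    exact this
  have e3 : ((starRingEnd ℂ) t / t) ^ (q - 1) * (starRingEnd ℂ) c =
      ((starRingEnd ℂ) (t ^ p) / t ^ p) ^ (k - 1) * c := by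
    rw [map_pow, div_pow, div_pow, ← hpow t h0, ← hpow _ hcb, hconj, hc]
    have := pow_ne_zero (p - 1) h0
    have := pow_ne_zero (p - 1) hcb
    have := pow_ne_zero (q - 1) h0
    field_simp
  have e4 : (q : ℂ) * (starRingEnd ℂ) t ^ (q - 1) * (starRingEnd ℂ) c =
      k * (starRingEnd ℂ) (t ^ p) ^ (k - 1) := by
    rw [map_pow, ← hpow _ hcb, hconj, hq]
    have := pow_ne_zero (p - 1) hcb
    push_cast
    field_simp
  linear_combination m (t ^ q, y i t) * a * e3 + A (t ^ q, y i t) * e4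

theorem W_inj (h : Pre N m A Y q r y) {i i' : Fin N} {k k' p p' : ℕ} (hk : 1 ≤ k)
    (hk' : 1 ≤ k') (hq : q = k * p) (hq' : q = k' * p') (hE : E q r y i k i)
    (hE' : E q r y i' k' i') {s s' : ℂ} (h0 : s ≠ 0) (hs : ‖s‖ ^ k < r ^ q)
    (he : s ^ k = s' ^ k') (hW : Wf y i p s = Wf y i' p' s') :
    ∃ n, E q r y i' n i ∧ ∃ t, s = t ^ p ∧ s' = (om q ^ n * t) ^ p' := by
  have hp := h.p1 hq
  have hp' := h.p1 hq'
  obtain ⟨t, ht, hts⟩ := root_mem (k := k) hp h.r0 (s := s) (by rwa [← hq])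
  have hs' : ‖s'‖ ^ k' < r ^ (k' * p') := by
    rw [← hq', ← norm_pow, ← he, norm_pow]; exact hs
  obtain ⟨t', ht', hts'⟩ := root_mem hp' h.r0 hs'
  have h1 : t' ^ q = t ^ q := by
    calc t' ^ q = (t' ^ p') ^ k' := by rw [hq', ← pow_mul, mul_comm]
      _ = (t ^ p) ^ k := by rw [hts', hts, he]
      _ = t ^ q := by rw [hq, ← pow_mul, mul_comm]
  obtain ⟨n, -, hn⟩ := exists_om h.q1 h1
  have ht0 : t ≠ 0 := by
    rintro rfl
    rw [zero_pow (by omega)] at hts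
    exact h0 hts.symm
  refine ⟨n, ?_, t, hts.symm, by rw [← hn, hts']⟩
  refine h.E_of_val ht ht0 ?_
  rw [← hn, ← h.W_pow hk' hq' hE' ht', hts', ← h.W_pow hk hq hE ht, hts, hW]

theorem sum_shift {k : ℕ} {f : ℕ → ℝ} (hf : ∀ n, f (n + k) = f n) (a : ℕ) :
    ∑ j ∈ Finset.range k, f (j + a) = ∑ j ∈ Finset.range k, f j := by
  induction a with
  | zero => rfl
  | succ a ih =>
    rw [← ih]
    have h1 := Finset.sum_range_succ (fun j => f (j + a)) k
    have h2 := Finset.sum_range_succ' (fun j => f (j + a)) k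
    have h3 : f (k + a) = f (0 + a) := by rw [add_comm k a, hf, zero_add]
    have h4 : ∀ j, f (j + (a + 1)) = f (j + 1 + a) := fun j => by congr 1; ring
    simp only [h4]
    linarith

theorem ae_image {q : ℕ} {Z : Set ℂ} (hZ : volume Z = 0) : volume ((fun t : ℂ => t ^ q) '' Z) = 0 :=
  addHaar_image_eq_zero_of_differentiableOn_of_addHaar_eq_zero volume
    (by fun_prop) hZ

theorem ae_formula (h : Pre N m A Y q r y) {L : ℕ} {ρ : Fin L → Fin N} {k μ : Fin L → ℕ}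
    (hk : ∀ l, 1 ≤ k l) {p : Fin L → ℕ} (hq : ∀ l, q = k l * p l)
    (hE : ∀ l, E q r y (ρ l) (k l) (ρ l))
    (hs : ∀ t ∈ ball (0 : ℂ) r, ∀ g : ℂ → ℝ, ∑ i, g (y i t) =
      ∑ l, (μ l : ℝ) * ∑ j ∈ Finset.range (k l), g (y (ρ l) (om q ^ j * t))) :
    ∀ᵐ z ∂volume.restrict (ball (0 : ℂ) (r ^ q)), ∀ s : Fin L → ℂ, (∀ l, s l ^ k l = z) →
      ∀ g : ℂ → ℝ, ∑ i, g (Y z i) = ∑ l, (μ l : ℝ) * ∑ j ∈ Finset.range (k l),
        g (Wf y (ρ l) (p l) (Complex.exp (2 * Real.pi * Complex.I * j / k l) * s l)) := by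
  rw [ae_restrict_iff' measurableSet_ball]
  have h1 : ∀ᵐ z : ℂ, z ∉ (fun t : ℂ => t ^ q) '' {t | ¬ (t ∈ ball (0 : ℂ) r → t ∈ G Y q y)} := by
    have := ae_image (q := q) h.ae_good
    exact measure_eq_zero_iff_ae_notMem.1 this
  filter_upwards [h1] with z hz hzb s hsz g
  obtain ⟨t, ht, htz⟩ := root_mem (k := 1) (p := q) h.q1 h.r0 (s := z) (by
    rw [pow_one, one_mul]; exact mem_ball_zero_iff.1 hzb)
  have hg : t ∈ G Y q y := by
    by_contra hcon
    exact hz ⟨t, fun h' => hcon (h' ht), htz⟩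
  have e1 := hg g
  rw [htz] at e1
  rw [e1, hs t ht g]
  refine Finset.sum_congr rfl fun l _ => ?_
  congr 1
  have hp := h.p1 (hq l)
  -- the root of s l
  obtain ⟨t', ht', hts'⟩ := root_mem (k := k l) (p := p l) hp h.r0 (s := s l) (by
    rw [← hq l, ← norm_pow, hsz l]; exact mem_ball_zero_iff.1 hzb)
  have h2 : t' ^ q = t ^ q := by
    calc t' ^ q = (t' ^ p l) ^ k l := by rw [hq l, ← pow_mul, mul_comm]
      _ = z := by rw [hts', hsz l]
      _ = t ^ q := htz.symm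
  obtain ⟨n, -, hn⟩ := exists_om h.q1 h2
  have h3 : ∀ j : ℕ, Wf y (ρ l) (p l) (Complex.exp (2 * Real.pi * Complex.I * j / k l) * s l) =
      y (ρ l) (om q ^ (j + n) * t) := fun j => by
    have e5 : Complex.exp (2 * Real.pi * Complex.I * j / k l) = (om q ^ j) ^ p l := by
      rw [om, ← Complex.exp_nat_mul, ← Complex.exp_nat_mul]
      congr 1
      have : (k l : ℂ) ≠ 0 := Nat.cast_ne_zero.2 (by have := hk l; omega)
      have : (p l : ℂ) ≠ 0 := Nat.cast_ne_zero.2 (by omega)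
      conv_rhs => rw [hq l]
      push_cast
      field_simp
    rw [e5, ← hts', ← mul_pow, h.W_pow (hk l) (hq l) (hE l) (h.rot_mem j ht'), hn, ← mul_assoc,
      pow_add]
  simp only [h3]
  refine (sum_shift (f := fun j => g (y (ρ l) (om q ^ j * t))) (fun a => ?_) n).symm
  congr 1
  rw [add_comm, pow_add, mul_assoc]
  exact hE l _ (h.rot_mem a ht)

end Pre

end Vale.Agent.P247.H957.Mono
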