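import Vale.Agent.P247.H957.Mono4

/-! P247, package MONO (helper957), part 5: the conclusion of `PUI_statement`. -/

open scoped ContDiff Topology
open Set MeasureTheory Filter Metric

namespace Vale.Agent.P247.H957.Mono

open Vale.Agent.P247.H74 Vale.Agent.P247.H574

/-- the conclusion of `PUI_statement` with a given `δ`, without the vertical part -/
def Concl (N : ℕ) (m A : ℂ × ℂ → ℂ) (Y : ℂ → Fin N → ℂ) (δ : ℝ) : Prop :=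
  ∃ (L : ℕ) (k μ : Fin L → ℕ) (W : Fin L → ℂ → ℂ),
    (∀ l, 1 ≤ k l ∧ 1 ≤ μ l) ∧ N = ∑ l, k l * μ l ∧
    (∀ l, ContinuousOn (W l) {s | ‖s‖ ^ k l < δ} ∧
      ContDiffOn ℝ ∞ (W l) ({s | ‖s‖ ^ k l < δ} \ {0})) ∧
    (∃ C γ : ℝ, 0 < γ ∧ ∀ l s, s ≠ 0 → ‖s‖ ^ k l < δ → ‖W l s - W l 0‖ ≤ C * ‖s‖ ^ γ ∧
      ‖fderiv ℝ (W l) s‖ ≤ C * ‖s‖ ^ (γ - 1)) ∧
    (∀ l s, s ≠ 0 → ‖s‖ ^ k l < δ →
      dbar (W l) s = m (s ^ k l, W l s) * ((starRingEnd ℂ) s / s) ^ (k l - 1) *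
        ((1 / 2 : ℂ) * (fderiv ℝ (W l) s 1 - Complex.I * fderiv ℝ (W l) s Complex.I)) +
        A (s ^ k l, W l s) * k l * (starRingEnd ℂ) s ^ (k l - 1)) ∧
    (∀ l l' s s', s ≠ 0 → ‖s‖ ^ k l < δ → s ^ k l = s' ^ k l' → W l s = W l' s' →
      l = l' ∧ s = s') ∧
    ∀ᵐ z ∂volume.restrict (ball (0 : ℂ) δ), ∀ s : Fin L → ℂ, (∀ l, s l ^ k l = z) →
      ∀ g : ℂ → ℝ, ∑ i, g (Y z i) = ∑ l, (μ l : ℝ) * ∑ j ∈ Finset.range (k l),
        g (W l (Complex.exp (2 * Real.pi * Complex.I * j / k l) * s l))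

namespace Pre

variable {N : ℕ} {m A : ℂ × ℂ → ℂ} {Y : ℂ → Fin N → ℂ} {q : ℕ} {r : ℝ} {y : Fin N → ℂ → ℂ}

/-- restriction to a smaller disc -/
theorem shrink (h : Pre N m A Y q r y) {r' : ℝ} (hr0 : 0 < r') (hr : r' ≤ r) :
    Pre N m A Y q r' y where
  q1 := h.q1
  r0 := hr0
  cont i := (h.cont i).mono (ball_subset_ball hr)
  smooth i := (h.smooth i).mono (Set.sdiff_subset_sdiff_left (ball_subset_ball hr))
  bd := by
    obtain ⟨C, γ, hγ, hb⟩ := h.bd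
    exact ⟨C, γ, hγ, fun i t ht h0 => hb i t (ball_subset_ball hr ht) h0⟩
  eq i t ht h0 := h.eq i t (ball_subset_ball hr ht) h0
  sep i j := by
    rcases h.sep i j with h1 | h1
    · exact Or.inl fun t ht => h1 t (ball_subset_ball hr ht)
    · exact Or.inr fun t ht => h1 t (ball_subset_ball hr ht)
  ae := ae_restrict_of_ae_restrict_of_subset (ball_subset_ball hr) h.ae

theorem concl (h : Pre N m A Y q r y) (hr1 : r ≤ 1) : Concl N m A Y (r ^ q) := by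
  obtain ⟨L, ρ, k, μ, h1, h2, h3, h4, h5, h6⟩ := h.exists_orbits
  choose p hp using h2
  have hp1 : ∀ l, 1 ≤ p l := fun l => h.p1 (hp l)
  have hroot : ∀ l s, ‖s‖ ^ k l < r ^ q → ∃ t ∈ ball (0 : ℂ) r, t ^ p l = s := fun l s hs =>
    root_mem (k := k l) (hp1 l) h.r0 (by rwa [← hp l])
  have hne : ∀ l {t s : ℂ}, t ^ p l = s → s ≠ 0 → t ≠ 0 := by
    rintro l t s rfl hs rfl
    exact hs (zero_pow (by have := hp1 l; omega))
  obtain ⟨C, γ, hγ, hb⟩ := h.bd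
  have hγ' : 0 < γ / q := div_pos hγ (Nat.cast_pos.2 (by have := h.q1; omega))
  have hbd : ∀ l s, s ≠ 0 → ‖s‖ ^ k l < r ^ q →
      ‖Wf y (ρ l) (p l) s - Wf y (ρ l) (p l) 0‖ ≤ C * ‖s‖ ^ (γ / q) ∧
      ‖fderiv ℝ (Wf y (ρ l) (p l)) s‖ ≤ C * ‖s‖ ^ (γ / q - 1) := fun l s h0 hs => by
    obtain ⟨t, ht, hts⟩ := hroot l s hs
    have ht0 := hne l hts h0
    rw [← hts]
    exact h.W_bd hr1 (h1 l).1 (hp l) (h3 l) hγ ht ht0 (hb _ t ht ht0).1 (hb _ t ht ht0).2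
  have hopen : ∀ l, IsOpen {s : ℂ | ‖s‖ ^ k l < r ^ q} := fun l =>
    isOpen_lt (by fun_prop) continuous_const
  have hsm : ∀ l, ContDiffOn ℝ ∞ (Wf y (ρ l) (p l)) ({s | ‖s‖ ^ k l < r ^ q} \ {0}) := by
    rintro l s ⟨hs, hs0⟩
    obtain ⟨t, ht, hts⟩ := hroot l s hs
    have ht0 := hne l hts hs0
    rw [← hts]
    exact (h.W_local (h1 l).1 (hp l) (h3 l) ht ht0).1.contDiffWithinAt
  refine ⟨L, k, μ, fun l => Wf y (ρ l) (p l), h1, h.count h6, fun l => ⟨?_, hsm l⟩,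
    ⟨C, γ / q, hγ', hbd⟩, ?_, ?_, h.ae_formula (fun l => (h1 l).1) hp h3 h6⟩
  · intro s hs
    by_cases hs0 : s = 0
    · subst hs0
      refine ContinuousAt.continuousWithinAt ?_
      rw [Metric.continuousAt_iff']
      intro ε hε
      have hlim : Tendsto (fun s : ℂ => C * ‖s‖ ^ (γ / q)) (𝓝 0) (𝓝 (C * ‖(0 : ℂ)‖ ^ (γ / q))) := by
        refine Tendsto.const_mul _ ?_
        exact (continuousAt_id.norm.rpow_const (Or.inr hγ'.le))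
      rw [norm_zero, Real.zero_rpow hγ'.ne', mul_zero] at hlim
      have e1 : ∀ᶠ s : ℂ in 𝓝 0, C * ‖s‖ ^ (γ / q) < ε := hlim.eventually_lt_const hε
      filter_upwards [e1, (hopen l).mem_nhds hs] with s h7 h8
      by_cases h9 : s = 0
      · rw [h9, dist_self]; exact hε
      · rw [dist_eq_norm]
        exact (hbd l s h9 h8).1.trans_lt h7
    · exact ((hsm l).contDiffAt (((hopen l).sdiff isClosed_singleton).mem_nhds
        ⟨hs, hs0⟩)).continuousAt.continuousWithinAt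
  · intro l s h0 hs
    obtain ⟨t, ht, hts⟩ := hroot l s hs
    have ht0 := hne l hts h0
    simp only [← hts]
    exact h.W_eq (h1 l).1 (hp l) (h3 l) ht ht0
  · intro l l' s s' h0 hs he hW
    obtain ⟨n, hn, t, hst, hst'⟩ := h.W_inj (h1 l).1 (h1 l').1 (hp l) (hp l') (h3 l) (h3 l')
      h0 hs he hW
    have hll : l' = l := h5 _ _ _ hn
    subst hll
    refine ⟨rfl, ?_⟩
    obtain ⟨c, hc⟩ := h4 _ _ hn
    rw [hst, hst', mul_pow, ← pow_mul, hc]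
    have : k l' * c * p l' = q * c := by
      conv_rhs => rw [hp l']
      ring
    rw [this, pow_mul, om_pow h.q1, one_pow, one_mul]

/-- the conclusion of `PUI_statement` -/
theorem pui (h : Pre N m A Y q r y) {R : Measure (ℂ × ℂ)}
    (hR : ∃ δ > 0, R (ball (0 : ℂ) δ ×ˢ univ) = 0) :
    ∃ δ > 0, ∃ (L : ℕ) (k μ : Fin L → ℕ) (W : Fin L → ℂ → ℂ),
    R (ball (0 : ℂ) δ ×ˢ univ) = 0 ∧
    (∀ l, 1 ≤ k l ∧ 1 ≤ μ l) ∧ N = ∑ l, k l * μ l ∧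
    (∀ l, ContinuousOn (W l) {s | ‖s‖ ^ k l < δ} ∧
      ContDiffOn ℝ ∞ (W l) ({s | ‖s‖ ^ k l < δ} \ {0})) ∧
    (∃ C γ : ℝ, 0 < γ ∧ ∀ l s, s ≠ 0 → ‖s‖ ^ k l < δ → ‖W l s - W l 0‖ ≤ C * ‖s‖ ^ γ ∧
      ‖fderiv ℝ (W l) s‖ ≤ C * ‖s‖ ^ (γ - 1)) ∧
    (∀ l s, s ≠ 0 → ‖s‖ ^ k l < δ →
      dbar (W l) s = m (s ^ k l, W l s) * ((starRingEnd ℂ) s / s) ^ (k l - 1) *
        ((1 / 2 : ℂ) * (fderiv ℝ (W l) s 1 - Complex.I * fderiv ℝ (W l) s Complex.I)) +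
        A (s ^ k l, W l s) * k l * (starRingEnd ℂ) s ^ (k l - 1)) ∧
    (∀ l l' s s', s ≠ 0 → ‖s‖ ^ k l < δ → s ^ k l = s' ^ k l' → W l s = W l' s' →
      l = l' ∧ s = s') ∧
    ∀ᵐ z ∂volume.restrict (ball (0 : ℂ) δ), ∀ s : Fin L → ℂ, (∀ l, s l ^ k l = z) →
      ∀ g : ℂ → ℝ, ∑ i, g (Y z i) = ∑ l, (μ l : ℝ) * ∑ j ∈ Finset.range (k l),
        g (W l (Complex.exp (2 * Real.pi * Complex.I * j / k l) * s l)) := by
  obtain ⟨δ, hδ, hR⟩ := hR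
  have hr0 : 0 < min r (min 1 δ) := lt_min h.r0 (lt_min one_pos hδ)
  have hr1 : min r (min 1 δ) ≤ 1 := (min_le_right _ _).trans (min_le_left _ _)
  have hrδ : min r (min 1 δ) ≤ δ := (min_le_right _ _).trans (min_le_right _ _)
  obtain ⟨L, k, μ, W, hc⟩ := (h.shrink hr0 (min_le_left _ _)).concl hr1
  refine ⟨min r (min 1 δ) ^ q, pow_pos hr0 _, L, k, μ, W, ?_, hc⟩
  refine measure_mono_null (prod_mono (ball_subset_ball ?_) le_rfl) hR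
  exact (pow_le_of_le_one hr0.le hr1 (by have := h.q1; omega)).trans hrδ

end Pre

/-- If the branches over `t ^ q` exist and the vertical part vanishes then `PUI_statement`. -/
theorem PUI_of_Pre (H : ∀ (N : ℕ) (m A : ℂ × ℂ → ℂ) (ρ : ℝ) (Y P : ℂ → Fin N → ℂ)
    (R : Measure (ℂ × ℂ)), ContDiffOn ℝ ∞ m (PD 2) → ContDiffOn ℝ ∞ A (PD 2) →
    (∀ p ∈ PD 2, ‖m p‖ < 1) → ρ < 1 → MG2 N m A ρ Y P R →
    (∃ q r y, Pre N m A Y q r y) ∧ ∃ δ > 0, R (ball (0 : ℂ) δ ×ˢ univ) = 0) :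
    PUI_statement := by
  intro N m A ρ Y P R hm hA hmb hρ hMG
  obtain ⟨⟨q, r, y, h⟩, hR⟩ := H N m A ρ Y P R hm hA hmb hρ hMG
  exact h.pui hR

end Vale.Agent.P247.H957.Mono

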